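import Mathlib

set_option linter.all false

/-! The arithmetic of the estimate (EST). -/

namespace Vale.Agent.P184.H38

theorem est_arith {R : ℝ} (hR : 1 ≤ R) (k : ℕ) :
    (8 / R + √(100 / R * √(2 * k))) ^ (2 * k) ≤ (459 * √k / R) ^ k := by
  rcases Nat.eq_zero_or_pos k with rfl | hk
  · simp
  rw [pow_mul]
  refine pow_le_pow_left₀ (sq_nonneg _) ?_ k
  have hk1 : (1 : ℝ) ≤ k := by exact_mod_cast hk
  have hR0 : 0 < R := by linarith
  set r := √R with hr
  set t := √(√(k : ℝ)) with ht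
  have hr1 : 1 ≤ r := Real.one_le_sqrt.2 hR
  have hr0 : 0 < r := by linarith
  have ht1 : 1 ≤ t := Real.one_le_sqrt.2 (Real.one_le_sqrt.2 hk1)
  have hr2 : R = r ^ 2 := (Real.sq_sqrt hR0.le).symm
  have ht2 : √(k : ℝ) = t ^ 2 := (Real.sq_sqrt (Real.sqrt_nonneg _)).symm
  have h1 : √(100 / R * √(2 * k)) ≤ 12 * t / r := by
    apply Real.sqrt_le_iff.2
    refine ⟨by positivity, ?_⟩
    rw [Real.sqrt_mul (by norm_num), ht2, hr2]
    have h2 : √2 ≤ 1.44 := by
      rw [Real.sqrt_le_iff]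
      norm_num
    have h3 : 100 / r ^ 2 * (√2 * t ^ 2) ≤ 100 / r ^ 2 * (1.44 * t ^ 2) := by
      gcongr
    refine h3.trans (le_of_eq ?_)
    field_simp
    ring
  have h2 : 8 / R ≤ 8 * t / r := by
    rw [hr2, div_le_div_iff₀ (by positivity) hr0]
    have : 1 ≤ t * r := by nlinarith
    nlinarith
  have h3 : 8 / R + √(100 / R * √(2 * k)) ≤ 20 * t / r := by
    refine (add_le_add h2 h1).trans (le_of_eq ?_)
    ring
  have h4 : 0 ≤ 8 / R + √(100 / R * √(2 * k)) := by positivity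
  refine (pow_le_pow_left₀ h4 h3 2).trans ?_
  rw [ht2, hr2, div_pow, div_le_div_iff₀ (by positivity) (by positivity)]
  nlinarith [sq_nonneg (t * r)]

end Vale.Agent.P184.H38
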