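import Vale.Agent.P184.H38.Wick2

set_option linter.all false

/-! The Wick functional of a field of vectors on a group: exchange, squares, twisted cyclicity,
invariance, bounds; bounds for the words of differences. -/

noncomputable section

namespace Vale.Agent.P184.H38

section field

variable {G V : Type*} [Group G] (S : V → V → ℝ) (v : G → V) (x : G)

theorem pfd_sq (h1 : ∀ p, S (v p) (v p) = 1) (A : List V) (p : G) (B : List V) :
    wk S (A ++ v p :: v p :: B) = wk S (A ++ B) := by
  rw [wk_sq, h1, one_mul]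

theorem pfd_cyc (h2 : ∀ p q, S (v q) (v (x * p)) = - S (v p) (v q)) (p : G) (L : List G)
    (hL : Odd L.length) : wk S (v p :: L.map v) = - wk S (L.map v ++ [v (x * p)]) := by
  refine wk_cyc S (L.map v) (v p) (v (x * p)) ?_ (by simpa using hL)
  intro z hz
  obtain ⟨q, _, rfl⟩ := List.mem_map.1 hz
  exact h2 p q

theorem pfd_inv (h : G) (h3 : ∀ p q, S (v (h * p)) (v (h * q)) = S (v p) (v q)) (L : List G) :
    wk S ((L.map (h * ·)).map v) = wk S (L.map v) := by
  have e1 : wk S ((L.map (h * ·)).map v) = wk (fun p q => S (v p) (v q)) (L.map (h * ·)) :=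
    wk_map (fun p q => S (v p) (v q)) S v _ (fun _ _ _ _ => rfl)
  have e2 : wk S (L.map v) = wk (fun p q => S (v p) (v q)) L :=
    wk_map (fun p q => S (v p) (v q)) S v _ (fun _ _ _ _ => rfl)
  rw [e1, e2]
  exact wk_map _ _ (h * ·) L fun p _ q _ => h3 p q

end field

section lists

variable {V E : Type*} (S : V → V → ℝ)

/-- Hadamard's bound for lists. -/
theorem wk_bound_list (d : E → V) (g : E → ℝ) (hg : ∀ a, 0 ≤ g a) (M : ℝ) (hM : 0 ≤ M)
    (L : List E) (hS : ∀ a ∈ L, ∀ b ∈ L, |S (d a) (d b)| ≤ M * g a * g b) (k : ℕ)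
    (hL : L.length = 2 * k) :
    |wk S (L.map d)| ≤ (M * √(2 * k)) ^ k * (L.map g).prod := by
  have e1 : L.map d = List.ofFn fun i : Fin (2 * k) => d (L.get (i.cast hL.symm)) := by
    apply List.ext_getElem
    · simp [hL]
    · intro m h1 h2
      simp
  have e2 : L.map g = List.ofFn fun i : Fin (2 * k) => g (L.get (i.cast hL.symm)) := by
    apply List.ext_getElem
    · simp [hL]
    · intro m h1 h2
      simp
  rw [e1, e2, List.prod_ofFn]
  refine (wk_bound S _ (fun i => g (L.get (i.cast hL.symm))) (fun i => hg _) M hM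
    fun i j _ => hS _ (List.get_mem _ _) _ (List.get_mem _ _)).trans (le_of_eq ?_)
  ring

theorem wk_th_list {W : Type*} [AddCommGroup W] [Module ℝ W] (SA : LinearMap.BilinForm ℝ W)
    (φ : ℝ) (hφ : 0 < Real.sin (φ / 2)) (u : E → ℂ) (w : E → W) (g : E → ℝ)
    (hg : ∀ a, 0 ≤ g a) (a M : ℝ) (ha : 0 ≤ a) (hM : 0 ≤ M) (L : List E)
    (hu : ∀ z ∈ L, ‖u z‖ ≤ a * g z) (hw : ∀ y ∈ L, ∀ z ∈ L, |SA (w y) (w z)| ≤ M * g y * g z)
    (n : ℕ) (hL : L.length = n) :
    |wk (fun x y => dS (Sth φ) SA x y) (L.map fun z => (u z, w z))| ≤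
      1 / Real.sin (φ / 2) * (a + √(M * √n)) ^ n * (L.map g).prod := by
  subst hL
  have e1 : (L.map fun z => (u z, w z)) = List.ofFn fun i : Fin L.length =>
      (u (L.get i), w (L.get i)) := by
    apply List.ext_getElem
    · simp
    · intro m h1 h2
      simp
  have e2 : L.map g = List.ofFn fun i : Fin L.length => g (L.get i) := by
    apply List.ext_getElem
    · simp
    · intro m h1 h2
      simp
  rw [e1, e2, List.prod_ofFn]
  exact wk_th_bound φ SA hφ _ _ (fun i => g (L.get i)) (fun i => hg _) a M ha hM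
    (fun i => hu _ (List.get_mem _ _)) fun i j _ => hw _ (List.get_mem _ _) _ (List.get_mem _ _)

theorem flat_length {A : Type*} (R : List A) (f f' : A → E) :
    (R.flatMap fun t => [f t, f' t]).length = 2 * R.length := by
  induction R with
  | nil => rfl
  | cons t R ih =>
      rw [List.flatMap_cons, List.length_append, ih]
      simp only [List.length_cons, List.length_nil]
      ring

theorem flat_prod {A : Type*} (R : List A) (f f' : A → E) (g : E → ℝ) :
    ((R.flatMap fun t => [f t, f' t]).map g).prod = (R.map fun t => g (f t) * g (f' t)).prod := by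
  induction R with
  | nil => rfl
  | cons t R ih =>
      rw [List.flatMap_cons, List.map_append, List.prod_append, ih]
      simp

theorem flat_map {A F : Type*} (R : List A) (f f' : A → E) (d : E → F) :
    (R.flatMap fun t => [f t, f' t]).map d = R.flatMap fun t => [d (f t), d (f' t)] := by
  induction R with
  | nil => rfl
  | cons t R ih =>
      rw [List.flatMap_cons, List.map_append, ih, List.flatMap_cons]
      simp

end lists

section bounds

variable {G V : Type*}

/-- A bound of the functional on the vectors of the field. -/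
theorem pfd_bd {V : Type*} (S : V → V → ℝ) (v : G → V) (C : ℝ)
    (hC : ∀ p q, |S (v p) (v q)| ≤ C) (n : ℕ) :
    ∃ K : ℝ, ∀ L : List G, L.length = n → |wk S (L.map v)| ≤ K := by
  rcases isEmpty_or_nonempty G with hG | ⟨⟨p⟩⟩
  · refine ⟨|wk S []|, fun L _ => ?_⟩
    cases L with
    | nil => exact le_rfl
    | cons a L => exact (hG.false a).elim
  have hC0 : 0 ≤ C := (abs_nonneg _).trans (hC p p)
  rcases Nat.even_or_odd n with he | ho
  · obtain ⟨k, hk⟩ := he
    refine ⟨(C * √(2 * k)) ^ k, fun L hL => ?_⟩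
    have := wk_bound_list S v (fun _ => 1) (fun _ => zero_le_one) C hC0 L
      (fun a _ b _ => by simpa using hC a b) k (by omega)
    simpa using this
  · refine ⟨0, fun L hL => ?_⟩
    rw [wk_odd S _ (by rw [List.length_map, hL]; exact ho), abs_zero]

/-- The bound for words of differences, Hadamard. -/
theorem flat_wk [AddCommGroup V] (S : V → V → ℝ) (v : G → V) (g : G → G → ℝ)
    (hg : ∀ p q, 0 ≤ g p q) (M : ℝ) (hM : 0 ≤ M)
    (hS : ∀ p p' q q', |S (v p - v p') (v q - v q')| ≤ M * g p p' * g q q') (k : ℕ)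
    (R : List (G × G × G)) (hR : R.length = k) :
    |wk S (R.flatMap fun t => [v t.1 - v t.2.1, v t.2.1 - v t.2.2])| ≤
      (M * √(2 * k)) ^ k * (R.map fun t => g t.1 t.2.1 * g t.2.1 t.2.2).prod := by
  have e1 : (R.flatMap fun t => [v t.1 - v t.2.1, v t.2.1 - v t.2.2]) =
      (R.flatMap fun t => [(t.1, t.2.1), (t.2.1, t.2.2)]).map fun z : G × G => v z.1 - v z.2 := by
    rw [flat_map]
  have e2 := flat_prod R (fun t => (t.1, t.2.1)) (fun t => (t.2.1, t.2.2))
    (fun z : G × G => g z.1 z.2)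
  rw [e1, ← e2]
  exact wk_bound_list S _ (fun z : G × G => g z.1 z.2) (fun z => hg _ _) M hM _
    (fun a _ b _ => hS _ _ _ _) k (by rw [flat_length, hR])

/-- The bound for words of differences, sum of the two dimensional functional and a general
one. -/
theorem flat_th {W : Type*} [AddCommGroup W] [Module ℝ W] (SA : LinearMap.BilinForm ℝ W)
    (φ : ℝ) (hφ : 0 < Real.sin (φ / 2)) (v : G → ℂ × W) (g : G → G → ℝ)
    (hg : ∀ p q, 0 ≤ g p q) (a M : ℝ) (ha : 0 ≤ a) (hM : 0 ≤ M)
    (hu : ∀ p q, ‖(v p).1 - (v q).1‖ ≤ a * g p q)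
    (hw : ∀ p p' q q', |SA ((v p).2 - (v p').2) ((v q).2 - (v q').2)| ≤ M * g p p' * g q q')
    (k : ℕ) (R : List (G × G × G)) (hR : R.length = k) :
    |wk (fun x y => dS (Sth φ) SA x y)
      (R.flatMap fun t => [v t.1 - v t.2.1, v t.2.1 - v t.2.2])| ≤
      1 / Real.sin (φ / 2) * (a + √(M * √(2 * k))) ^ (2 * k) *
        (R.map fun t => g t.1 t.2.1 * g t.2.1 t.2.2).prod := by
  have e1 : (R.flatMap fun t => [v t.1 - v t.2.1, v t.2.1 - v t.2.2]) =
      (R.flatMap fun t => [(t.1, t.2.1), (t.2.1, t.2.2)]).map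
        fun z : G × G => ((v z.1).1 - (v z.2).1, (v z.1).2 - (v z.2).2) := by
    rw [flat_map]
    rfl
  have e2 := flat_prod R (fun t => (t.1, t.2.1)) (fun t => (t.2.1, t.2.2))
    (fun z : G × G => g z.1 z.2)
  rw [e1, ← e2]
  have h := wk_th_list SA φ hφ (fun z : G × G => (v z.1).1 - (v z.2).1)
    (fun z : G × G => (v z.1).2 - (v z.2).2) (fun z : G × G => g z.1 z.2) (fun z => hg _ _) a M
    ha hM (R.flatMap fun t => [(t.1, t.2.1), (t.2.1, t.2.2)]) (fun z _ => hu _ _)
    (fun y _ z _ => hw _ _ _ _) (2 * k) (by rw [flat_length, hR])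
  push_cast at h
  exact h

end bounds

end Vale.Agent.P184.H38
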