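import Vale.Agent.P184.H38.Wick3

set_option linter.all false

/-! The Wick functional of several twisted modes through Clifford matrices, bound by the euclidean
norms. -/

noncomputable section

namespace Vale.Agent.P184.H38

open scoped Matrix ComplexConjugate

section matrices

variable {κ : Type*} [Fintype κ] [DecidableEq κ]

theorem trace_le (X : Matrix κ κ ℂ) (r : ℝ) (hr : 0 ≤ r)
    (h : Xᴴ * X = ((r ^ 2 : ℝ) : ℂ) • (1 : Matrix κ κ ℂ)) :
    ‖X.trace‖ ≤ Fintype.card κ * r := by
  have h1 : ∀ i, ‖X i i‖ ≤ r := by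
    intro i
    have h2 := congrFun (congrFun h i) i
    rw [Matrix.mul_apply, Matrix.smul_apply, Matrix.one_apply_eq, smul_eq_mul, mul_one] at h2
    have h3 : ∀ k, Xᴴ i k * X k i = ((‖X k i‖ ^ 2 : ℝ) : ℂ) := by
      intro k
      rw [Matrix.conjTranspose_apply, RCLike.star_def, mul_comm, Complex.mul_conj,
        Complex.normSq_eq_norm_sq]
    simp only [h3] at h2
    rw [← Complex.ofReal_sum] at h2
    have h4 := Complex.ofReal_injective h2
    have h5 : ‖X i i‖ ^ 2 ≤ r ^ 2 := by
      rw [← h4]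
      exact Finset.single_le_sum (f := fun k => ‖X k i‖ ^ 2) (fun k _ => sq_nonneg _)
        (Finset.mem_univ i)
    exact abs_le_of_sq_le_sq' h5 hr |>.2
  rw [Matrix.trace]
  refine (norm_sum_le _ _).trans ((Finset.sum_le_sum fun i _ => h1 i).trans (le_of_eq ?_))
  rw [Finset.sum_const, Finset.card_univ, nsmul_eq_mul]

theorem fb_sub (A B C D A' B' C' D' : Matrix κ κ ℂ) :
    Matrix.fromBlocks A B C D - Matrix.fromBlocks A' B' C' D' =
      Matrix.fromBlocks (A - A') (B - B') (C - C') (D - D') := by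
  ext i j
  rcases i with i | i <;> rcases j with j | j <;> rfl

end matrices

/-- Clifford matrices. -/
theorem cliff (n : ℕ) : ∀ (ζ : Fin n → ℂ), (∀ j, ‖ζ j‖ = 1) →
    ∃ (κ : Type) (_ : Fintype κ) (_ : DecidableEq κ) (c : (Fin n → ℂ) → Matrix κ κ ℂ)
      (Γ Λ : Matrix κ κ ℂ), Fintype.card κ = 2 ^ n ∧ (∀ v w, c (v - w) = c v - c w) ∧
      (∀ v, (c v)ᴴ = c v) ∧
      (∀ v w, c v * c w + c w * c v =
        ((2 * ∑ j, (v j * conj (w j)).re : ℝ) : ℂ) • (1 : Matrix κ κ ℂ)) ∧
      (∀ v, Γ * c v = -(c v * Γ)) ∧ Γᴴ * Γ = 1 ∧ Λᴴ * Λ = 1 ∧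
      (∀ v, Λ * c v = c (fun j => ζ j * v j) * Λ) ∧ Λ * Γ = Γ * Λ ∧
      ‖(Γ * Λ).trace‖ = ∏ j, ‖1 - ζ j‖ := by
  induction n with
  | zero =>
      intro ζ _
      refine ⟨Unit, inferInstance, inferInstance, fun _ => 0, 1, 1, by simp, ?_, ?_, ?_, ?_, ?_,
        ?_, ?_, ?_, ?_⟩ <;> simp
  | succ n ih =>
      intro ζ hζ
      obtain ⟨κ, _, _, c, Γ, Λ, h1, h2, h3, h4, h5, h6, h7, h8, h9, h10⟩ :=
        ih (fun j => ζ j.succ) fun j => hζ _
      have hz0 : ζ 0 * conj (ζ 0) = 1 := by
        rw [Complex.mul_conj, Complex.normSq_eq_norm_sq, hζ 0]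
        simp
      refine ⟨κ ⊕ κ, inferInstance, inferInstance,
        fun v => Matrix.fromBlocks (c fun j => v j.succ) ((conj (v 0)) • 1) ((v 0) • 1)
          (-(c fun j => v j.succ)), Matrix.fromBlocks Γ 0 0 (-Γ),
        Matrix.fromBlocks Λ 0 0 (ζ 0 • Λ), ?_, ?_, ?_, ?_, ?_, ?_, ?_, ?_, ?_, ?_⟩
      · rw [Fintype.card_sum, h1, pow_succ]; ring
      · intro v w
        have e : (fun j : Fin n => (v - w) j.succ) = (fun j => v j.succ) - fun j => w j.succ := rfl
        beta_reduce
        rw [e, h2, Pi.sub_apply, fb_sub, map_sub, sub_smul, sub_smul]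
        congr 1
        abel
      · intro v
        rw [Matrix.fromBlocks_conjTranspose, h3, Matrix.conjTranspose_neg, h3]
        congr 1
        · rw [Matrix.conjTranspose_smul, Matrix.conjTranspose_one, RCLike.star_def]
        · rw [Matrix.conjTranspose_smul, Matrix.conjTranspose_one, RCLike.star_def,
            Complex.conj_conj]
      · intro v w
        rw [Matrix.fromBlocks_multiply, Matrix.fromBlocks_multiply, Matrix.fromBlocks_add,
          ← Matrix.fromBlocks_one, Matrix.fromBlocks_smul]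
        have h11 := h4 (fun j => v j.succ) fun j => w j.succ
        have key : ((2 * ∑ j, (v j * conj (w j)).re : ℝ) : ℂ) =
            (conj (v 0) * w 0 + conj (w 0) * v 0) +
              ((2 * ∑ j : Fin n, (v j.succ * conj (w j.succ)).re : ℝ) : ℂ) := by
          rw [Fin.sum_univ_succ, mul_add, Complex.ofReal_add]
          congr 1
          apply Complex.ext <;> simp <;> ring
        congr 1
        · rw [key, add_smul, ← h11]
          simp only [smul_mul_assoc, mul_smul_comm, mul_one, one_mul, smul_smul]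
          rw [add_smul, mul_comm (w 0), mul_comm (v 0)]
          abel
        · simp only [smul_mul_assoc, mul_smul_comm, mul_one, one_mul, mul_neg, smul_zero]
          abel
        · simp only [smul_mul_assoc, mul_smul_comm, mul_one, one_mul, neg_mul, smul_zero, smul_neg]
          abel
        · rw [key, add_smul, ← h11]
          simp only [smul_mul_assoc, mul_smul_comm, mul_one, one_mul, smul_smul, neg_mul_neg]
          rw [add_smul]
          abel
      · intro v
        rw [Matrix.fromBlocks_multiply, Matrix.fromBlocks_multiply, Matrix.fromBlocks_neg]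
        congr 1
        · simp [h5]
        · simp
        · simp
        · simp [h5]
      · rw [Matrix.fromBlocks_conjTranspose, Matrix.fromBlocks_multiply, ← Matrix.fromBlocks_one]
        congr 1 <;> simp [h6]
      · rw [Matrix.fromBlocks_conjTranspose, Matrix.fromBlocks_multiply, ← Matrix.fromBlocks_one]
        congr 1
        · simp [h7]
        · simp
        · simp
        · rw [Matrix.conjTranspose_smul, smul_mul_smul_comm, h7, RCLike.star_def, mul_comm, hz0]
          simp
      · intro v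
        rw [Matrix.fromBlocks_multiply, Matrix.fromBlocks_multiply]
        have h11 := h8 fun j => v j.succ
        congr 1
        · simp [h11]
        · simp only [mul_smul_comm, mul_one, zero_mul, add_zero, mul_zero, zero_add,
            smul_mul_assoc, one_mul, smul_smul]
          congr 1
          rw [map_mul, ← mul_assoc, hz0, one_mul]
        · simp only [mul_smul_comm, mul_one, zero_mul, add_zero, mul_zero, zero_add,
            smul_mul_assoc, one_mul, smul_smul]
          rw [mul_comm]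
        · simp [h11]
      · rw [Matrix.fromBlocks_multiply, Matrix.fromBlocks_multiply]
        congr 1 <;> simp [h9]
      · rw [Matrix.fromBlocks_multiply]
        have : (Matrix.fromBlocks (Γ * Λ + 0 * 0) (Γ * 0 + 0 * ζ 0 • Λ) (0 * Λ + -Γ * 0)
            (0 * 0 + -Γ * ζ 0 • Λ)).trace = (1 - ζ 0) * (Γ * Λ).trace := by
          rw [Matrix.trace, Fintype.sum_sum_type]
          simp only [Matrix.diag_apply, Matrix.fromBlocks_apply₁₁, Matrix.fromBlocks_apply₂₂]
          have e1 : ∑ x, (Γ * Λ + 0 * 0 : Matrix κ κ ℂ) x x = (Γ * Λ).trace := by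
            simp [Matrix.trace]
          have e2 : ∑ x, (0 * 0 + -Γ * ζ 0 • Λ : Matrix κ κ ℂ) x x =
              - (ζ 0 * (Γ * Λ).trace) := by
            simp [Matrix.trace, Finset.mul_sum]
          rw [e1, e2]
          ring
        rw [this, norm_mul, h10, Fin.prod_univ_succ]

/-- the scalar product -/
def rp {n : ℕ} (v w : Fin n → ℂ) : ℝ := 2 * ∑ j, (v j * conj (w j)).re

theorem half_cot {n : ℕ} (φ : Fin n → ℝ) (hφ : ∀ j, Real.sin (φ j / 2) ≠ 0) (a : Fin n → ℂ) :
    ∃ b : Fin n → ℂ, (∀ j, b j - Complex.exp (φ j * Complex.I) * b j =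
      Complex.exp (φ j * Complex.I) * a j) ∧ ∀ v : Fin n → ℂ, - rp b v = SM φ a v := by
  refine ⟨fun j => -(1 / 2) * (1 - Complex.I * ((Real.cos (φ j / 2) : ℂ) /
    (Real.sin (φ j / 2) : ℂ))) * a j, fun j => ?_, fun v => ?_⟩
  · beta_reduce
    set c := Real.cos (φ j / 2) with hc
    set s := Real.sin (φ j / 2) with hs
    set e := Complex.exp (φ j * Complex.I) with he
    have hcs : (c : ℂ) ^ 2 + (s : ℂ) ^ 2 = 1 := by
      rw [← Complex.ofReal_pow, ← Complex.ofReal_pow, ← Complex.ofReal_add, hc, hs,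
        Real.cos_sq_add_sin_sq, Complex.ofReal_one]
    have hs' : (s : ℂ) ≠ 0 := by exact_mod_cast hφ j
    have he2 : e = (c + s * Complex.I) ^ 2 := by
      have : (c : ℂ) + s * Complex.I = Complex.exp (φ j / 2 * Complex.I) := by
        rw [Complex.exp_mul_I, hc, hs]
        push_cast
        rfl
      rw [this, ← Complex.exp_nat_mul, he]
      congr 1
      push_cast
      ring
    have h1 : -(1 / 2) * (1 - Complex.I * (c / s)) * a j -
        e * (-(1 / 2) * (1 - Complex.I * (c / s)) * a j) =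
        (1 - e) * (-(1 / 2) * (1 - Complex.I * (c / s))) * a j := by
      ring
    rw [h1]
    congr 1
    rw [he2]
    field_simp
    have hI : Complex.I ^ 2 = -1 := Complex.I_sq
    have hI3 : Complex.I ^ 3 = -Complex.I := by rw [pow_succ, hI]; ring
    linear_combination (norm := skip) (0 : ℂ) * hcs
    ring_nf
    simp only [hI, hI3]
    have h4 : (c : ℂ) ^ 2 = 1 - s ^ 2 := by linear_combination hcs
    have h5 : (c : ℂ) ^ 3 = c * (1 - s ^ 2) := by linear_combination (c : ℂ) * hcs
    simp only [h4, h5]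
    ring
  · rw [rp, SM_apply, Finset.mul_sum, ← Finset.sum_neg_distrib]
    refine Finset.sum_congr rfl fun j _ => ?_
    rw [Sth_apply]
    have h8 : -(1 / 2) * (1 - Complex.I * ((Real.cos (φ j / 2) : ℂ) /
        (Real.sin (φ j / 2) : ℂ))) * a j * conj (v j) =
      ((-(1 / 2) : ℝ) : ℂ) * ((a j * conj (v j)) -
        ((Real.cos (φ j / 2) / Real.sin (φ j / 2) : ℝ) : ℂ) *
        (Complex.I * (a j * conj (v j)))) := by
      push_cast
      ring
    rw [h8, Complex.re_ofReal_mul, Complex.sub_re, Complex.re_ofReal_mul, Complex.I_mul_re]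
    ring

/-- Uniqueness of the twisted functional. -/
theorem wk_unique {n : ℕ} (φ : Fin n → ℝ) (hφ : ∀ j, Real.sin (φ j / 2) ≠ 0)
    (F : List (Fin n → ℂ) → ℝ) (h0 : F [] = 1)
    (hsw : ∀ A D a b, F (A ++ a :: b :: D) + F (A ++ b :: a :: D) = rp a b * F (A ++ D))
    (hcyc : ∀ (a : Fin n → ℂ) (L : List (Fin n → ℂ)), Odd L.length →
      F (a :: L) = - F (L ++ [fun j => Complex.exp (φ j * Complex.I) * a j]))
    (hsub : ∀ (L : List (Fin n → ℂ)) (b c : Fin n → ℂ),
      F (L ++ [b]) - F (L ++ [c]) = F (L ++ [b - c]))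
    (L : List (Fin n → ℂ)) (hL : Even L.length) :
    wk (fun x y => SM φ x y) L = F L := by
  have hcons : ∀ (a : Fin n → ℂ) (L : List (Fin n → ℂ)), Odd L.length → F (a :: L) =
      ∑ k : Fin L.length, (-1 : ℝ) ^ (k : ℕ) * SM φ a (L.get k) * F (L.eraseIdx k) := by
    intro a L hL
    obtain ⟨b, hb, hbv⟩ := half_cot φ hφ a
    have hrel := move_rel F rp hsw [] L b
    simp only [List.nil_append, hL.neg_one_pow] at hrel
    have h1 := hcyc b L hL
    have h2 := hcyc a L hL
    have h3 := hsub L b fun j => Complex.exp (φ j * Complex.I) * b j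
    have h4 : (b - fun j => Complex.exp (φ j * Complex.I) * b j) =
        fun j => Complex.exp (φ j * Complex.I) * a j := by
      funext j
      exact hb j
    rw [h4] at h3
    have h6 : F (a :: L) = - ∑ k : Fin L.length, (-1 : ℝ) ^ (k : ℕ) *
        rp b (L.get k) * F (L.eraseIdx k) := by
      rw [h2, ← h3]
      rw [h1] at hrel
      linarith
    rw [h6, ← Finset.sum_neg_distrib]
    refine Finset.sum_congr rfl fun k _ => ?_
    rw [← hbv]
    ring
  induction hn : L.length using Nat.strong_induction_on generalizing L with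
  | _ m ih =>
    cases L with
    | nil => rw [wk_nil, h0]
    | cons a L =>
        have hL' : Odd L.length := by
          rw [List.length_cons, Nat.even_add_one] at hL
          exact Nat.not_even_iff_odd.1 hL
        rw [wk_cons, hcons a L hL']
        refine Finset.sum_congr rfl fun k _ => ?_
        have hk := k.2
        rw [ih (L.eraseIdx k).length ?_ _ ?_ rfl]
        · rw [← hn, List.length_cons, length_erase_lt]; omega
        · rw [length_erase_lt]
          obtain ⟨m, hm⟩ := hL'
          exact ⟨m, by omega⟩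

/-- euclidean norm -/
def en {n : ℕ} (v : Fin n → ℂ) : ℝ := √(∑ j, ‖v j‖ ^ 2)

theorem en_nonneg {n : ℕ} (v : Fin n → ℂ) : 0 ≤ en v := Real.sqrt_nonneg _

theorem en_sq {n : ℕ} (v : Fin n → ℂ) : en v ^ 2 = ∑ j, ‖v j‖ ^ 2 :=
  Real.sq_sqrt (Finset.sum_nonneg fun _ _ => sq_nonneg _)

/-- The bound by euclidean norms. -/
theorem wk_SM_bound {n : ℕ} (φ : Fin n → ℝ) (hφ : ∀ j, 0 < Real.sin (φ j / 2))
    (L : List (Fin n → ℂ)) :
    |wk (fun x y => SM φ x y) L| ≤ (∏ j, 1 / Real.sin (φ j / 2)) * (L.map en).prod := by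
  have hP0 : 0 ≤ ∏ j : Fin n, 1 / Real.sin (φ j / 2) :=
    Finset.prod_nonneg fun j _ => (div_pos one_pos (hφ _)).le
  have hE0 : 0 ≤ (L.map en).prod := by
    refine List.prod_nonneg fun x hx => ?_
    obtain ⟨v, _, rfl⟩ := List.mem_map.1 hx
    exact en_nonneg v
  rcases Nat.even_or_odd L.length with he | ho
  swap
  · rw [wk_odd _ _ ho, abs_zero]
    exact mul_nonneg hP0 hE0
  set ζ : Fin n → ℂ := fun j => Complex.exp (φ j * Complex.I) with hζ
  have hζ1 : ∀ j, ‖ζ j‖ = 1 := fun j => Complex.norm_exp_ofReal_mul_I _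
  obtain ⟨κ, _, _, c, Γ, Λ, h1, h2, h3, h4, h5, h6, h7, h8, h9, h10⟩ := cliff n ζ hζ1
  have hnorm : ∀ j, ‖1 - ζ j‖ = 2 * Real.sin (φ j / 2) := by
    intro j
    rw [norm_sub_rev]
    have := Complex.norm_exp_I_mul_ofReal_sub_one (φ j)
    rw [mul_comm Complex.I] at this
    rw [hζ]
    beta_reduce
    rw [this, Real.norm_eq_abs, abs_mul, abs_of_pos (hφ j)]
    norm_num
  set t := (Γ * Λ).trace with ht
  have htn : ‖t‖ = 2 ^ n * ∏ j, Real.sin (φ j / 2) := by
    rw [h10, Finset.prod_congr rfl fun j _ => hnorm j, Finset.prod_mul_distrib, Finset.prod_const,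
      Finset.card_univ, Fintype.card_fin]
  have ht0 : t ≠ 0 := by
    rw [← norm_pos_iff, htn]
    exact mul_pos (by positivity) (Finset.prod_pos fun j _ => hφ j)
  have hsc : ∀ (r : ℝ) (A : Matrix κ κ ℂ), ((r : ℂ) • A).trace = (r : ℂ) * A.trace := by
    intro r A
    rw [Matrix.trace_smul, smul_eq_mul]
  set F : List (Fin n → ℂ) → ℝ := fun L => ((Γ * Λ * (L.map c).prod).trace / t).re with hF
  have hmain : wk (fun x y => SM φ x y) L = F L := by
    refine wk_unique φ (fun j => (hφ j).ne') F ?_ ?_ ?_ ?_ L he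
    · simp only [hF, List.map_nil, List.prod_nil, mul_one]
      rw [← ht, div_self ht0, Complex.one_re]
    · intro A D a b
      simp only [hF, List.map_append, List.map_cons, List.prod_append, List.prod_cons]
      rw [← Complex.add_re, ← add_div, ← Matrix.trace_add, ← mul_add, ← mul_add,
        ← mul_assoc (c a), ← mul_assoc (c b), ← add_mul, h4]
      rw [smul_mul_assoc, one_mul, mul_smul_comm, mul_smul_comm, hsc, mul_div_assoc,
        Complex.re_ofReal_mul]
      rfl
    · intro a L _
      simp only [hF, List.map_append, List.map_cons, List.prod_append, List.prod_cons,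
        List.map_nil, List.prod_nil, mul_one]
      rw [← Complex.neg_re, ← neg_div, ← Matrix.trace_neg]
      congr 2
      have e1 : c (fun j => Complex.exp (φ j * Complex.I) * a j) * (Γ * Λ) = -(Γ * Λ * c a) := by
        have h11 := h8 a
        calc c (fun j => Complex.exp (φ j * Complex.I) * a j) * (Γ * Λ)
            = c (fun j => ζ j * a j) * (Λ * Γ) := by rw [h9]
          _ = (Λ * c a) * Γ := by rw [← mul_assoc, h11]
          _ = Λ * (c a * Γ) := by rw [mul_assoc]
          _ = Λ * (-(Γ * c a)) := by rw [h5 a, neg_neg]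
          _ = -(Γ * Λ * c a) := by rw [mul_neg, ← mul_assoc, h9]
      have e2 : c (fun j => Complex.exp (φ j * Complex.I) * a j) *
          (Γ * Λ * (L.map c).prod) = -(Γ * Λ * c a) * (L.map c).prod := by
        rw [← e1]
        simp only [mul_assoc]
      rw [Matrix.trace_neg, ← mul_assoc (Γ * Λ) (L.map c).prod, Matrix.trace_mul_comm
        (Γ * Λ * (L.map c).prod), e2, neg_mul, Matrix.trace_neg, neg_neg]
      simp only [mul_assoc]
    · intro L b c'
      simp only [hF, List.map_append, List.map_cons, List.prod_append, List.prod_cons,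
        List.map_nil, List.prod_nil, mul_one]
      rw [← Complex.sub_re, ← sub_div, ← Matrix.trace_sub, ← mul_sub, ← mul_sub, h2]
  rw [hmain]
  have hX : ∀ L : List (Fin n → ℂ), (Γ * Λ * (L.map c).prod)ᴴ * (Γ * Λ * (L.map c).prod) =
      (((L.map en).prod ^ 2 : ℝ) : ℂ) • (1 : Matrix κ κ ℂ) := by
    intro L
    have hcc : ∀ v, c v * c v = ((en v ^ 2 : ℝ) : ℂ) • (1 : Matrix κ κ ℂ) := by
      intro v
      have h11 := h4 v v
      rw [← two_smul ℂ] at h11
      have h12 : ((2 * ∑ j, (v j * conj (v j)).re : ℝ) : ℂ) = 2 * ((en v ^ 2 : ℝ) : ℂ) := by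
        rw [en_sq]
        push_cast
        congr 1
        refine Finset.sum_congr rfl fun j _ => ?_
        rw [Complex.mul_conj, Complex.ofReal_re, Complex.normSq_eq_norm_sq]
        push_cast
        rfl
      rw [h12, mul_smul] at h11
      exact smul_right_injective _ (two_ne_zero (α := ℂ)) h11
    induction L using List.reverseRecOn with
    | nil =>
        simp only [List.map_nil, List.prod_nil, mul_one, one_pow, Complex.ofReal_one, one_smul]
        rw [Matrix.conjTranspose_mul, mul_assoc, ← mul_assoc Γᴴ, h6, one_mul, h7]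
    | append_singleton L v ih =>
        simp only [List.map_append, List.map_cons, List.prod_append, List.prod_cons,
          List.map_nil, List.prod_nil, mul_one]
        rw [← mul_assoc (Γ * Λ), Matrix.conjTranspose_mul _ (c v), h3, mul_assoc,
          ← mul_assoc _ _ (c v), ih, smul_mul_assoc, one_mul, mul_smul_comm, hcc, smul_smul]
        congr 1
        push_cast
        ring
  have hb := trace_le _ _ hE0 (hX L)
  rw [h1] at hb
  have h13 : |F L| ≤ ‖(Γ * Λ * (L.map c).prod).trace / t‖ := Complex.abs_re_le_norm _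
  refine h13.trans ?_
  rw [norm_div, htn]
  have hp2 : (0 : ℝ) < 2 ^ n * ∏ j, Real.sin (φ j / 2) :=
    mul_pos (by positivity) (Finset.prod_pos fun j _ => hφ j)
  rw [div_le_iff₀ hp2]
  have h14 : (∏ j, 1 / Real.sin (φ j / 2)) * ∏ j, Real.sin (φ j / 2) = 1 := by
    rw [← Finset.prod_mul_distrib]
    exact Finset.prod_eq_one fun j _ => by
      have := (hφ j).ne'
      field_simp
  calc ‖(Γ * Λ * (L.map c).prod).trace‖ ≤ 2 ^ n * (L.map en).prod := by
        push_cast at hb
        exact hb
    _ = ((∏ j, 1 / Real.sin (φ j / 2)) * ∏ j, Real.sin (φ j / 2)) *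
        (2 ^ n * (L.map en).prod) := by rw [h14, one_mul]
    _ = _ := by ring

section

variable {W : Type*} [AddCommGroup W] [Module ℝ W] (SA : LinearMap.BilinForm ℝ W)

/-- The bound for the direct sum, by euclidean norms. -/
theorem wk_E_bound {n N : ℕ} (φ : Fin n → ℝ) (hφ : ∀ j, 0 < Real.sin (φ j / 2))
    (u : Fin N → Fin n → ℂ) (w : Fin N → W) (g : Fin N → ℝ)
    (hg : ∀ i, 0 ≤ g i) (a M : ℝ) (ha : 0 ≤ a) (hM : 0 ≤ M) (hu : ∀ i, en (u i) ≤ a * g i)
    (hw : ∀ i j, i < j → |SA (w i) (w j)| ≤ M * g i * g j) :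
    |wk (fun x y => dS (SM φ) SA x y) (List.ofFn fun i => (u i, w i))| ≤
      (∏ j, 1 / Real.sin (φ j / 2)) * (a + √(M * √N)) ^ N * ∏ i, g i := by
  have h := wk_dsum_bound (SM φ) SA u w (fun i => a * g i) (fun i => √(M * √N) * g i)
    (fun i => mul_nonneg ha (hg i)) (fun i => mul_nonneg (Real.sqrt_nonneg _) (hg i))
    (∏ j, 1 / Real.sin (φ j / 2)) 1
    (Finset.prod_nonneg fun j _ => (div_pos one_pos (hφ _)).le) zero_le_one (fun l _ => by
      refine (wk_SM_bound φ hφ _).trans ?_
      rw [List.map_map]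
      refine mul_le_mul_of_nonneg_left ?_
        (Finset.prod_nonneg fun j _ => (div_pos one_pos (hφ _)).le)
      have hle : ∀ l : List (Fin N), (l.map (en ∘ u)).prod ≤
          (l.map fun i => a * g i).prod ∧ 0 ≤ (l.map (en ∘ u)).prod := by
        intro l
        induction l with
        | nil => simp
        | cons i l ih =>
            simp only [List.map_cons, List.prod_cons, Function.comp_apply]
            exact ⟨mul_le_mul (hu i) ih.1 ih.2 (mul_nonneg ha (hg i)),
              mul_nonneg (en_nonneg _) ih.2⟩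
      exact (hle l).1)
    (fun l hl => by
      rw [one_mul]
      exact wk_bound_sub (fun x y => SA x y) w g hg M hM hw l hl)
  refine h.trans (le_of_eq ?_)
  have : ∀ i, a * g i + √(M * √N) * g i = (a + √(M * √N)) * g i := fun i => by ring
  simp only [this, Finset.prod_mul_distrib, Finset.prod_const, Finset.card_univ, Fintype.card_fin]
  ring

theorem wk_E_list {E : Type*} {n : ℕ} (φ : Fin n → ℝ) (hφ : ∀ j, 0 < Real.sin (φ j / 2))
    (u : E → Fin n → ℂ) (w : E → W) (g : E → ℝ)
    (hg : ∀ a, 0 ≤ g a) (a M : ℝ) (ha : 0 ≤ a) (hM : 0 ≤ M) (L : List E)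
    (hu : ∀ z ∈ L, en (u z) ≤ a * g z)
    (hw : ∀ y ∈ L, ∀ z ∈ L, |SA (w y) (w z)| ≤ M * g y * g z)
    (N : ℕ) (hL : L.length = N) :
    |wk (fun x y => dS (SM φ) SA x y) (L.map fun z => (u z, w z))| ≤
      (∏ j, 1 / Real.sin (φ j / 2)) * (a + √(M * √N)) ^ N * (L.map g).prod := by
  subst hL
  have e1 : (L.map fun z => (u z, w z)) = List.ofFn fun i : Fin L.length =>
      (u (L.get i), w (L.get i)) := by
    apply List.ext_getElem
    · simp
    · intro m h1 h2
      simp
  have e2 : L.map g = List.ofFn fun i : Fin L.length => g (L.get i) := by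
    apply List.ext_getElem
    · simp
    · intro m h1 h2
      simp
  rw [e1, e2, List.prod_ofFn]
  exact wk_E_bound SA φ hφ _ _ (fun i => g (L.get i)) (fun i => hg _) a M ha hM
    (fun i => hu _ (List.get_mem _ _)) fun i j _ => hw _ (List.get_mem _ _) _ (List.get_mem _ _)

/-- The bound for words of differences, with several modes, euclidean norms; list of pairs. -/
theorem flat_E {G : Type*} {n : ℕ} (φ : Fin n → ℝ) (hφ : ∀ j, 0 < Real.sin (φ j / 2))
    (v : G → (Fin n → ℂ) × W) (g : G → G → ℝ)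
    (hg : ∀ p q, 0 ≤ g p q) (a M : ℝ) (ha : 0 ≤ a) (hM : 0 ≤ M)
    (hu : ∀ p q, en (fun j => (v p).1 j - (v q).1 j) ≤ a * g p q)
    (hw : ∀ p p' q q', |SA ((v p).2 - (v p').2) ((v q).2 - (v q').2)| ≤ M * g p p' * g q q')
    (N : ℕ) (R : List (G × G)) (hR : R.length = N) :
    |wk (fun x y => dS (SM φ) SA x y) (R.map fun t => v t.1 - v t.2)| ≤
      (∏ j, 1 / Real.sin (φ j / 2)) * (a + √(M * √N)) ^ N * (R.map fun t => g t.1 t.2).prod :=
  wk_E_list SA φ hφ (fun z : G × G => (v z.1).1 - (v z.2).1)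
    (fun z : G × G => (v z.1).2 - (v z.2).2) (fun z : G × G => g z.1 z.2) (fun z => hg _ _) a M
    ha hM R (fun z _ => hu z.1 z.2) (fun y _ z _ => hw _ _ _ _) N hR

end

end Vale.Agent.P184.H38
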