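import Vale.Agent.P184.H38.PfD
import Vale.Agent.P184.H505.PfData
import Vale.Agent.P184.R3.UDefs

set_option linter.all false

/-! Averaging of twisted functionals over a coamenable subgroup of the centralizer. -/

noncomputable section

namespace Vale.Agent.P184.H38

open Vale.Agent.P184.Un Vale.Agent.P184.H505

section mean

variable {G : Type*} [Group G] {C D : Subgroup G} {m : (G → ℝ) → ℝ}
  (hadd : ∀ f g, BddInv C D f → BddInv C D g → m (fun c => f c + g c) = m f + m g)
  (hpos : ∀ f, BddInv C D f → (∀ c ∈ C, 0 ≤ f c) → 0 ≤ m f)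
  (hconst : ∀ r : ℝ, m (fun _ => r) = r)

theorem bi_const (r : ℝ) : BddInv C D fun _ => r := ⟨⟨|r|, fun _ _ => le_rfl⟩, fun _ _ _ _ => rfl⟩

theorem bi_neg {f : G → ℝ} (hf : BddInv C D f) : BddInv C D fun c => - f c := by
  obtain ⟨⟨K, hK⟩, h⟩ := hf
  exact ⟨⟨K, fun c hc => by rw [abs_neg]; exact hK c hc⟩,
    fun d hd c hc => congrArg (- ·) (h d hd c hc)⟩

theorem bi_sub {f g : G → ℝ} (hf : BddInv C D f) (hg : BddInv C D g) :
    BddInv C D fun c => f c - g c := by
  obtain ⟨⟨K, hK⟩, h⟩ := hf
  obtain ⟨⟨K', hK'⟩, h'⟩ := hg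
  exact ⟨⟨K + K', fun c hc => (abs_sub _ _).trans (add_le_add (hK c hc) (hK' c hc))⟩,
    fun d hd c hc => congrArg₂ (· - ·) (h d hd c hc) (h' d hd c hc)⟩

include hadd hconst in
theorem m_neg {f : G → ℝ} (hf : BddInv C D f) : m (fun c => - f c) = - m f := by
  have h := hadd f (fun c => - f c) hf (bi_neg hf)
  have h0 : (fun c => f c + - f c) = fun _ : G => (0 : ℝ) := by
    funext c; ring
  rw [h0, hconst] at h
  linarith

include hadd in
theorem m_sub {f g : G → ℝ} (hf : BddInv C D f) (hg : BddInv C D g) :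
    m (fun c => f c - g c) = m f - m g := by
  have h := hadd (fun c => f c - g c) g (bi_sub hf hg) hg
  have h0 : (fun c => f c - g c + g c) = f := by
    funext c; ring
  rw [h0] at h
  linarith

include hadd hpos in
theorem m_mono {f g : G → ℝ} (hf : BddInv C D f) (hg : BddInv C D g)
    (h : ∀ c ∈ C, f c ≤ g c) : m f ≤ m g := by
  have h1 := hpos (fun c => g c - f c) (bi_sub hg hf) fun c hc => sub_nonneg.2 (h c hc)
  rw [m_sub hadd hg hf] at h1
  linarith

include hadd hpos in
theorem m_congr {f g : G → ℝ} (hf : BddInv C D f) (hg : BddInv C D g)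
    (h : ∀ c ∈ C, f c = g c) : m f = m g :=
  le_antisymm (m_mono hadd hpos hf hg fun c hc => (h c hc).le)
    (m_mono hadd hpos hg hf fun c hc => (h c hc).ge)

include hadd hpos hconst in
theorem m_abs {f : G → ℝ} (hf : BddInv C D f) (B : ℝ) (h : ∀ c ∈ C, |f c| ≤ B) : |m f| ≤ B := by
  rw [abs_le]
  constructor
  · have := m_mono hadd hpos (bi_const (C := C) (D := D) (-B)) hf
      fun c hc => (abs_le.1 (h c hc)).1
    rwa [hconst] at this
  · have := m_mono hadd hpos hf (bi_const (C := C) (D := D) B)
      fun c hc => (abs_le.1 (h c hc)).2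
    rwa [hconst] at this

end mean

section norm1

variable {G : Type*}

/-- the `ℓ¹` norm -/
def n1 (a : G →₀ ℝ) : ℝ := a.sum fun _ r => |r|

theorem n1_nonneg (a : G →₀ ℝ) : 0 ≤ n1 a := Finset.sum_nonneg fun _ _ => abs_nonneg _

theorem frS_apply (S : G → G → ℝ) (a b : G →₀ ℝ) :
    frS S a b = a.sum fun p r => b.sum fun q t => r * t * S p q := by
  simp [frS, Finsupp.lift_apply, Finsupp.sum, LinearMap.sum_apply, Finset.mul_sum, mul_assoc]

theorem abs_frS_le (S : G → G → ℝ) (K : ℝ) (hK : ∀ p q, |S p q| ≤ K) (a b : G →₀ ℝ) :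
    |frS S a b| ≤ K * n1 a * n1 b := by
  rw [frS_apply]
  unfold n1 Finsupp.sum
  refine (Finset.abs_sum_le_sum_abs _ _).trans ?_
  rw [mul_assoc, Finset.sum_mul_sum, Finset.mul_sum]
  refine Finset.sum_le_sum fun p _ => (Finset.abs_sum_le_sum_abs _ _).trans ?_
  rw [Finset.mul_sum]
  refine Finset.sum_le_sum fun q _ => ?_
  rw [abs_mul, abs_mul, mul_comm]
  exact mul_le_mul_of_nonneg_right (hK p q) (by positivity)

theorem wk_frS_bound [Nonempty G] (K : ℝ) (L : List (G →₀ ℝ)) :
    ∃ B : ℝ, ∀ S : G → G → ℝ, (∀ p q, |S p q| ≤ K) → |wk (fun a b => frS S a b) L| ≤ B := by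
  by_cases hK : 0 ≤ K
  · rcases Nat.even_or_odd L.length with he | ho
    · obtain ⟨k, hk⟩ := he
      refine ⟨(K * √(2 * k)) ^ k * (L.map n1).prod, fun S hS => ?_⟩
      have := wk_bound_list (fun a b => frS S a b) (fun a => a) n1 n1_nonneg K hK L
        (fun a _ b _ => abs_frS_le S K hS a b) k (by omega)
      simpa using this
    · exact ⟨0, fun S _ => by rw [wk_odd _ _ ho, abs_zero]⟩
  · refine ⟨0, fun S hS => ?_⟩
    obtain ⟨p⟩ := ‹Nonempty G›
    exact absurd ((abs_nonneg _).trans (hS p p)) hK

end norm1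

section main

variable {G : Type*} [Group G] {V : Type*} [AddCommGroup V] [Module ℝ V]

/-- The linear extension of a field. -/
def lf (w : G → V) : (G →₀ ℝ) →ₗ[ℝ] V := Finsupp.lift V ℝ G w

theorem lf_single (w : G → V) (p : G) : lf w (Finsupp.single p 1) = w p := by
  simp [lf]

theorem frS_lf (S : LinearMap.BilinForm ℝ V) (w : G → V) (a b : G →₀ ℝ) :
    S (lf w a) (lf w b) = frS (fun p q => S (w p) (w q)) a b := by
  rw [frS_apply]
  simp only [lf, Finsupp.lift_apply, Finsupp.sum, map_sum, LinearMap.sum_apply, map_smul,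
    LinearMap.smul_apply, smul_eq_mul]
  rw [Finset.sum_comm]
  refine Finset.sum_congr rfl fun p _ => ?_
  rw [Finset.mul_sum]
  exact Finset.sum_congr rfl fun q _ => by ring

theorem wk_lf (S : LinearMap.BilinForm ℝ V) (w : G → V) (L : List (G →₀ ℝ)) :
    wk (fun a b => frS (fun p q => S (w p) (w q)) a b) L = wk (fun a b => S a b) (L.map (lf w)) :=
  (wk_map _ _ (lf w) L fun a _ b _ => frS_lf S w a b).symm

/-- The averaged functional. -/
theorem mean_pf (S : LinearMap.BilinForm ℝ V) (v : G → V) (x : G) (D : Subgroup G)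
    (hx : x ∈ D) (hD : D ≤ Cen x) (hm : CoAmenable (Cen x) D)
    (h1 : ∀ p, S (v p) (v p) = 1) (h2 : ∀ p q, S (v q) (v (x * p)) = - S (v p) (v q))
    (h3 : ∀ d ∈ D, ∀ p q, S (v (d * p)) (v (d * q)) = S (v p) (v q)) (K : ℝ)
    (hK : ∀ p q, |S (v p) (v q)| ≤ K) :
    ∃ P : PfData G (G →₀ ℝ) x, (∀ p, P.v p = Finsupp.single p 1) ∧
      ∀ (L : List (G × G)) (B : ℝ),
        (∀ c ∈ Cen x, |wk (fun a b => S a b) (L.map fun t => v (c * t.1) - v (c * t.2))| ≤ B) →
        |P.Pf (L.map fun t => P.v t.1 - P.v t.2)| ≤ B := by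
  obtain ⟨m, hadd, hpos, hconst, hinv⟩ := hm
  set k : G → G → G → ℝ := fun c p q => S (v (c * p)) (v (c * q)) with hk
  set F : List (G →₀ ℝ) → G → ℝ := fun L c => wk (fun a b => frS (k c) a b) L with hF
  have hbi : ∀ L, BddInv (Cen x) D (F L) := by
    intro L
    haveI : Nonempty G := ⟨1⟩
    obtain ⟨B, hB⟩ := wk_frS_bound (G := G) K L
    refine ⟨⟨B, fun c _ => hB (k c) fun p q => hK _ _⟩, fun d hd c _ => ?_⟩
    have : k (d * c) = k c := by
      funext p q
      simp only [hk, mul_assoc]
      exact h3 d hd _ _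
    simp only [hF, this]
  have hcomm : ∀ c ∈ Cen x, c * x = x * c := by
    intro c hc
    exact (Subgroup.mem_centralizer_singleton_iff.1 hc).symm ▸ rfl
  have hsingle : ∀ (c : G) (L : List G), F (L.map fun p => Finsupp.single p 1) c = wk (k c) L := by
    intro c L
    exact (wk_free (k c) L).symm
  let P : PfData G (G →₀ ℝ) x :=
    { v := fun p => Finsupp.single p 1
      Pf := fun L => m (F L)
      nil := by
        have : F [] = fun _ => (1 : ℝ) := by
          funext c; exact wk_nil _
        rw [this, hconst]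
      sub := fun A u w B => by
        have : F (A ++ (u - w) :: B) = fun c => F (A ++ u :: B) c - F (A ++ w :: B) c := by
          funext c; exact wk_sub (frS (k c)) u w A B
        rw [this]
        exact m_sub hadd (hbi _) (hbi _)
      sq := fun A p B => by
        have : F (A ++ Finsupp.single p 1 :: Finsupp.single p 1 :: B) = F (A ++ B) := by
          funext c
          have h := wk_sq_bil (frS (k c)) A B (Finsupp.single p 1)
          rw [frS_single] at h
          simp only [hF]
          rw [h]
          simp only [hk, h1, one_mul]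
        rw [this]
      cyc := fun p L hL => by
        have hc : ∀ c ∈ Cen x, F (Finsupp.single p 1 :: L.map fun p => Finsupp.single p 1) c =
            - F ((L.map fun p => Finsupp.single p 1) ++ [Finsupp.single (x * p) 1]) c := by
          intro c hc
          have e1 := hsingle c (p :: L)
          have e2 := hsingle c (L ++ [x * p])
          simp only [List.map_cons, List.map_append, List.map_nil] at e1 e2
          rw [e1, e2]
          refine wk_cyc (k c) L p (x * p) (fun q _ => ?_) hL
          simp only [hk]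
          rw [← mul_assoc, hcomm c hc, mul_assoc]
          exact h2 _ _
        exact (m_congr hadd hpos (hbi _) (bi_neg (hbi _)) hc).trans
          (m_neg hadd hconst (hbi _))
      inv := fun h hh L => by
        have hmem : h ∈ Cen x := by
          rw [Cen, Subgroup.mem_centralizer_singleton_iff]
          first | exact hh.symm | exact hh
        have : F ((L.map (h * ·)).map fun p => Finsupp.single p 1) =
            fun c => F (L.map fun p => Finsupp.single p 1) (c * h) := by
          funext c
          rw [hsingle, hsingle]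
          refine wk_map (k (c * h)) (k c) (h * ·) L fun p _ q _ => ?_
          simp only [hk, mul_assoc]
        rw [this]
        exact hinv _ (hbi _) h hmem
      bd := fun n => by
        haveI : Nonempty G := ⟨1⟩
        obtain ⟨B, hB⟩ : ∃ B : ℝ, ∀ (c : G) (L : List G), L.length = n → |wk (k c) L| ≤ B := by
          have hK0 : 0 ≤ K := (abs_nonneg _).trans (hK 1 1)
          rcases Nat.even_or_odd n with he | ho
          · obtain ⟨j, hj⟩ := he
            refine ⟨(K * √(2 * j)) ^ j, fun c L hL => ?_⟩
            have := wk_bound_list (k c) (fun p : G => p) (fun _ => 1) (fun _ => zero_le_one) K hK0 L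
              (fun a _ b _ => by simpa using hK _ _) j (by omega)
            simpa using this
          · exact ⟨0, fun c L hL => by rw [wk_odd _ _ (by rw [hL]; exact ho), abs_zero]⟩
        refine ⟨B, fun L hL => ?_⟩
        refine m_abs hadd hpos hconst (hbi _) B fun c _ => ?_
        rw [hsingle]
        exact hB c L hL }
  refine ⟨P, fun p => rfl, fun L B hB => ?_⟩
  refine m_abs hadd hpos hconst (hbi _) B fun c hc => ?_
  have e1 : F (L.map fun t => P.v t.1 - P.v t.2) c =
      wk (fun a b => S a b) (L.map fun t => v (c * t.1) - v (c * t.2)) := by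
    simp only [hF, hk]
    rw [wk_lf S (fun p => v (c * p)), List.map_map]
    congr 1
    refine List.map_congr_left fun t _ => ?_
    simp only [Function.comp_apply]
    rw [map_sub]
    exact congrArg₂ _ (lf_single _ _) (lf_single _ _)
  rw [e1]
  exact hB c hc

end main

end Vale.Agent.P184.H38
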