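import Vale.Agent.P184.H38.CSDef
import Vale.Agent.P184.H38.Cliff
import Vale.Agent.P184.H38.Mean
import Vale.Agent.P184.H115.Opt
import Vale.Agent.P184.H250.AsmB

set_option linter.all false

/-! The traces vanish at core-slow elements. -/

open scoped Pointwise

noncomputable section

namespace Vale.Agent.P184.H38

open Vale.Agent.P184.Un Vale.Agent.P184.H505

universe u

/-! ### euclidean norm -/

section en

variable {n : ℕ}

theorem en_eq (v : Fin n → ℂ) : en v = ‖(WithLp.toLp 2 v : EuclideanSpace ℂ (Fin n))‖ := by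
  rw [EuclideanSpace.norm_eq, en]

theorem en_add (v w : Fin n → ℂ) : en (fun j => v j + w j) ≤ en v + en w := by
  rw [en_eq, en_eq, en_eq]
  have : (WithLp.toLp 2 (fun j => v j + w j) : EuclideanSpace ℂ (Fin n)) =
      WithLp.toLp 2 v + WithLp.toLp 2 w := by
    ext j; rfl
  rw [this]
  exact norm_add_le _ _

theorem en_smul (c : ℂ) (v : Fin n → ℂ) : en (fun j => c * v j) = ‖c‖ * en v := by
  rw [en_eq, en_eq]
  have : (WithLp.toLp 2 (fun j => c * v j) : EuclideanSpace ℂ (Fin n)) = c • WithLp.toLp 2 v := by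
    ext j; rfl
  rw [this]
  exact norm_smul _ _

theorem en_neg (v : Fin n → ℂ) : en (fun j => - v j) = en v := by
  unfold en
  simp

theorem en_sub_tri (a b c : Fin n → ℂ) :
    en (fun j => a j - c j) ≤ en (fun j => a j - b j) + en (fun j => b j - c j) := by
  have := en_add (fun j => a j - b j) (fun j => b j - c j)
  have h : (fun j => a j - c j) = fun j => (a j - b j) + (b j - c j) := by
    funext j; ring
  rw [h]
  exact this

theorem en_sub_le (a b : Fin n → ℂ) : en (fun j => a j - b j) ≤ en a + en b := by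
  have := en_add a (fun j => - b j)
  rw [en_neg] at this
  exact this

theorem en_zero : en (fun _ : Fin n => (0 : ℂ)) = 0 := by
  unfold en; simp

theorem en_le_of_sq {v : Fin n → ℂ} {r : ℝ} (hr : 0 ≤ r) (h : ∑ j, ‖v j‖ ^ 2 ≤ r ^ 2) :
    en v ≤ r := by
  unfold en
  rw [Real.sqrt_le_left hr]
  exact h

end en

/-! ### the field -/

section Field

variable {G : Type*} [Group G] (S : Set G) (R : ℕ) (x : G) {n : ℕ} (φ : Fin n → ℝ)
  (u : G → Fin n → ℂ)

/-- the part with values in the finite dimensional space -/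
def UU (p : G) : Fin n → ℂ := fun j => (Real.cos (H174.th S R (p⁻¹ * x * p)) : ℂ) * u p j

/-- the field -/
def VV (p : G) : (Fin n → ℂ) × (G →₀ ℝ) := (UU S R x u p, H174.ww S R x p)

/-- the form -/
def BM : LinearMap.BilinForm ℝ ((Fin n → ℂ) × (G →₀ ℝ)) := dS (SM φ) (frS (H174.kA S R x))

theorem BM_apply (p q : G) : BM S R x φ (VV S R x u p) (VV S R x u q) =
    SM φ (UU S R x u p) (UU S R x u q) + Real.sin (H174.th S R (p⁻¹ * x * p)) *
      Real.sin (H174.th S R (q⁻¹ * x * q)) * H174.kA S R x p q := by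
  rw [BM, dS_apply, VV, VV, H174.frS_ww]

variable {S R x φ u}

variable (h1 : (1 : G) ∈ S) (hS : ∀ s ∈ S, s⁻¹ ∈ S) (hR : 1 ≤ R)

theorem cen_comm {c : G} (hc : c ∈ Cen x) : Commute c x := by
  have := Subgroup.mem_centralizer_singleton_iff.1 hc
  first | exact this | exact this.symm

include h1 hR in
theorem cos_zero {p : G} (hp : p⁻¹ * x * p ∉ S ^ R) :
    Real.cos (H174.th S R (p⁻¹ * x * p)) = 0 := by
  by_contra hne
  exact hp (H174.mem_pow_of_cos_ne hR h1 hne)

include h1 hR in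
theorem UU_zero {p : G} (hp : p⁻¹ * x * p ∉ S ^ R) : UU S R x u p = fun _ => 0 := by
  funext j
  rw [UU, cos_zero h1 hR hp, Complex.ofReal_zero, zero_mul]

variable (hu1 : ∀ p, p⁻¹ * x * p ∈ S ^ R → ∑ j, ‖u p j‖ ^ 2 = 1)

include h1 hR hu1 in
theorem UU_sq (p : G) : ∑ j, ‖UU S R x u p j‖ ^ 2 =
    Real.cos (H174.th S R (p⁻¹ * x * p)) ^ 2 := by
  by_cases hp : p⁻¹ * x * p ∈ S ^ R
  · have : ∀ j, ‖UU S R x u p j‖ ^ 2 =
        Real.cos (H174.th S R (p⁻¹ * x * p)) ^ 2 * ‖u p j‖ ^ 2 := by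
      intro j
      rw [UU, norm_mul, mul_pow, Complex.norm_real, Real.norm_eq_abs, sq_abs]
    simp only [this]
    rw [← Finset.mul_sum, hu1 p hp, mul_one]
  · rw [UU_zero h1 hR hp, cos_zero h1 hR hp]
    simp

include h1 hR hu1 in
theorem en_UU_le (p : G) : en (UU S R x u p) ≤ 1 := by
  refine en_le_of_sq zero_le_one ?_
  rw [UU_sq h1 hR hu1, one_pow]
  exact (Real.cos_sq_le_one _)

include h1 hR hu1 in
theorem norm_UU_le (p : G) (j : Fin n) : ‖UU S R x u p j‖ ≤ 1 := by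
  have h := UU_sq h1 hR hu1 p
  have h2 : ‖UU S R x u p j‖ ^ 2 ≤ ∑ j, ‖UU S R x u p j‖ ^ 2 :=
    Finset.single_le_sum (f := fun j => ‖UU S R x u p j‖ ^ 2) (fun _ _ => sq_nonneg _)
      (Finset.mem_univ j)
  have h3 : ‖UU S R x u p j‖ ^ 2 ≤ 1 := by
    rw [h] at h2
    exact h2.trans (Real.cos_sq_le_one _)
  have := norm_nonneg (UU S R x u p j)
  nlinarith

include h1 hR hu1 in
theorem BM_self (p : G) : BM S R x φ (VV S R x u p) (VV S R x u p) = 1 := by
  rw [BM_apply, SM_self, UU_sq h1 hR hu1]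
  have h2 : Real.sin (H174.th S R (p⁻¹ * x * p)) * Real.sin (H174.th S R (p⁻¹ * x * p)) *
      H174.kA S R x p p = Real.sin (H174.th S R (p⁻¹ * x * p)) ^ 2 := by
    by_cases h : Real.sin (H174.th S R (p⁻¹ * x * p)) = 0
    · rw [h]
      ring
    · rw [H174.kA, inv_mul_cancel, H174.aa_one, H174.aa_eq_zero hR h]
      ring
  rw [h2, Real.cos_sq_add_sin_sq]

variable {D : Subgroup G} {ζ : G → Fin n → ℂ} (hD : D ≤ Cen x)
  (hζ : ∀ d ∈ D, ∀ j, ‖ζ d j‖ = 1)
  (hue : ∀ d ∈ D, ∀ p, p⁻¹ * x * p ∈ S ^ R → ∀ j, u (d * p) j = ζ d j * u p j)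

include h1 hR hD hue in
theorem UU_mul {d : G} (hd : d ∈ D) (p : G) :
    UU S R x u (d * p) = fun j => ζ d j * UU S R x u p j := by
  have hc := cen_comm (hD hd)
  by_cases hp : p⁻¹ * x * p ∈ S ^ R
  · funext j
    rw [UU, UU, H174.conj_mul_left hc, hue d hd p hp]
    ring
  · rw [UU_zero h1 hR hp, UU_zero h1 hR (by rw [H174.conj_mul_left hc]; exact hp)]
    funext j
    rw [mul_zero]

include h1 hR hD hζ hue in
theorem BM_inv {d : G} (hd : d ∈ D) (p q : G) :
    BM S R x φ (VV S R x u (d * p)) (VV S R x u (d * q)) =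
      BM S R x φ (VV S R x u p) (VV S R x u q) := by
  have hc := cen_comm (hD hd)
  rw [BM_apply, BM_apply, UU_mul h1 hR hD hue hd, UU_mul h1 hR hD hue hd,
    SM_rotate φ _ _ _ (hζ d hd), H174.conj_mul_left hc, H174.conj_mul_left hc, H174.kA_inv hc]

include h1 hR hD hue in
theorem BM_cyc (hx : x ∈ D) (hφ : ∀ j, Real.sin (φ j / 2) ≠ 0)
    (hφζ : ∀ j, Complex.exp (φ j * Complex.I) = ζ x j) (p q : G) :
    BM S R x φ (VV S R x u q) (VV S R x u (x * p)) =
      - BM S R x φ (VV S R x u p) (VV S R x u q) := by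
  rw [BM_apply, BM_apply, UU_mul h1 hR hD hue hx, H174.kA_cyc,
    H174.conj_mul_left (Commute.refl x)]
  have h2 := SM_cyc φ hφ (UU S R x u p) (UU S R x u q)
  simp only [hφζ] at h2
  rw [h2]
  ring

include h1 hR hu1 in
theorem BM_abs (hφ : ∀ j, 0 < Real.sin (φ j / 2)) (p q : G) :
    |BM S R x φ (VV S R x u p) (VV S R x u q)| ≤ ∑ j, 1 / Real.sin (φ j / 2) + 1 := by
  rw [BM_apply]
  refine (abs_add_le _ _).trans (add_le_add ?_ ?_)
  · refine (abs_SM_le φ hφ _ _).trans (Finset.sum_le_sum fun j _ => ?_)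
    have h2 : ‖UU S R x u p j‖ * ‖UU S R x u q j‖ ≤ 1 :=
      mul_le_one₀ (norm_UU_le h1 hR hu1 p j) (norm_nonneg _) (norm_UU_le h1 hR hu1 q j)
    exact mul_le_of_le_one_right (div_pos one_pos (hφ j)).le h2
  · rw [abs_mul, abs_mul]
    exact mul_le_one₀ (mul_le_one₀ (H174.abs_sin_th_le _) (abs_nonneg _) (H174.abs_sin_th_le _))
      (abs_nonneg _) (H174.abs_kA_le p q)

variable {δ : ℝ} (hδ : 0 ≤ δ) (hus : ∀ p, p⁻¹ * x * p ∈ S ^ R → ∀ s ∈ S,
  (p * s)⁻¹ * x * (p * s) ∈ S ^ R → ∑ j, ‖u (p * s) j - u p j‖ ^ 2 ≤ δ)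

include h1 hS hR hu1 hδ hus in
theorem UU_step (p : G) {s : G} (hs : s ∈ S) :
    en (fun j => UU S R x u (p * s) j - UU S R x u p j) ≤ √δ + 7 / R := by
  have hR0 := H174.R_pos hR
  have hls : H174.len S R s ≤ 1 := by
    have := H174.len_le_of_mem (R := R) (S := S) (g := s) (n := 1) (by rwa [pow_one])
    simpa using this
  have hc := H174.cos_th_lip hS hR (p⁻¹ * x * p) s
  rw [← H174.conj_mul_right] at hc
  have hc2 : |Real.cos (H174.th S R ((p * s)⁻¹ * x * (p * s))) -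
      Real.cos (H174.th S R (p⁻¹ * x * p))| ≤ 7 / R := by
    refine hc.trans ?_
    have hpi := Real.pi_lt_d2
    have hpi0 := Real.pi_pos
    have h2 : 0 ≤ 2 * Real.pi / R := by positivity
    have h3 : 2 * Real.pi / R ≤ 7 / R := by
      gcongr
      linarith
    have h4 := H174.len_nonneg (S := S) (R := R) s
    nlinarith
  have hs0 : 0 ≤ √δ := Real.sqrt_nonneg _
  by_cases hp : p⁻¹ * x * p ∈ S ^ R
  · by_cases hps : (p * s)⁻¹ * x * (p * s) ∈ S ^ R
    · have e1 : (fun j => UU S R x u (p * s) j - UU S R x u p j) = fun j =>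
          (((Real.cos (H174.th S R ((p * s)⁻¹ * x * (p * s))) -
            Real.cos (H174.th S R (p⁻¹ * x * p)) : ℝ) : ℂ) * u (p * s) j) +
          ((Real.cos (H174.th S R (p⁻¹ * x * p)) : ℂ) * (u (p * s) j - u p j)) := by
        funext j
        rw [UU, UU, Complex.ofReal_sub]
        ring
      rw [e1]
      refine (en_add _ _).trans ?_
      rw [en_smul, en_smul (Real.cos (H174.th S R (p⁻¹ * x * p)) : ℂ)
        (fun j => u (p * s) j - u p j), Complex.norm_real, Complex.norm_real, Real.norm_eq_abs,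
        Real.norm_eq_abs]
      have h2 : en (u (p * s)) ≤ 1 := en_le_of_sq zero_le_one (by rw [hu1 _ hps, one_pow])
      have h3 : en (fun j => u (p * s) j - u p j) ≤ √δ :=
        en_le_of_sq hs0 (by rw [Real.sq_sqrt hδ]; exact hus p hp s hs hps)
      have h4 : |Real.cos (H174.th S R (p⁻¹ * x * p))| ≤ 1 := Real.abs_cos_le_one _
      have h5 := en_nonneg (u (p * s))
      have h6 := en_nonneg fun j => u (p * s) j - u p j
      have h7 := mul_le_mul hc2 h2 h5 (by positivity)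
      have h8 := mul_le_mul h4 h3 h6 zero_le_one
      linarith
    · rw [UU_zero h1 hR hps]
      have e1 : (fun j => (fun _ : Fin n => (0 : ℂ)) j - UU S R x u p j) =
          fun j => - UU S R x u p j := by
        funext j; ring
      rw [e1, en_neg]
      have h2 : en (UU S R x u p) ≤ |Real.cos (H174.th S R (p⁻¹ * x * p))| :=
        en_le_of_sq (abs_nonneg _) (by rw [UU_sq h1 hR hu1, sq_abs])
      rw [cos_zero h1 hR hps, zero_sub, abs_neg] at hc2
      linarith
  · rw [UU_zero h1 hR hp]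
    have e1 : (fun j => UU S R x u (p * s) j - (fun _ : Fin n => (0 : ℂ)) j) =
        UU S R x u (p * s) := by
      funext j; ring
    rw [e1]
    have h2 : en (UU S R x u (p * s)) ≤
        |Real.cos (H174.th S R ((p * s)⁻¹ * x * (p * s)))| :=
      en_le_of_sq (abs_nonneg _) (by rw [UU_sq h1 hR hu1, sq_abs])
    rw [cos_zero h1 hR hp, sub_zero] at hc2
    linarith

include h1 hS hR hu1 hδ hus in
theorem UU_lip (p h : G) : en (fun j => UU S R x u (p * h) j - UU S R x u p j) ≤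
    (√δ + 7 / R) * H174.len S R h := by
  have hR0 := H174.R_pos hR
  have hs0 : 0 ≤ √δ := Real.sqrt_nonneg _
  by_cases hh : H174.Gen S h
  · rw [H174.len_of_gen hh]
    have key : ∀ (m : ℕ) (h : G), h ∈ S ^ m →
        en (fun j => UU S R x u (p * h) j - UU S R x u p j) ≤ (√δ + 7 / R) * m := by
      intro m
      induction m with
      | zero =>
        intro h hh
        rw [pow_zero] at hh
        rw [Set.mem_one.1 hh, mul_one]
        simp only [sub_self]
        rw [en_zero]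
        simp
      | succ m ih =>
        intro h hh
        rw [pow_succ] at hh
        obtain ⟨a, ha, s, hs, rfl⟩ := Set.mem_mul.1 hh
        have h2 := ih a ha
        have h3 := UU_step h1 hS hR hu1 hδ hus (p * a) hs
        rw [mul_assoc] at h3
        refine (en_sub_tri _ (UU S R x u (p * a)) _).trans ((add_le_add h3 h2).trans
          (le_of_eq ?_))
        push_cast
        ring
    exact key _ h (H174.mem_pow_wl hh)
  · rw [H174.len_of_not hh]
    have h2 := en_UU_le h1 hR hu1 (p * h)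
    have h3 := en_UU_le h1 hR hu1 p
    have h4 : (7 : ℝ) / R * R = 7 := by field_simp
    refine (en_sub_le _ _).trans ?_
    rw [add_mul, h4]
    have h5 : 0 ≤ √δ * R := by positivity
    linarith

/-- The bound of the traces obtained from one field. -/
theorem tau_le_field (hx : x ∈ D) (hm : CoAmenable (Cen x) D)
    (hφ : ∀ j, 0 < Real.sin (φ j / 2))
    (hφζ : ∀ j, Complex.exp (φ j * Complex.I) = ζ x j)
    (h1 : (1 : G) ∈ S) (hS : ∀ s ∈ S, s⁻¹ ∈ S) (hR : 1 ≤ R)
    (hu1 : ∀ p, p⁻¹ * x * p ∈ S ^ R → ∑ j, ‖u p j‖ ^ 2 = 1) (hD : D ≤ Cen x)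
    (hζ : ∀ d ∈ D, ∀ j, ‖ζ d j‖ = 1)
    (hue : ∀ d ∈ D, ∀ p, p⁻¹ * x * p ∈ S ^ R → ∀ j, u (d * p) j = ζ d j * u p j)
    (hδ : 0 ≤ δ) (hus : ∀ p, p⁻¹ * x * p ∈ S ^ R → ∀ s ∈ S,
      (p * s)⁻¹ * x * (p * s) ∈ S ^ R → ∑ j, ‖u (p * s) j - u p j‖ ^ 2 ≤ δ)
    {q : ℕ} (f : Mat G q) (hf : IsIdem f)
    (hf1 : ∀ i j, Summable fun g => ‖f i j g‖ * H174.len S R g) (k : ℕ) :
    ‖tau (ConjClasses.mk x) f‖ ≤ (∏ j, 1 / Real.sin (φ j / 2)) *
      (√δ + 7 / R + √(100 / R * √(2 * k))) ^ (2 * k) *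
      (∑ i, ∑ j, ∑' g, ‖f i j g‖) ^ (k + 1) *
      (∑ i, ∑ j, ∑' g, ‖f i j g‖ * H174.len S R g) ^ (2 * k) := by
  have hR0 := H174.R_pos hR
  have hs0 : 0 ≤ √δ := Real.sqrt_nonneg _
  obtain ⟨P, hPv, hP⟩ := mean_pf (BM S R x φ) (VV S R x u) x D hx hD hm
    (fun p => BM_self h1 hR hu1 p)
    (fun p q => BM_cyc h1 hR hD hue hx (fun j => (hφ j).ne') hφζ p q)
    (fun d hd p q => BM_inv h1 hR hD hζ hue hd p q) _ (fun p q => BM_abs h1 hR hu1 hφ p q)
  have hinv : ∀ p q : G, H174.len S R (q⁻¹ * p) = H174.len S R (p⁻¹ * q) := fun p q => by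
    rw [← H174.len_inv hS, mul_inv_rev, inv_inv]
  have hP0 : 0 ≤ ∏ j : Fin n, 1 / Real.sin (φ j / 2) :=
    Finset.prod_nonneg fun j _ => (div_pos one_pos (hφ _)).le
  refine P.bound f hf (H174.len S R) (fun g => H174.len_nonneg _) hf1 k
    ((∏ j, 1 / Real.sin (φ j / 2)) * (√δ + 7 / R + √(100 / R * √(2 * k))) ^ (2 * k))
    (mul_nonneg hP0 (by positivity)) fun T hT => ?_
  have e1 : (T.flatMap fun t => [P.v t.1 - P.v t.2.1, P.v t.2.1 - P.v t.2.2]) =
      (T.flatMap fun t => [(t.1, t.2.1), (t.2.1, t.2.2)]).map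
        fun z : G × G => P.v z.1 - P.v z.2 := by
    rw [flat_map]
  have e2 := flat_prod T (fun t => (t.1, t.2.1)) (fun t => (t.2.1, t.2.2))
    (fun z : G × G => H174.len S R (z.1⁻¹ * z.2))
  rw [e1, ← e2]
  refine hP _ _ fun c _ => ?_
  have hb := flat_E (frS (H174.kA S R x)) φ hφ (fun p => VV S R x u (c * p))
    (fun p q => H174.len S R (p⁻¹ * q)) (fun p q => H174.len_nonneg _) (√δ + 7 / R) (100 / R)
    (by positivity) (by positivity)
    (fun p q => by
      have h2 := UU_lip h1 hS hR hu1 hδ hus (c * q) (q⁻¹ * p)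
      rw [mul_assoc, mul_inv_cancel_left, hinv] at h2
      exact h2)
    (fun p p' q q' => by
      have h2 := H174.sL (x := x) hS hR (c * p') (p'⁻¹ * p) (c * q') (q'⁻¹ * q)
      rw [mul_assoc c, mul_inv_cancel_left, mul_assoc c, mul_inv_cancel_left, hinv p p',
        hinv q q'] at h2
      exact h2)
    (2 * k) (T.flatMap fun t => [(t.1, t.2.1), (t.2.1, t.2.2)]) (by rw [flat_length, hT])
  push_cast at hb
  exact hb

end Field

/-- The phases of unit complex numbers different from `1`. -/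
theorem exists_phase {z : ℂ} (hz : ‖z‖ = 1) (h1 : z ≠ 1) :
    ∃ φ : ℝ, 0 < Real.sin (φ / 2) ∧ Complex.exp (φ * Complex.I) = z ∧
      1 / Real.sin (φ / 2) = 2 / ‖1 - z‖ := by
  obtain ⟨φ, hφ0, hφ1, hφ⟩ : ∃ φ : ℝ, 0 < φ ∧ φ < 2 * Real.pi ∧
      Complex.exp (φ * Complex.I) = z := by
    have hpi := Real.pi_pos
    have harg : Complex.exp (z.arg * Complex.I) = z := by
      have := Complex.norm_mul_exp_arg_mul_I z
      rwa [hz, Complex.ofReal_one, one_mul] at this
    have hne : z.arg ≠ 0 := by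
      intro h0
      rw [h0, Complex.ofReal_zero, zero_mul, Complex.exp_zero] at harg
      exact h1 harg.symm
    rcases lt_or_gt_of_ne hne with h | h
    · refine ⟨z.arg + 2 * Real.pi, ?_, by linarith, ?_⟩
      · have := Complex.neg_pi_lt_arg z
        linarith
      · push_cast
        rw [add_mul, Complex.exp_add, harg, Complex.exp_two_pi_mul_I, mul_one]
    · exact ⟨z.arg, h, by linarith [Complex.arg_le_pi z], harg⟩
  have hs : 0 < Real.sin (φ / 2) :=
    Real.sin_pos_of_pos_of_lt_pi (by linarith) (by linarith)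
  refine ⟨φ, hs, hφ, ?_⟩
  have h2 : ‖1 - z‖ = 2 * Real.sin (φ / 2) := by
    rw [norm_sub_rev, ← hφ]
    have := Complex.norm_exp_I_mul_ofReal_sub_one φ
    rw [mul_comm Complex.I] at this
    rw [this, Real.norm_eq_abs, abs_mul, abs_of_pos hs]
    norm_num
  rw [h2]
  field_simp

section Main

variable {G : Type u} [Group G]

/-- **The traces vanish at core-slow elements.** -/
theorem vanishesAt_of_coreSlow {x : G} (h : CoreSlow x) : VanishesAt x := by
  intro q e he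
  obtain ⟨S, f, -, h1, hS, hf, htau, hf0, hf1⟩ := H250.exists_decay_moment e he ∅
  rw [← htau, ← norm_le_zero_iff]
  set N0 : ℝ := ∑ i, ∑ j, ∑' g, ‖f i j g‖ with hN0
  set N1 : ℝ := ∑ i, ∑ j, ∑' g, ‖f i j g‖ * (H250.wl S g : ℝ) with hN1
  have hN00 : 0 ≤ N0 := Finset.sum_nonneg fun i _ => Finset.sum_nonneg fun j _ =>
    tsum_nonneg fun g => norm_nonneg _
  have hN10 : 0 ≤ N1 := Finset.sum_nonneg fun i _ => Finset.sum_nonneg fun j _ =>
    tsum_nonneg fun g => by positivity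
  set A : ℝ := N0 * N1 ^ 2 + 1 with hA
  have hA1 : 1 ≤ A := by
    rw [hA]
    have : 0 ≤ N0 * N1 ^ 2 := by positivity
    linarith
  -- the size `a0`: `A (2 a0)² = e⁻²`
  set a0 : ℝ := 1 / (2 * Real.exp 1 * √A) with ha0
  have hsA : 0 < √A := Real.sqrt_pos.2 (by linarith)
  have he0 : 0 < Real.exp 1 := Real.exp_pos 1
  have ha00 : 0 < a0 := by rw [ha0]; positivity
  have hAa : A * (2 * a0) ^ 2 = Real.exp (-2) := by
    have h2 : √A ^ 2 = A := Real.sq_sqrt (by linarith)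
    have h3 : 2 * a0 = 1 / (Real.exp 1 * √A) := by
      rw [ha0]
      field_simp
    rw [h3, div_pow, mul_pow, h2, one_pow]
    have h4 : Real.exp (-2) = 1 / Real.exp 1 ^ 2 := by
      rw [Real.exp_neg, ← Real.exp_nat_mul]
      norm_num
    rw [h4]
    field_simp
  set c : ℝ := a0 ^ 4 / 20000 with hc
  have hc0 : 0 < c := by rw [hc]; positivity
  refine H115.nonpos_of_gauss hc0 (C := N0 * Real.exp 2) (by positivity) fun R0 => ?_
  obtain ⟨R, hRR, D, n, ζ, u, hx, hD, hm, hζ, hζx, hue, hu1, hus, hcost⟩ :=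
    h S h1 hS ((a0 / 2) ^ 2) (by positivity) c hc0 (max ⌈R0⌉₊ (max 1 ⌈14 / a0⌉₊))
  have hR1 : 1 ≤ R := (le_max_left _ _).trans ((le_max_right _ _).trans hRR)
  have hRR0 : R0 ≤ R := (Nat.le_ceil R0).trans (by exact_mod_cast (le_max_left _ _).trans hRR)
  have hRa : 14 / a0 ≤ R := (Nat.le_ceil _).trans
    (by exact_mod_cast (le_max_right _ _).trans ((le_max_right _ _).trans hRR))
  have hR0 : (0 : ℝ) < R := by exact_mod_cast hR1
  have hR1' : (1 : ℝ) ≤ R := by exact_mod_cast hR1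
  refine ⟨R, 1, hRR0, hR1', ?_, ?_⟩
  · exact Real.one_le_exp (by positivity)
  choose! φ hφ hφζ hφc using fun j => exists_phase (hζ x hx j) (hζx j)
  set k : ℕ := ⌊c * R ^ 2⌋₊ with hk
  have hkle : (k : ℝ) ≤ c * R ^ 2 := Nat.floor_le (by positivity)
  have hkge : c * R ^ 2 - 1 ≤ k := by
    have := Nat.lt_floor_add_one (c * (R : ℝ) ^ 2)
    rw [← hk] at this
    linarith
  have hlen : ∀ i j g, ‖f i j g‖ * H174.len (S : Set G) R g = ‖f i j g‖ * (H250.wl S g : ℝ) := by
    intro i j g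
    by_cases hg : ∃ n, H250.IsWd S n g
    · rw [H174.len_of_gen (H250.gen_iff.2 hg), H250.wl_eq hg]
    · rw [hf0 i j g hg, norm_zero, zero_mul, zero_mul]
  have hb := tau_le_field (S := (S : Set G)) (R := R) (φ := φ) (u := u) (D := D) (ζ := ζ)
    (δ := (a0 / 2) ^ 2) hx hm hφ hφζ (by exact_mod_cast h1)
    (fun s hs => by exact_mod_cast hS s hs) hR1 hu1 hD hζ hue (by positivity)
    (fun p hp s hs hps => hus p hp s (by exact_mod_cast hs) hps) f hf
    (fun i j => by simpa only [hlen] using hf1 i j) k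
  simp only [hlen] at hb
  rw [← hN0, ← hN1] at hb
  have hsq : √((a0 / 2) ^ 2) = a0 / 2 := Real.sqrt_sq (by positivity)
  rw [hsq] at hb
  -- the first part is at most `a0`
  have hp1 : a0 / 2 + 7 / (R : ℝ) ≤ a0 := by
    have : 7 / (R : ℝ) ≤ a0 / 2 := by
      rw [div_le_iff₀ hR0]
      rw [div_le_iff₀ ha00] at hRa
      linarith
    linarith
  -- the second part is at most `a0`
  have hp2 : √(100 / R * √(2 * k)) ≤ a0 := by
    rw [Real.sqrt_le_left ha00.le]
    have h2 : √(2 * (k : ℝ)) ≤ a0 ^ 2 * R / 100 := by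
      rw [Real.sqrt_le_left (by positivity)]
      calc 2 * (k : ℝ) ≤ 2 * (c * R ^ 2) := by linarith
        _ = (a0 ^ 2 * R / 100) ^ 2 := by
          rw [hc]
          ring
    calc 100 / (R : ℝ) * √(2 * k) ≤ 100 / R * (a0 ^ 2 * R / 100) := by gcongr
      _ = a0 ^ 2 := by field_simp
  have hcost' : ∏ j, 1 / Real.sin (φ j / 2) ≤ Real.exp (c * R ^ 2) := by
    rw [Finset.prod_congr rfl fun j _ => hφc j]
    exact hcost
  have hP0 : 0 ≤ ∏ j, 1 / Real.sin (φ j / 2) :=
    Finset.prod_nonneg fun j _ => (div_pos one_pos (hφ _)).le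
  set X := a0 / 2 + 7 / (R : ℝ) + √(100 / R * √(2 * k)) with hX
  have hX0 : 0 ≤ X := by positivity
  have hX2 : X ≤ 2 * a0 := by rw [hX]; linarith
  have hstep : N0 * N1 ^ 2 * X ^ 2 ≤ Real.exp (-2) := by
    rw [← hAa]
    have h2 : X ^ 2 ≤ (2 * a0) ^ 2 := pow_le_pow_left₀ hX0 hX2 2
    have h3 : N0 * N1 ^ 2 ≤ A := by rw [hA]; linarith
    exact mul_le_mul h3 h2 (sq_nonneg _) (by linarith)
  refine hb.trans ?_
  calc (∏ j, 1 / Real.sin (φ j / 2)) * X ^ (2 * k) * N0 ^ (k + 1) * N1 ^ (2 * k)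
      = (∏ j, 1 / Real.sin (φ j / 2)) * (N0 * (N0 * N1 ^ 2 * X ^ 2) ^ k) := by
        rw [pow_succ N0 k, pow_mul N1 2 k, pow_mul X 2 k, mul_pow, mul_pow]
        ring
    _ ≤ Real.exp (c * R ^ 2) * (N0 * Real.exp (-2) ^ k) := by
        refine mul_le_mul hcost' ?_ (by positivity) (Real.exp_pos _).le
        exact mul_le_mul_of_nonneg_left (pow_le_pow_left₀ (by positivity) hstep k) hN00
    _ = N0 * Real.exp (c * R ^ 2 + -2 * k) := by
        rw [← Real.exp_nat_mul, Real.exp_add, mul_comm (k : ℝ) (-2)]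
        ring
    _ ≤ N0 * Real.exp (2 + -(c * R ^ 2)) := by
        refine mul_le_mul_of_nonneg_left (Real.exp_le_exp.2 ?_) hN00
        linarith
    _ = N0 * Real.exp 2 * 1 * 1 * Real.exp (-(c * R ^ 2)) := by
        rw [Real.exp_add]
        ring
    _ ≤ N0 * Real.exp 2 * 1 * R * Real.exp (-(c * R ^ 2)) := by
        gcongr

end Main

end Vale.Agent.P184.H38
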