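import Vale.Agent.P184.R3.UDefs

/-!
# Core-slow elements
-/

open scoped Pointwise

namespace Vale.Agent.P184.H38

open Vale.Agent.P184.Un

/-- `x` is core-slow. For every finite symmetric set `S` containing `1`, all `δ, ε > 0` there are
arbitrarily large `R`, a subgroup `D` of the centralizer of `x` containing `x` and coamenable in
it, and a map `u` on `G`, on the core (the elements `p` such that `p⁻¹ x p` is a product of `R`
elements of `S`) with values in the unit sphere of a finite dimensional space, equivariant for `D`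
acting by diagonal unitary matrices `ζ d`, which varies on the core by at most `√δ` under right
translation by the elements of `S`, such that `ζ x` has no eigenvalue `1` and
`∏ j, 2 / |1 - ζ x j| ≤ exp (ε R ^ 2)`. -/
def CoreSlow {G : Type*} [Group G] (x : G) : Prop :=
  ∀ S : Finset G, 1 ∈ S → (∀ s ∈ S, s⁻¹ ∈ S) → ∀ δ : ℝ, 0 < δ → ∀ ε : ℝ, 0 < ε → ∀ R₀ : ℕ,
    ∃ R : ℕ, R₀ ≤ R ∧ ∃ (D : Subgroup G) (n : ℕ) (ζ u : G → Fin n → ℂ),
      x ∈ D ∧ D ≤ Cen x ∧ CoAmenable (Cen x) D ∧ (∀ d ∈ D, ∀ j, ‖ζ d j‖ = 1) ∧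
      (∀ j, ζ x j ≠ 1) ∧
      (∀ d ∈ D, ∀ p, p⁻¹ * x * p ∈ (S : Set G) ^ R → ∀ j, u (d * p) j = ζ d j * u p j) ∧
      (∀ p, p⁻¹ * x * p ∈ (S : Set G) ^ R → ∑ j, ‖u p j‖ ^ 2 = 1) ∧
      (∀ p, p⁻¹ * x * p ∈ (S : Set G) ^ R → ∀ s ∈ S,
        (p * s)⁻¹ * x * (p * s) ∈ (S : Set G) ^ R → ∑ j, ‖u (p * s) j - u p j‖ ^ 2 ≤ δ) ∧
      ∏ j, (2 / ‖1 - ζ x j‖) ≤ Real.exp (ε * R ^ 2)

end Vale.Agent.P184.H38
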