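import Mathlib

set_option linter.all false

/-! Galois conjugates of the traces of an operator of finite order on the range of an idempotent. -/

noncomputable section

namespace Vale.Agent.P184.H38

open Polynomial

theorem prod_int_aux (n : ℕ) [NeZero n] (P : ℤ[X]) (K : Type) [Field K] [Algebra ℚ K]
    [FiniteDimensional ℚ K] [IsCyclotomicExtension {n} ℚ K] :
    ∃ z : ℤ, (z : ℂ) = ∏ μ ∈ primitiveRoots n ℂ, aeval μ P ∧
      (z = 0 → ∀ μ ∈ primitiveRoots n ℂ, aeval μ P = 0) := by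
  set ζ : K := IsCyclotomicExtension.zeta n ℚ K with hζd
  have hζ : IsPrimitiveRoot ζ n := IsCyclotomicExtension.zeta_spec n ℚ K
  have hirr : Irreducible (cyclotomic n ℚ) := cyclotomic.irreducible_rat (NeZero.pos n)
  set x : K := aeval ζ P with hx
  have hint : IsIntegral ℤ x := by
    have h1 : IsIntegral ℤ ζ := hζ.isIntegral (NeZero.pos n)
    exact IsIntegral.of_mem_of_fg (Algebra.adjoin ℤ {ζ}) h1.fg_adjoin_singleton _
      (aeval_mem_adjoin_singleton ℤ ζ)
  have hnorm := Algebra.isIntegral_norm ℚ hint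
  obtain ⟨z, hz⟩ := IsIntegrallyClosed.isIntegral_iff.1 hnorm
  have hprod := Algebra.norm_eq_prod_embeddings ℚ ℂ x
  have hval : ∀ σ : K →ₐ[ℚ] ℂ, σ x = aeval (σ ζ) P := by
    intro σ
    rw [hx]
    have : σ (aeval ζ P) = (σ.restrictScalars ℤ) (aeval ζ P) := rfl
    rw [this, ← Polynomial.aeval_algHom_apply]
    rfl
  refine ⟨z, ?_, ?_⟩
  · have h2 : (z : ℂ) = algebraMap ℚ ℂ (Algebra.norm ℚ x) := by
      rw [← hz]
      simp
    rw [h2, hprod]
    rw [← Finset.prod_coe_sort (primitiveRoots n ℂ)]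
    refine Fintype.prod_equiv (hζ.embeddingsEquivPrimitiveRoots ℂ hirr) _ _ fun σ => ?_
    rw [hval, IsPrimitiveRoot.embeddingsEquivPrimitiveRoots_apply_coe]
  · intro hz0 μ hμ
    have h3 : Algebra.norm ℚ x = 0 := by
      rw [← hz, hz0]; simp
    have h4 : x = 0 := by
      by_contra hne
      exact (Algebra.norm_ne_zero_iff.2 hne) h3
    set σ := (hζ.embeddingsEquivPrimitiveRoots ℂ hirr).symm ⟨μ, hμ⟩ with hσ
    have h5 : σ ζ = μ := by
      have := IsPrimitiveRoot.embeddingsEquivPrimitiveRoots_apply_coe hζ ℂ hirr σ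
      rw [hσ, Equiv.apply_symm_apply] at this
      rw [hσ]
      exact this.symm
    rw [← h5, ← hval, h4, map_zero]

/-- The product over the primitive roots of unity of the values of an integral polynomial. -/
theorem prod_int (n : ℕ) [NeZero n] (P : ℤ[X]) :
    ∃ z : ℤ, (z : ℂ) = ∏ μ ∈ primitiveRoots n ℂ, aeval μ P ∧
      (z = 0 → ∀ μ ∈ primitiveRoots n ℂ, aeval μ P = 0) := by
  letI : Algebra ℚ (CyclotomicField n ℚ) := CyclotomicField.algebra n ℚ
  haveI : IsCyclotomicExtension {n} ℚ (CyclotomicField n ℚ) :=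
    CyclotomicField.isCyclotomicExtension n ℚ
  haveI : FiniteDimensional ℚ (CyclotomicField n ℚ) :=
    IsCyclotomicExtension.finiteDimensional {n} ℚ (CyclotomicField n ℚ)
  exact prod_int_aux n P (CyclotomicField n ℚ)

theorem all_zero (n : ℕ) [NeZero n] (P : ℤ[X])
    (h : ∏ μ ∈ primitiveRoots n ℂ, ‖(aeval μ P : ℂ)‖ < 1) :
    ∀ μ ∈ primitiveRoots n ℂ, aeval μ P = 0 := by
  obtain ⟨z, hz, h0⟩ := prod_int n P
  apply h0
  have h1 : ‖(z : ℂ)‖ < 1 := by
    rw [hz, norm_prod]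
    exact h
  rw [Complex.norm_intCast] at h1
  have h2 : |z| < 1 := by exact_mod_cast h1
  exact Int.abs_lt_one_iff.1 h2

variable {V : Type*} [AddCommGroup V] [Module ℂ V] [FiniteDimensional ℂ V]

/-- spectral projections of an operator of finite order -/
def sp (n : ℕ) (ζ : ℂ) (Y : V →ₗ[ℂ] V) (j : ℕ) : V →ₗ[ℂ] V :=
  (n : ℂ)⁻¹ • ∑ k ∈ Finset.range n, (ζ ^ (n * j - j * k) : ℂ) • Y ^ k

theorem sum_roots {n : ℕ} {ζ : ℂ} (hζ : IsPrimitiveRoot ζ n) (hn : 0 < n) (m : ℕ) :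
    ∑ j ∈ Finset.range n, ζ ^ (m * j) = if n ∣ m then (n : ℂ) else 0 := by
  split_ifs with h
  · obtain ⟨c, rfl⟩ := h
    have : ∀ j ∈ Finset.range n, ζ ^ (n * c * j) = 1 := fun j _ => by
      rw [mul_assoc, pow_mul, hζ.pow_eq_one, one_pow]
    rw [Finset.sum_congr rfl this]
    simp
  · have hne : ζ ^ m ≠ 1 := fun h1 => h (hζ.dvd_of_pow_eq_one m h1)
    have h1 : ∀ j ∈ Finset.range n, ζ ^ (m * j) = (ζ ^ m) ^ j := fun j _ => by rw [pow_mul]
    rw [Finset.sum_congr rfl h1, geom_sum_eq hne, ← pow_mul, mul_comm m n, pow_mul, hζ.pow_eq_one,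
      one_pow, sub_self, zero_div]

theorem pow_mod {n : ℕ} {ζ : ℂ} (hζ : IsPrimitiveRoot ζ n) (m : ℕ) : ζ ^ (m % n) = ζ ^ m := by
  conv_rhs => rw [← Nat.div_add_mod m n, pow_add, pow_mul, hζ.pow_eq_one, one_pow, one_mul]

/-- Y^a is a combination of the spectral projections. -/
theorem pow_eq_sp {n : ℕ} {ζ : ℂ} (hζ : IsPrimitiveRoot ζ n) (hn : 0 < n) (Y : V →ₗ[ℂ] V)
    (hY : Y ^ n = 1) (a : ℕ) (ha : a < n) :
    Y ^ a = ∑ j ∈ Finset.range n, (ζ ^ (j * a) : ℂ) • sp n ζ Y j := by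
  have hn0 : (n : ℂ) ≠ 0 := by exact_mod_cast hn.ne'
  unfold sp
  simp only [Finset.smul_sum, smul_smul]
  rw [Finset.sum_comm, Finset.sum_eq_single a]
  · rw [← Finset.sum_smul]
    have : ∀ j ∈ Finset.range n, ζ ^ (j * a) * ((n : ℂ)⁻¹ * ζ ^ (n * j - j * a)) = (n : ℂ)⁻¹ := by
      intro j _
      have h1 : j * a ≤ n * j := by rw [mul_comm n j]; exact Nat.mul_le_mul_left _ ha.le
      rw [mul_left_comm, ← pow_add, Nat.add_sub_cancel' h1, pow_mul, hζ.pow_eq_one, one_pow,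
        mul_one]
    rw [Finset.sum_congr rfl this, Finset.sum_const, Finset.card_range, nsmul_eq_mul,
      mul_inv_cancel₀ hn0, one_smul]
  · intro k hk hka
    rw [← Finset.sum_smul]
    have hk' := Finset.mem_range.1 hk
    have : ∀ j ∈ Finset.range n, ζ ^ (j * a) * ((n : ℂ)⁻¹ * ζ ^ (n * j - j * k)) =
        (n : ℂ)⁻¹ * ζ ^ ((a + (n - k)) * j) := by
      intro j _
      rw [mul_left_comm, ← pow_add]
      congr 2
      have h1 : n * j - j * k = (n - k) * j := by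
        rw [Nat.sub_mul, mul_comm j k]
      rw [h1]
      ring
    rw [Finset.sum_congr rfl this, ← Finset.mul_sum, sum_roots hζ hn, if_neg, mul_zero, zero_smul]
    intro hd
    have h2 : a + (n - k) < 2 * n := by omega
    have h3 : 0 < a + (n - k) := by omega
    obtain ⟨c, hc⟩ := hd
    have hc1 : c < 2 := by
      by_contra hge
      have : 2 * n ≤ n * c := by rw [mul_comm 2 n]; exact Nat.mul_le_mul_left _ (by omega)
      omega
    have hc0 : 0 < c := by
      rcases Nat.eq_zero_or_pos c with h | h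
      · rw [h] at hc; omega
      · exact h
    have hc2 : c = 1 := by omega
    rw [hc2] at hc
    omega
  · intro h
    exact absurd (Finset.mem_range.2 ha) h

theorem sp_comm (n : ℕ) (ζ : ℂ) (Y E : V →ₗ[ℂ] V) (hc : Y * E = E * Y) (j : ℕ) :
    sp n ζ Y j * E = E * sp n ζ Y j := by
  have hk : ∀ k, Y ^ k * E = E * Y ^ k := fun k => (Commute.pow_left hc k)
  unfold sp
  rw [smul_mul_assoc, mul_smul_comm, Finset.sum_mul, Finset.mul_sum]
  congr 1
  exact Finset.sum_congr rfl fun k _ => by rw [smul_mul_assoc, mul_smul_comm, hk]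

theorem Y_sp {n : ℕ} {ζ : ℂ} (hζ : IsPrimitiveRoot ζ n) (hn : 0 < n) (Y : V →ₗ[ℂ] V)
    (hY : Y ^ n = 1) (j : ℕ) : Y * sp n ζ Y j = (ζ ^ j : ℂ) • sp n ζ Y j := by
  unfold sp
  rw [mul_smul_comm, smul_comm, Finset.mul_sum]
  congr 1
  rw [Finset.smul_sum]
  obtain ⟨m, rfl⟩ : ∃ m, n = m + 1 := ⟨n - 1, by omega⟩
  rw [Finset.sum_range_succ, Finset.sum_range_succ']
  congr 1
  · refine Finset.sum_congr rfl fun k hk => ?_
    have hk' := Finset.mem_range.1 hk
    rw [mul_smul_comm, ← pow_succ', smul_smul, ← pow_add]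
    congr 2
    have h1 : j * (k + 1) ≤ (m + 1) * j := by
      rw [mul_comm (m + 1) j]; exact Nat.mul_le_mul_left _ (by omega)
    have h2 : j * (k + 1) = j * k + j := by ring
    omega
  · rw [mul_smul_comm, ← pow_succ', hY, pow_zero, smul_smul, ← pow_add]
    congr 1
    have h1 : (m + 1) * j - j * m = j := by
      have : (m + 1) * j = j * m + j := by ring
      omega
    rw [h1, mul_zero, Nat.sub_zero, pow_add, pow_mul, hζ.pow_eq_one, one_pow, mul_one]

theorem sp_idem {n : ℕ} {ζ : ℂ} (hζ : IsPrimitiveRoot ζ n) (hn : 0 < n) (Y : V →ₗ[ℂ] V)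
    (hY : Y ^ n = 1) (j : ℕ) : sp n ζ Y j * sp n ζ Y j = sp n ζ Y j := by
  have hpow : ∀ k, Y ^ k * sp n ζ Y j = (ζ ^ (j * k) : ℂ) • sp n ζ Y j := by
    intro k
    induction k with
    | zero => simp
    | succ k ih =>
        rw [pow_succ, mul_assoc, Y_sp hζ hn Y hY, mul_smul_comm, ih, smul_smul, ← pow_add]
        congr 2
        ring
  have hn0 : (n : ℂ) ≠ 0 := by exact_mod_cast hn.ne'
  conv_lhs => enter [1]; unfold sp
  rw [smul_mul_assoc, Finset.sum_mul]
  have : ∀ k ∈ Finset.range n, ((ζ ^ (n * j - j * k) : ℂ) • Y ^ k) * sp n ζ Y j = sp n ζ Y j := by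
    intro k hk
    have hk' := Finset.mem_range.1 hk
    have h1 : j * k ≤ n * j := by rw [mul_comm n j]; exact Nat.mul_le_mul_left _ hk'.le
    rw [smul_mul_assoc, hpow, smul_smul, ← pow_add, Nat.sub_add_cancel h1, pow_mul,
      hζ.pow_eq_one, one_pow, one_smul]
  rw [Finset.sum_congr rfl this, Finset.sum_const, Finset.card_range, ← Nat.cast_smul_eq_nsmul ℂ,
    smul_smul, inv_mul_cancel₀ hn0, one_smul]

theorem trace_idem_nat (f : V →ₗ[ℂ] V) (hf : f * f = f) :
    ∃ m : ℕ, LinearMap.trace ℂ V f = m := by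
  have h : IsIdempotentElem f := hf
  exact ⟨_, (LinearMap.IsIdempotentElem.isProj_range f h).trace⟩

/-- The traces of the powers are values of an integral polynomial at roots of unity. -/
theorem trace_poly {n : ℕ} {ζ : ℂ} (hζ : IsPrimitiveRoot ζ n) (hn : 0 < n) (Y E : V →ₗ[ℂ] V)
    (hY : Y ^ n = 1) (hE : E * E = E) (hc : Y * E = E * Y) :
    ∃ P : ℤ[X], ∀ a < n, LinearMap.trace ℂ V (Y ^ a * E) = aeval (ζ ^ a) P := by
  have h1 : ∀ j, ∃ m : ℕ, LinearMap.trace ℂ V (sp n ζ Y j * E) = m := fun j =>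
    trace_idem_nat _ (by
      have h2 := sp_comm n ζ Y E hc j
      calc sp n ζ Y j * E * (sp n ζ Y j * E) = sp n ζ Y j * (E * sp n ζ Y j) * E := by
            simp only [mul_assoc]
        _ = sp n ζ Y j * sp n ζ Y j * (E * E) := by rw [← h2]; simp only [mul_assoc]
        _ = _ := by rw [sp_idem hζ hn Y hY, hE])
  choose m hm using h1
  refine ⟨∑ j ∈ Finset.range n, C (m j : ℤ) * X ^ j, fun a ha => ?_⟩
  rw [pow_eq_sp hζ hn Y hY a ha, Finset.sum_mul, map_sum, map_sum]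
  refine Finset.sum_congr rfl fun j _ => ?_
  rw [smul_mul_assoc, map_smul, hm, map_mul, aeval_C, map_pow, aeval_X, ← pow_mul, mul_comm j a,
    smul_eq_mul, mul_comm]
  simp

/-- If the product of the norms of all conjugates is less than one, all traces vanish. -/
theorem trace_zero {n : ℕ} (hn : 0 < n) (Y E : V →ₗ[ℂ] V) (hY : Y ^ n = 1) (hE : E * E = E)
    (hc : Y * E = E * Y)
    (h : ∏ a ∈ (Finset.range n).filter (Nat.Coprime n), ‖LinearMap.trace ℂ V (Y ^ a * E)‖ < 1) :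
    ∀ a < n, Nat.Coprime n a → LinearMap.trace ℂ V (Y ^ a * E) = 0 := by
  haveI : NeZero n := ⟨hn.ne'⟩
  set ζ : ℂ := Complex.exp (2 * Real.pi * Complex.I / n) with hζd
  have hζ : IsPrimitiveRoot ζ n := Complex.isPrimitiveRoot_exp n hn.ne'
  obtain ⟨P, hP⟩ := trace_poly hζ hn Y E hY hE hc
  have hbij : ∏ μ ∈ primitiveRoots n ℂ, ‖(aeval μ P : ℂ)‖ =
      ∏ a ∈ (Finset.range n).filter (Nat.Coprime n), ‖LinearMap.trace ℂ V (Y ^ a * E)‖ := by
    symm
    refine Finset.prod_bij (fun a _ => ζ ^ a) ?_ ?_ ?_ ?_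
    · intro a ha
      rw [Finset.mem_filter, Finset.mem_range] at ha
      rw [mem_primitiveRoots hn]
      exact hζ.pow_of_coprime a ha.2.symm
    · intro a ha b hb hab
      rw [Finset.mem_filter, Finset.mem_range] at ha hb
      exact hζ.pow_inj ha.1 hb.1 hab
    · intro μ hμ
      rw [mem_primitiveRoots hn] at hμ
      obtain ⟨a, ha, hcop, rfl⟩ := hζ.isPrimitiveRoot_iff.1 hμ
      exact ⟨a, by rw [Finset.mem_filter, Finset.mem_range]; exact ⟨ha, hcop.symm⟩, rfl⟩
    · intro a ha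
      rw [Finset.mem_filter, Finset.mem_range] at ha
      rw [hP a ha.1]
  rw [← hbij] at h
  intro a ha hcop
  rw [hP a ha]
  exact all_zero n P h _ ((mem_primitiveRoots hn).2 (hζ.pow_of_coprime a hcop.symm))

end Vale.Agent.P184.H38
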