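import Mathlib

/-!
# Partitions of finite graphs with few cuts
-/

open Finset

namespace Vale.Agent.P184.H38

/-- A family of relations, the `k`-th one being that the distance is at most `k`. -/
structure Scale {X : Type*} (E : ℕ → X → X → Prop) : Prop where
  refl : ∀ y, E 0 y y
  symm : ∀ k y z, E k y z → E k z y
  trans : ∀ k l y z t, E k y z → E l z t → E (k + l) y t
  mono : ∀ k l y z, k ≤ l → E k y z → E l y z

section carve

variable {X : Type*} {E : ℕ → X → X → Prop}

/-- The ball of radius `r` about `y` is cut by the partition `f`. -/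
def CutAt (E : ℕ → X → X → Prop) (r : ℕ) (f : X → X) (y : X) : Prop :=
  ∃ z, E r y z ∧ f z ≠ f y

open Classical in
theorem carve_finset (hE : Scale E) (r : ℕ) {w : X → ℝ} (hw : ∀ y, 1 ≤ w y) {η : ℝ} (hη : 0 < η)
    (I : ℕ) : ∀ Y : Finset X, ∑ y ∈ Y, w y < (1 + η) ^ I →
    ∃ f : X → X, (∀ y ∈ Y, f y ∈ Y ∧ E (2 * r * I) (f y) y) ∧
      ∑ y ∈ Y.filter (fun y => ∃ z ∈ Y, E r y z ∧ f z ≠ f y), w y ≤ η * ∑ y ∈ Y, w y := by
  intro Y
  induction Y using Finset.strongInduction with
  | H Y ih =>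
    intro hY
    have hw0 : ∀ y, 0 ≤ w y := fun y => zero_le_one.trans (hw y)
    by_cases hne : Y.Nonempty
    swap
    · rw [Finset.not_nonempty_iff_eq_empty] at hne
      subst hne
      exact ⟨id, by simp, by simp⟩
    obtain ⟨c, hc⟩ := hne
    set B : ℕ → Finset X := fun i => Y.filter fun y => E (2 * r * i) c y with hB
    have hc0 : ∀ k, E k c c := fun k => hE.mono 0 k c c (Nat.zero_le _) (hE.refl c)
    have hBY : ∀ i, ∑ y ∈ B i, w y ≤ ∑ y ∈ Y, w y := fun i =>
      Finset.sum_le_sum_of_subset_of_nonneg (Finset.filter_subset _ _) fun y _ _ => hw0 y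
    -- the radius
    obtain ⟨i, hiI, hi⟩ : ∃ i < I, ∑ y ∈ B (i + 1), w y ≤ (1 + η) * ∑ y ∈ B i, w y := by
      by_contra hcon
      push Not at hcon
      have h1 : ∀ i ≤ I, (1 + η) ^ i ≤ ∑ y ∈ B i, w y := by
        intro i
        induction i with
        | zero =>
          intro _
          rw [pow_zero]
          have h2 : c ∈ B 0 := Finset.mem_filter.2 ⟨hc, hc0 _⟩
          exact (hw c).trans (Finset.single_le_sum (f := w) (fun y _ => hw0 y) h2)
        | succ i ihi =>
          intro hi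
          rw [pow_succ, mul_comm]
          exact (mul_le_mul_of_nonneg_left (ihi (by omega)) (by linarith)).trans
            (hcon i (by omega)).le
      exact absurd ((h1 I le_rfl).trans (hBY I)) (not_le.2 hY)
    set K : Finset X := Y.filter fun y => E (2 * r * i + r) c y with hK
    set Y' : Finset X := Y \ K with hY'
    have hKY : K ⊆ Y := Finset.filter_subset _ _
    have hcK : c ∈ K := Finset.mem_filter.2 ⟨hc, hc0 _⟩
    have hY'Y : Y' ⊆ Y := Finset.sdiff_subset
    have hss : Y' ⊂ Y := by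
      refine Finset.ssubset_iff_subset_ne.2 ⟨hY'Y, fun h => ?_⟩
      have : c ∈ Y' := h ▸ hc
      exact (Finset.mem_sdiff.1 this).2 hcK
    have hsum : ∑ y ∈ Y', w y + ∑ y ∈ K, w y = ∑ y ∈ Y, w y := Finset.sum_sdiff hKY
    have hK0 : 0 ≤ ∑ y ∈ K, w y := Finset.sum_nonneg fun y _ => hw0 y
    obtain ⟨f', hf', hcut'⟩ := ih Y' hss (by linarith)
    refine ⟨fun y => if y ∈ K then c else f' y, fun y hy => ?_, ?_⟩
    · by_cases hyK : y ∈ K
      · simp only [hyK, if_true]
        refine ⟨hc, hE.mono (2 * r * i + r) _ _ _ ?_ (Finset.mem_filter.1 hyK).2⟩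
        have h2 : 2 * r * (i + 1) ≤ 2 * r * I := Nat.mul_le_mul_left _ hiI
        nlinarith
      · simp only [hyK, if_false]
        obtain ⟨h1, h2⟩ := hf' y (Finset.mem_sdiff.2 ⟨hy, hyK⟩)
        exact ⟨hY'Y h1, h2⟩
    · -- the cut points
      have hB1 : B i ⊆ B (i + 1) := fun y hy => by
        rw [hB, Finset.mem_filter] at hy ⊢
        refine ⟨hy.1, hE.mono _ _ _ _ ?_ hy.2⟩
        exact Nat.mul_le_mul_left _ (Nat.le_succ i)
      have hsub : Y.filter (fun y => ∃ z ∈ Y, E r y z ∧
          (if z ∈ K then c else f' z) ≠ (if y ∈ K then c else f' y)) ⊆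
          (B (i + 1) \ B i) ∪ Y'.filter (fun y => ∃ z ∈ Y', E r y z ∧ f' z ≠ f' y) := by
        intro y hy
        obtain ⟨hyY, z, hzY, hyz, hne⟩ := Finset.mem_filter.1 hy
        rw [Finset.mem_union]
        by_cases hyK : y ∈ K <;> by_cases hzK : z ∈ K
        · simp [hyK, hzK] at hne
        · left
          have h1 := (Finset.mem_filter.1 hyK).2
          rw [Finset.mem_sdiff]
          refine ⟨Finset.mem_filter.2 ⟨hyY, hE.mono _ _ _ _ (by nlinarith) h1⟩, fun h2 => hzK ?_⟩
          exact Finset.mem_filter.2 ⟨hzY, hE.trans _ _ _ _ _ (Finset.mem_filter.1 h2).2 hyz⟩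
        · left
          have h1 := (Finset.mem_filter.1 hzK).2
          have h3 := hE.trans _ _ _ _ _ h1 (hE.symm _ _ _ hyz)
          rw [Finset.mem_sdiff]
          refine ⟨Finset.mem_filter.2 ⟨hyY, hE.mono _ _ _ _ (by nlinarith) h3⟩, fun h2 => hyK ?_⟩
          exact Finset.mem_filter.2 ⟨hyY, hE.mono _ _ _ _ (by omega) (Finset.mem_filter.1 h2).2⟩
        · right
          simp only [hyK, hzK, if_false] at hne
          exact Finset.mem_filter.2 ⟨Finset.mem_sdiff.2 ⟨hyY, hyK⟩, z,
            Finset.mem_sdiff.2 ⟨hzY, hzK⟩, hyz, hne⟩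
      have hBK : B i ⊆ K := fun y hy =>
        Finset.mem_filter.2 ⟨(Finset.mem_filter.1 hy).1,
          hE.mono _ _ _ _ (by omega) (Finset.mem_filter.1 hy).2⟩
      have h5 : ∑ y ∈ B (i + 1) \ B i, w y + ∑ y ∈ B i, w y = ∑ y ∈ B (i + 1), w y :=
        Finset.sum_sdiff hB1
      have h6 : ∑ y ∈ B i, w y ≤ ∑ y ∈ K, w y :=
        Finset.sum_le_sum_of_subset_of_nonneg hBK fun y _ _ => hw0 y
      calc ∑ y ∈ Y.filter (fun y => ∃ z ∈ Y, E r y z ∧
            (if z ∈ K then c else f' z) ≠ (if y ∈ K then c else f' y)), w y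
          ≤ ∑ y ∈ (B (i + 1) \ B i) ∪ Y'.filter (fun y => ∃ z ∈ Y', E r y z ∧ f' z ≠ f' y),
            w y := Finset.sum_le_sum_of_subset_of_nonneg hsub fun y _ _ => hw0 y
        _ ≤ ∑ y ∈ B (i + 1) \ B i, w y +
            ∑ y ∈ Y'.filter (fun y => ∃ z ∈ Y', E r y z ∧ f' z ≠ f' y), w y := by
          rw [← Finset.sum_union_inter]
          exact le_add_of_nonneg_right (Finset.sum_nonneg fun y _ => hw0 y)
        _ ≤ η * ∑ y ∈ K, w y + η * ∑ y ∈ Y', w y := by
          refine add_le_add ?_ hcut'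
          have h7 := mul_le_mul_of_nonneg_left h6 hη.le
          linarith
        _ = η * ∑ y ∈ Y, w y := by
          rw [← hsum]
          ring

variable [Fintype X]

open Classical in
theorem carve (hE : Scale E) (r : ℕ) {w : X → ℝ} (hw : ∀ y, 1 ≤ w y) {η : ℝ} (hη : 0 < η)
    (I : ℕ) (hI : ∑ y, w y < (1 + η) ^ I) :
    ∃ f : X → X, (∀ y, E (2 * r * I) (f y) y) ∧
      ∑ y, (if CutAt E r f y then w y else 0) ≤ η * ∑ y, w y := by
  obtain ⟨f, h1, h2⟩ := carve_finset hE r hw hη I Finset.univ hI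
  refine ⟨f, fun y => (h1 y (Finset.mem_univ y)).2, ?_⟩
  rw [← Finset.sum_filter]
  convert h2 using 3
  simp [CutAt]

open Classical in
/-- Multiplicative weights. -/
theorem carve_iter (hE : Scale E) (r : ℕ) {η : ℝ} (hη : 0 < η) (I : ℕ) : ∀ n : ℕ,
    (1 + η) ^ n * Fintype.card X < (1 + η) ^ I →
    ∃ f : ℕ → X → X, (∀ j < n, ∀ y, E (2 * r * I) (f j y) y) ∧
      ∑ y, (2 : ℝ) ^ #((range n).filter fun j => CutAt E r (f j) y) ≤
        (1 + η) ^ n * Fintype.card X := by
  intro n
  induction n with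
  | zero =>
    intro _
    exact ⟨fun _ => id, by simp, by simp⟩
  | succ n ih =>
    intro h
    have h0 : (1 + η) ^ n * Fintype.card X ≤ (1 + η) ^ (n + 1) * Fintype.card X := by
      rw [pow_succ]
      have : 0 ≤ (1 + η) ^ n * (Fintype.card X : ℝ) := by positivity
      nlinarith
    obtain ⟨f, hf1, hf2⟩ := ih (h0.trans_lt h)
    obtain ⟨g, hg1, hg2⟩ := carve hE r
      (w := fun y => (2 : ℝ) ^ #((range n).filter fun j => CutAt E r (f j) y))
      (fun y => one_le_pow₀ (by norm_num)) hη I (hf2.trans_lt (h0.trans_lt h))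
    refine ⟨fun j => if j = n then g else f j, fun j hj y => ?_, ?_⟩
    · by_cases hjn : j = n
      · simp only [hjn, if_true]
        exact hg1 y
      · simp only [hjn, if_false]
        exact hf1 j (by omega) y
    · have key : ∀ y, (2 : ℝ) ^ #((range (n + 1)).filter fun j =>
          CutAt E r ((fun j => if j = n then g else f j) j) y) =
          (2 : ℝ) ^ #((range n).filter fun j => CutAt E r (f j) y) +
          (if CutAt E r g y then (2 : ℝ) ^ #((range n).filter fun j => CutAt E r (f j) y)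
            else 0) := by
        intro y
        have e1 : (range n).filter (fun j => CutAt E r (if j = n then g else f j) y) =
            (range n).filter fun j => CutAt E r (f j) y := by
          refine Finset.filter_congr fun j hj => ?_
          have : j ≠ n := (Finset.mem_range.1 hj).ne
          simp [this]
        dsimp only
        rw [Finset.range_add_one, Finset.filter_insert, e1]
        simp only [if_true]
        split_ifs with hc
        · rw [Finset.card_insert_of_notMem (by simp), pow_succ]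
          ring
        · ring
      rw [Finset.sum_congr rfl fun y _ => key y, Finset.sum_add_distrib]
      calc _ ≤ ∑ y, (2 : ℝ) ^ #((range n).filter fun j => CutAt E r (f j) y) +
            η * ∑ y, (2 : ℝ) ^ #((range n).filter fun j => CutAt E r (f j) y) := by
            gcongr
        _ = (1 + η) * ∑ y, (2 : ℝ) ^ #((range n).filter fun j => CutAt E r (f j) y) := by ring
        _ ≤ (1 + η) * ((1 + η) ^ n * Fintype.card X) := by gcongr
        _ = _ := by rw [pow_succ]; ring

open Classical in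
/-- **Few cuts.** A finite graph with at most `(5/4) ^ n` vertices has `n` partitions into
clusters of radius at most `2 r (5 n + 1)`, such that every ball of radius `r` is cut by at most
half of the partitions. -/
theorem exists_partitions (hE : Scale E) (r n : ℕ)
    (hX : (Fintype.card X : ℝ) ≤ (5 / 4 : ℝ) ^ n) :
    ∃ f : ℕ → X → X, (∀ j < n, ∀ y, E (2 * r * (5 * n + 1)) (f j y) y) ∧
      ∀ y, 2 * #((range n).filter fun j => CutAt E r (f j) y) ≤ n := by
  have h1 : (1 + (1 / 16 : ℝ)) ^ n * Fintype.card X < (1 + (1 / 16 : ℝ)) ^ (5 * n + 1) := by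
    have h2 : (5 / 4 : ℝ) ^ n ≤ (1 + (1 / 16 : ℝ)) ^ (4 * n) := by
      rw [pow_mul]
      exact pow_le_pow_left₀ (by norm_num) (by norm_num) n
    calc (1 + (1 / 16 : ℝ)) ^ n * Fintype.card X
        ≤ (1 + (1 / 16 : ℝ)) ^ n * (1 + (1 / 16 : ℝ)) ^ (4 * n) := by
          gcongr
          exact hX.trans h2
      _ = (1 + (1 / 16 : ℝ)) ^ (5 * n) := by
          rw [← pow_add]
          congr 1
          ring
      _ < _ := pow_lt_pow_right₀ (by norm_num) (by omega)
  obtain ⟨f, hf1, hf2⟩ := carve_iter hE r (by norm_num : (0 : ℝ) < 1 / 16) (5 * n + 1) n h1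
  refine ⟨f, hf1, fun y => ?_⟩
  set k := #((range n).filter fun j => CutAt E r (f j) y) with hk
  have h3 : (2 : ℝ) ^ k ≤ (85 / 64 : ℝ) ^ n := by
    calc (2 : ℝ) ^ k ≤ ∑ y, (2 : ℝ) ^ #((range n).filter fun j => CutAt E r (f j) y) :=
          Finset.single_le_sum (f := fun y =>
            (2 : ℝ) ^ #((range n).filter fun j => CutAt E r (f j) y))
            (fun y _ => by positivity) (Finset.mem_univ y)
      _ ≤ (1 + 1 / 16 : ℝ) ^ n * (5 / 4 : ℝ) ^ n := by
          refine hf2.trans ?_
          gcongr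
      _ = (85 / 64 : ℝ) ^ n := by
          rw [← mul_pow]
          norm_num
  have h4 : (2 : ℝ) ^ (2 * k) ≤ (2 : ℝ) ^ n := by
    calc (2 : ℝ) ^ (2 * k) = ((2 : ℝ) ^ k) ^ 2 := by rw [← pow_mul]; congr 1; ring
      _ ≤ ((85 / 64 : ℝ) ^ n) ^ 2 := pow_le_pow_left₀ (by positivity) h3 2
      _ = ((85 / 64 : ℝ) ^ 2) ^ n := by rw [← pow_mul, ← pow_mul]; congr 1; ring
      _ ≤ 2 ^ n := pow_le_pow_left₀ (by norm_num) (by norm_num) n
  exact (pow_le_pow_iff_right₀ (by norm_num : (1 : ℝ) < 2)).1 h4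

end carve

end Vale.Agent.P184.H38
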