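import Vale.Agent.P184.AG.Defs

/-!
# Elements whose centralizer has subexponential distortion: definitions

The distortion is measured at the pairs `(x, c)` of commuting elements which have a simultaneous
conjugate `(y, z)` such that `y` is a product of `R` elements of `S`, and `z` is a product of
`k * nu S R x` elements of `S`.
-/

open scoped Pointwise

namespace Vale.Agent.P184.H38

open Vale.Agent.P184.Un Vale.Agent.P184.H115

/-- The number of the binary digits of the number of the conjugates of `x` in `S ^ R`. It is at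
most of the order of `R`. -/
noncomputable def nu {G : Type*} [Group G] (S : Finset G) (R : ℕ) (x : G) : ℕ :=
  1 + Nat.log 2 {y : G | y ∈ (S : Set G) ^ R ∧ IsConj x y}.ncard

/-- `x` is slow in its centralizer. For every finite symmetric set `S` containing `1`, all
`δ, ε > 0` and all `k` there are arbitrarily large `R`, a subgroup `D` of the centralizer of `x`
containing `x` and coamenable in it, and a map `u` from the centralizer of `x` to the unit sphere of
a finite dimensional space, equivariant for `D` acting by diagonal unitary matrices `ζ d`, which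
varies by at most `√δ` under right translation by `c` if a simultaneous conjugate of `x` and `c`
(in `G`) is in `S ^ R × S ^ (k * nu S R x)`, such that `ζ x` has no eigenvalue `1` and
`∏ j, 2 / |1 - ζ x j| ≤ exp (ε R ^ 2 / nu S R x)`. -/
def CenSlow {G : Type*} [Group G] (x : G) : Prop :=
  ∀ S : Finset G, 1 ∈ S → (∀ s ∈ S, s⁻¹ ∈ S) → ∀ δ : ℝ, 0 < δ → ∀ ε : ℝ, 0 < ε → ∀ k R₀ : ℕ,
    ∃ R : ℕ, R₀ ≤ R ∧ ∃ (D : Subgroup G) (n : ℕ) (ζ u : G → Fin n → ℂ),
      x ∈ D ∧ D ≤ Cen x ∧ CoAmenable (Cen x) D ∧ (∀ d ∈ D, ∀ j, ‖ζ d j‖ = 1) ∧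
      (∀ j, ζ x j ≠ 1) ∧
      (∀ d ∈ D, ∀ h ∈ Cen x, ∀ j, u (d * h) j = ζ d j * u h j) ∧
      (∀ h ∈ Cen x, ∑ j, ‖u h j‖ ^ 2 = 1) ∧
      (∀ h ∈ Cen x, ∀ c ∈ Cen x, ∀ q, q⁻¹ * x * q ∈ (S : Set G) ^ R →
        q⁻¹ * c * q ∈ (S : Set G) ^ (k * nu S R x) → ∑ j, ‖u (h * c) j - u h j‖ ^ 2 ≤ δ) ∧
      ∏ j, (2 / ‖1 - ζ x j‖) ≤ Real.exp (ε * (R ^ 2 / nu S R x))

/-- For all finite `S`, all `ε > 0`, all `k` and arbitrarily large `m`, the centralizer of `x` has
a real character `ψ` with `ψ x = 1` and `|ψ c| ≤ exp (ε m ^ 2 / nu S m x)` if a simultaneous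
conjugate of `x` and `c` is in `S ^ m × S ^ (k * nu S m x)`. -/
def PsiSub {G : Type*} [Group G] (x : G) : Prop :=
  ∀ (S : Finset G) (ε : ℝ), 0 < ε → ∀ k m₀ : ℕ, ∃ m : ℕ, m₀ ≤ m ∧ ∃ ψ : G → ℝ,
    (∀ g ∈ Cen x, ∀ h ∈ Cen x, ψ (g * h) = ψ g + ψ h) ∧ ψ x = 1 ∧
    ∀ c ∈ Cen x, ∀ p : G, p⁻¹ * x * p ∈ (S : Set G) ^ m →
      p⁻¹ * c * p ∈ (S : Set G) ^ (k * nu S m x) → |ψ c| ≤ Real.exp (ε * (m ^ 2 / nu S m x))

/-- There is a length function `N` on the centralizer of `x` with finite balls and doubling growth,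
for which `x` is at most polynomially distorted, such that, for all finite `S`, all `ε > 0`, all
`k` and arbitrarily large `m`, `N c ≤ exp (ε m ^ 2 / nu S m x)` if a simultaneous conjugate of `x`
and `c` is in `S ^ m × S ^ (k * nu S m x)`. -/
def DblSub {G : Type*} [Group G] (x : G) : Prop :=
  ∃ (y : Cen x) (N : Cen x → ℝ) (K C : ℝ) (d : ℕ), (y : G) = x ∧ IsLen N ∧ Dbl N K ∧
    (∀ k : ℤ, |(k : ℝ)| ≤ C * (1 + N (y ^ k)) ^ d) ∧
    ∀ (S : Finset G) (ε : ℝ), 0 < ε → ∀ k m₀ : ℕ, ∃ m : ℕ, m₀ ≤ m ∧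
      ∀ (c : Cen x) (p : G), p⁻¹ * x * p ∈ (S : Set G) ^ m →
        p⁻¹ * (c : G) * p ∈ (S : Set G) ^ (k * nu S m x) →
          N c ≤ Real.exp (ε * (m ^ 2 / nu S m x))

end Vale.Agent.P184.H38
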