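import Vale.Agent.P184.H38.Carve
import Vale.Agent.P184.H38.SubDef

/-!
# Clusters in the core of a group element

The core of `x` is the set of the `p` such that `p⁻¹ x p` is a product of `R` elements of `S`.
-/

open scoped Pointwise

namespace Vale.Agent.P184.H38

section clus

variable {G : Type*} [Group G]

/-- `y` and `z` are conjugate by a product of `k` elements of `S`. -/
def CEdge (S T : Finset G) (k : ℕ) (y z : {y : G // y ∈ (T : Set G)}) : Prop :=
  ∃ g ∈ (S : Set G) ^ k, (z : G) = g⁻¹ * y * g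

theorem inv_mem_pow' {S : Finset G} (hinv : ∀ s ∈ S, s⁻¹ ∈ S) {k : ℕ} {g : G}
    (hg : g ∈ (S : Set G) ^ k) : g⁻¹ ∈ (S : Set G) ^ k := by
  have h1 : ((S : Set G)⁻¹) = S := by
    ext s
    rw [Set.mem_inv, Finset.mem_coe, Finset.mem_coe]
    exact ⟨fun h => by simpa using hinv _ h, fun h => hinv _ h⟩
  have h2 : g⁻¹ ∈ ((S : Set G) ^ k)⁻¹ := Set.inv_mem_inv.2 hg
  rwa [← inv_pow, h1] at h2

theorem scale_cedge {S : Finset G} (T : Finset G) (h1 : 1 ∈ S) (hinv : ∀ s ∈ S, s⁻¹ ∈ S) :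
    Scale (CEdge S T) where
  refl y := ⟨1, by simp, by simp⟩
  symm k y z := by
    rintro ⟨g, hg, h⟩
    exact ⟨g⁻¹, inv_mem_pow' hinv hg, by rw [h]; group⟩
  trans k l y z t := by
    rintro ⟨g, hg, h⟩ ⟨g', hg', h'⟩
    refine ⟨g * g', ?_, by rw [h', h]; group⟩
    rw [pow_add]
    exact Set.mul_mem_mul hg hg'
  mono k l y z hkl := by
    rintro ⟨g, hg, h⟩
    exact ⟨g, Set.pow_subset_pow_right (by exact_mod_cast h1) hkl hg, h⟩

end clus

section ampl

open Finset

variable {X : Type*} {E : ℕ → X → X → Prop}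

open Classical in
/-- The number of the radii `k ≤ r` such that the ball of radius `k` about `y` is not cut. -/
noncomputable def ampl (E : ℕ → X → X → Prop) (f : X → X) (r : ℕ) (y : X) : ℕ :=
  #((range r).filter fun k => ∀ z, E (k + 1) y z → f z = f y)

theorem ampl_le (f : X → X) (r : ℕ) (y : X) : ampl E f r y ≤ r := by
  classical
  unfold ampl
  exact (Finset.card_filter_le _ _).trans (by simp)

theorem ampl_eq (hE : Scale E) {f : X → X} {r : ℕ} {y : X} (h : ¬ CutAt E r f y) :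
    ampl E f r y = r := by
  classical
  unfold ampl
  rw [Finset.filter_true_of_mem, Finset.card_range]
  intro k hk z hz
  by_contra hne
  exact h ⟨z, hE.mono _ _ _ _ (Finset.mem_range.1 hk) hz, hne⟩

theorem ampl_eq_zero (hE : Scale E) {f : X → X} (r : ℕ) {y z : X} (h : E 1 y z)
    (hne : f z ≠ f y) : ampl E f r y = 0 := by
  classical
  unfold ampl
  rw [Finset.card_eq_zero, Finset.filter_eq_empty_iff]
  intro k _ hk
  exact hne (hk z (hE.mono 1 (k + 1) _ _ (by omega) h))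

theorem ampl_lip (hE : Scale E) (f : X → X) (r : ℕ) {y z : X} (h : E 1 y z) :
    ampl E f r y ≤ ampl E f r z + 1 := by
  classical
  by_cases hne : f z = f y
  · have hsub : ((range r).filter fun k => ∀ t, E (k + 1) y t → f t = f y) ⊆
        insert 0 (((range r).filter fun k => ∀ t, E (k + 1) z t → f t = f z).image
          (fun k => k + 1)) := by
      intro k hk
      obtain ⟨hk1, hk2⟩ := Finset.mem_filter.1 hk
      rcases k with _ | k
      · exact Finset.mem_insert_self _ _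
      · refine Finset.mem_insert_of_mem (Finset.mem_image.2 ⟨k, Finset.mem_filter.2
          ⟨Finset.mem_range.2 ?_, fun t ht => ?_⟩, rfl⟩)
        · have := Finset.mem_range.1 hk1
          omega
        · rw [hne]
          have := hE.trans _ _ _ _ _ h ht
          exact hk2 t (hE.mono _ _ _ _ (by omega) this)
    unfold ampl
    refine (Finset.card_le_card hsub).trans ((Finset.card_insert_le _ _).trans ?_)
    exact Nat.add_le_add_right Finset.card_image_le 1
  · rw [ampl_eq_zero hE r h hne]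
    exact Nat.zero_le _

end ampl

section clus

variable {G : Type*} [Group G]

open Finset in
/-- **Clusters.** There are `4 * nu` ways of cutting the core into clusters of diameter of the
order of `nu = nu S R x`, with trivialisations `h j` over the clusters and cutoffs `a j`. -/
theorem exists_clusters (x : G) (S : Finset G) (h1 : 1 ∈ S) (hinv : ∀ s ∈ S, s⁻¹ ∈ S)
    (r : ℕ) (hr : 1 ≤ r) (R : ℕ) :
    ∃ (h : ℕ → G → G) (a : ℕ → G → ℝ),
      (∀ j < 4 * nu S R x, ∀ p, p⁻¹ * x * p ∈ (S : Set G) ^ R → Commute (h j p) x) ∧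
      (∀ j d p, Commute d x → h j (d * p) = d * h j p) ∧
      (∀ j d p, Commute d x → a j (d * p) = a j p) ∧
      (∀ j p, 0 ≤ a j p) ∧ (∀ j p, a j p ≤ 1) ∧
      (∀ p, p⁻¹ * x * p ∈ (S : Set G) ^ R →
        ((4 * nu S R x : ℕ) : ℝ) / 2 ≤ ∑ j ∈ range (4 * nu S R x), a j p ^ 2) ∧
      (∀ j < 4 * nu S R x, ∀ p, p⁻¹ * x * p ∈ (S : Set G) ^ R → ∀ s ∈ S,
        (p * s)⁻¹ * x * (p * s) ∈ (S : Set G) ^ R →
        |a j (p * s) - a j p| ≤ 1 / r ∧
        ((a j p = 0 ∧ a j (p * s) = 0) ∨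
          ∃ q, q⁻¹ * x * q ∈ (S : Set G) ^ R ∧
            q⁻¹ * ((h j p)⁻¹ * h j (p * s)) * q ∈ (S : Set G) ^ ((84 * r + 1) * nu S R x))) := by
  classical
  set T₀ : Finset G := (S ^ R).filter fun y => IsConj x y with hT₀
  set T : Finset G := insert 1 T₀ with hT
  have hTS : ∀ y ∈ (T : Set G), y ∈ (S : Set G) ^ R := by
    intro y hy
    rcases Finset.mem_insert.1 (Finset.mem_coe.1 hy) with rfl | hy
    · exact Set.one_mem_pow (by exact_mod_cast h1)
    · have := (Finset.mem_filter.1 hy).1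
      rwa [← Finset.mem_coe, Finset.coe_pow] at this
  have hTc : ∀ p, p⁻¹ * x * p ∈ (S : Set G) ^ R → p⁻¹ * x * p ∈ (T : Set G) := by
    intro p hp
    refine Finset.mem_coe.2 (Finset.mem_insert_of_mem (Finset.mem_filter.2 ⟨?_, ?_⟩))
    · rwa [← Finset.mem_coe, Finset.coe_pow]
    · exact isConj_iff.2 ⟨p⁻¹, by rw [inv_inv]⟩
  set X := {y : G // y ∈ (T : Set G)} with hX
  have : Fintype X := T.fintypeCoeSort
  have hnu : #T ≤ 2 ^ nu S R x := by
    have e1 : {y : G | y ∈ (S : Set G) ^ R ∧ IsConj x y} = (T₀ : Set G) := by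
      ext y
      rw [hT₀, Finset.coe_filter, Set.mem_ofPred_eq, Set.mem_ofPred_eq, ← Finset.mem_coe (s := S ^ R),
        Finset.coe_pow]
    have e2 : #T₀ < 2 ^ (Nat.log 2 #T₀ + 1) := Nat.lt_pow_succ_log_self (by norm_num) _
    have e3 : #T ≤ #T₀ + 1 := Finset.card_insert_le _ _
    rw [nu, e1, Set.ncard_coe_finset, add_comm 1]
    omega
  have hnu1 : 1 ≤ nu S R x := by
    rw [nu]
    omega
  set m : ℕ := nu S R x with hm
  have hcard : (Fintype.card X : ℝ) ≤ (5 / 4 : ℝ) ^ (4 * m) := by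
    have e1 : Fintype.card X = #T := by
      rw [← Nat.card_eq_fintype_card]
      simp [hX]
    rw [e1, pow_mul]
    calc ((#T : ℕ) : ℝ) ≤ (2 : ℝ) ^ m := by exact_mod_cast hnu
      _ ≤ ((5 / 4 : ℝ) ^ 4) ^ m := pow_le_pow_left₀ (by norm_num) (by norm_num) m
  have hE := scale_cedge T h1 hinv
  obtain ⟨f, hf1, hf2⟩ := exists_partitions hE r (4 * m) hcard
  set ρ : ℕ := 2 * r * (5 * (4 * m) + 1) with hρ
  -- the conjugators
  have hg0 : ∀ (j : ℕ) (y : X), ∃ g : G, j < 4 * m →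
      (g ∈ (S : Set G) ^ ρ ∧ (y : G) = g⁻¹ * (f j y : X) * g) := by
    intro j y
    by_cases hj : j < 4 * m
    · obtain ⟨g, hg⟩ := hf1 j hj y
      exact ⟨g, fun _ => hg⟩
    · exact ⟨1, fun h => absurd h hj⟩
  choose g hg using hg0
  let Y : G → X := fun p => if hp : p⁻¹ * x * p ∈ (T : Set G) then ⟨p⁻¹ * x * p, hp⟩ else
    ⟨1, Finset.mem_coe.2 (Finset.mem_insert_self _ _)⟩
  have hY : ∀ p, p⁻¹ * x * p ∈ (S : Set G) ^ R → ((Y p : X) : G) = p⁻¹ * x * p := by
    intro p hp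
    simp only [Y, dif_pos (hTc p hp)]
  have hYd : ∀ d p, Commute d x → Y (d * p) = Y p := by
    intro d p hd
    have e : (d * p)⁻¹ * x * (d * p) = p⁻¹ * x * p := by
      rw [mul_inv_rev]
      calc p⁻¹ * d⁻¹ * x * (d * p) = p⁻¹ * (d⁻¹ * (x * d)) * p := by group
        _ = p⁻¹ * x * p := by rw [← hd.eq]; group
    simp only [Y, e]
  let Q : G → G := fun c => if hc : ∃ q, q⁻¹ * x * q = c then hc.choose else 1
  have hQ : ∀ c, (∃ q, q⁻¹ * x * q = c) → (Q c)⁻¹ * x * Q c = c := by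
    intro c hc
    simp only [Q, dif_pos hc]
    exact hc.choose_spec
  have hlab : ∀ j < 4 * m, ∀ p, p⁻¹ * x * p ∈ (S : Set G) ^ R →
      ((f j (Y p) : X) : G) = (p * (g j (Y p))⁻¹)⁻¹ * x * (p * (g j (Y p))⁻¹) := by
    intro j hj p hp
    have e1 := (hg j (Y p) hj).2
    rw [hY p hp] at e1
    calc ((f j (Y p) : X) : G)
        = g j (Y p) * ((g j (Y p))⁻¹ * (f j (Y p) : X) * g j (Y p)) * (g j (Y p))⁻¹ := by group
      _ = g j (Y p) * (p⁻¹ * x * p) * (g j (Y p))⁻¹ := by rw [← e1]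
      _ = _ := by group
  have hedge : ∀ p, p⁻¹ * x * p ∈ (S : Set G) ^ R → ∀ s ∈ S,
      (p * s)⁻¹ * x * (p * s) ∈ (S : Set G) ^ R → CEdge S T 1 (Y p) (Y (p * s)) := by
    intro p hp s hs hps
    refine ⟨s, by rw [pow_one]; exact_mod_cast hs, ?_⟩
    rw [hY p hp, hY _ hps]
    group
  refine ⟨fun j p => p * (g j (Y p))⁻¹ * (Q (f j (Y p)))⁻¹,
    fun j p => (ampl (CEdge S T) (f j) r (Y p) : ℝ) / r, ?_, ?_, ?_, ?_, ?_, ?_, ?_⟩
  · -- commutes with `x`
    intro j hj p hp
    have e1 := hlab j hj p hp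
    have e2 := hQ _ ⟨_, e1.symm⟩
    have e3 : Q (f j (Y p)) * (p * (g j (Y p))⁻¹)⁻¹ * x * (p * (g j (Y p))⁻¹) *
        (Q (f j (Y p)))⁻¹ = x := by
      calc Q (f j (Y p)) * (p * (g j (Y p))⁻¹)⁻¹ * x * (p * (g j (Y p))⁻¹) * (Q (f j (Y p)))⁻¹
          = Q (f j (Y p)) * ((p * (g j (Y p))⁻¹)⁻¹ * x * (p * (g j (Y p))⁻¹)) *
            (Q (f j (Y p)))⁻¹ := by group
        _ = Q (f j (Y p)) * ((Q (f j (Y p)))⁻¹ * x * Q (f j (Y p))) *
            (Q (f j (Y p)))⁻¹ := by rw [← e1, e2]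
        _ = x := by group
    change p * (g j (Y p))⁻¹ * (Q (f j (Y p)))⁻¹ * x = x * (p * (g j (Y p))⁻¹ * (Q (f j (Y p)))⁻¹)
    conv_lhs => rw [← e3]
    group
  · intro j d p hd
    change d * p * (g j (Y (d * p)))⁻¹ * (Q (f j (Y (d * p))))⁻¹ = _
    rw [hYd d p hd]
    group
  · intro j d p hd
    change (ampl (CEdge S T) (f j) r (Y (d * p)) : ℝ) / r = _
    rw [hYd d p hd]
  · intro j p
    positivity
  · intro j p
    have hr0 : (0 : ℝ) < r := by exact_mod_cast hr
    rw [div_le_one hr0]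
    have e1 := ampl_le (E := CEdge S T) (f j) r (Y p)
    exact_mod_cast e1
  · intro p hp
    have hr0 : (r : ℝ) ≠ 0 := by exact_mod_cast (by omega : r ≠ 0)
    have e1 := hf2 (Y p)
    have e2 : #((range (4 * m)).filter fun j => CutAt (CEdge S T) r (f j) (Y p)) +
        #((range (4 * m)).filter fun j => ¬ CutAt (CEdge S T) r (f j) (Y p)) = 4 * m := by
      rw [Finset.card_filter_add_card_filter_not, Finset.card_range]
    have e3 : ((4 * m : ℕ) : ℝ) / 2 ≤
        #((range (4 * m)).filter fun j => ¬ CutAt (CEdge S T) r (f j) (Y p)) := by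
      have e4 : (4 * m : ℕ) ≤
          2 * #((range (4 * m)).filter fun j => ¬ CutAt (CEdge S T) r (f j) (Y p)) := by
        omega
      have e5 : ((4 * m : ℕ) : ℝ) ≤
          2 * #((range (4 * m)).filter fun j => ¬ CutAt (CEdge S T) r (f j) (Y p)) := by
        exact_mod_cast e4
      linarith
    refine e3.trans ?_
    rw [← Finset.sum_filter_add_sum_filter_not (range (4 * m))
      (fun j => CutAt (CEdge S T) r (f j) (Y p))]
    have e6 : ∑ j ∈ (range (4 * m)).filter fun j => ¬ CutAt (CEdge S T) r (f j) (Y p),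
        ((ampl (CEdge S T) (f j) r (Y p) : ℝ) / r) ^ 2 =
        #((range (4 * m)).filter fun j => ¬ CutAt (CEdge S T) r (f j) (Y p)) := by
      rw [Finset.sum_congr rfl fun j hj => ?_, Finset.sum_const, nsmul_one]
      rw [ampl_eq hE (Finset.mem_filter.1 hj).2, div_self hr0, one_pow]
    rw [← e6]
    exact le_add_of_nonneg_left (Finset.sum_nonneg fun j _ => sq_nonneg _)
  · intro j hj p hp s hs hps
    have hr0 : (0 : ℝ) < r := by exact_mod_cast hr
    have hed := hedge p hp s hs hps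
    have hed' := hE.symm _ _ _ hed
    refine ⟨?_, ?_⟩
    · have e1 := ampl_lip hE (f j) r hed
      have e2 := ampl_lip hE (f j) r hed'
      have e1' : (ampl (CEdge S T) (f j) r (Y p) : ℝ) ≤
          ampl (CEdge S T) (f j) r (Y (p * s)) + 1 := by exact_mod_cast e1
      have e2' : (ampl (CEdge S T) (f j) r (Y (p * s)) : ℝ) ≤
          ampl (CEdge S T) (f j) r (Y p) + 1 := by exact_mod_cast e2
      change |(ampl (CEdge S T) (f j) r (Y (p * s)) : ℝ) / r -
        (ampl (CEdge S T) (f j) r (Y p) : ℝ) / r| ≤ 1 / r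
      rw [← sub_div, abs_div, abs_of_pos hr0]
      gcongr
      rw [abs_le]
      constructor <;> linarith
    · by_cases hne : f j (Y (p * s)) = f j (Y p)
      · right
        refine ⟨Q (f j (Y p)), ?_, ?_⟩
        · rw [hQ _ ⟨_, (hlab j hj p hp).symm⟩]
          exact hTS _ (f j (Y p)).2
        have e1 : (Q (f j (Y p)))⁻¹ * ((p * (g j (Y p))⁻¹ * (Q (f j (Y p)))⁻¹)⁻¹ *
            (p * s * (g j (Y (p * s)))⁻¹ * (Q (f j (Y (p * s))))⁻¹)) * Q (f j (Y p)) =
            g j (Y p) * s * (g j (Y (p * s)))⁻¹ := by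
          rw [hne]
          group
        change (Q (f j (Y p)))⁻¹ * ((p * (g j (Y p))⁻¹ * (Q (f j (Y p)))⁻¹)⁻¹ *
            (p * s * (g j (Y (p * s)))⁻¹ * (Q (f j (Y (p * s))))⁻¹)) * Q (f j (Y p)) ∈ _
        rw [e1]
        have e2 : g j (Y p) * s * (g j (Y (p * s)))⁻¹ ∈ (S : Set G) ^ (ρ + 1 + ρ) := by
          rw [pow_add, pow_add, pow_one]
          exact Set.mul_mem_mul (Set.mul_mem_mul (hg j _ hj).1 (by exact_mod_cast hs))
            (inv_mem_pow' hinv (hg j _ hj).1)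
        refine Set.pow_subset_pow_right (by exact_mod_cast h1) ?_ e2
        rw [hρ]
        nlinarith
      · left
        have hne' : f j (Y p) ≠ f j (Y (p * s)) := fun h => hne h.symm
        have e1 := ampl_eq_zero hE r hed hne
        have e2 := ampl_eq_zero hE r hed' hne'
        simp [e1, e2]

end clus

end Vale.Agent.P184.H38
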