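import Vale.Agent.P184.Ex.B2

set_option linter.all false

/-! The square of the Pfaffian is the determinant; Hadamard bound of the Pfaffian. -/

noncomputable section

namespace Vale.Agent.P184.H38

open Vale.Agent.P184.H460 ExteriorAlgebra
open scoped Matrix

variable {V : Type*} [AddCommGroup V] [Module ℝ V] (B : LinearMap.BilinForm ℝ V) (hB : B.IsAlt)

/-- the Pfaffian as an alternating map -/
def pfA (hB : B.IsAlt) (n : ℕ) : V [⋀^Fin n]→ₗ[ℝ] ℝ :=
  (pfL B hB).compAlternatingMap (ιMulti ℝ n)

theorem pfA_apply (hB : B.IsAlt) {n : ℕ} (v : Fin n → V) :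
    pfA B hB n v = pf B hB (List.ofFn v) := by
  rw [pfA, LinearMap.compAlternatingMap_apply, ιMulti_apply, pf_eq, wd, List.map_ofFn]
  rfl

theorem pf_perm_sq (hB : B.IsAlt) {n : ℕ} (v : Fin n → V) (σ : Equiv.Perm (Fin n)) :
    pf B hB (List.ofFn (v ∘ σ)) ^ 2 = pf B hB (List.ofFn v) ^ 2 := by
  rw [← pfA_apply, ← pfA_apply, AlternatingMap.map_perm]
  rcases Int.units_eq_one_or (Equiv.Perm.sign σ) with h | h <;> rw [h] <;> simp

/-- the projection to the symplectic complement of a hyperbolic pair -/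
def prj (u v : V) : V →ₗ[ℝ] V :=
  LinearMap.id - (B u v)⁻¹ • ((B u).smulRight v) + (B u v)⁻¹ • ((B v).smulRight u)

theorem prj_apply (u v w : V) :
    prj B u v w = w - ((B u v)⁻¹ * B u w) • v + ((B u v)⁻¹ * B v w) • u := by
  simp [prj, mul_smul]

theorem wd_prj (u v : V) (L : List V) :
    wd (u :: v :: L) = wd (u :: v :: L.map (prj B u v)) := by
  have hc : ∀ w : V, ExteriorAlgebra.ι ℝ u * ExteriorAlgebra.ι ℝ v * ExteriorAlgebra.ι ℝ w =
      ExteriorAlgebra.ι ℝ w * (ExteriorAlgebra.ι ℝ u * ExteriorAlgebra.ι ℝ v) := by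
    intro w
    rw [mul_assoc, iota_swap v w, mul_neg, ← mul_assoc, iota_swap u w, neg_mul, neg_neg, mul_assoc]
  have hp : ∀ w : V, ExteriorAlgebra.ι ℝ u * ExteriorAlgebra.ι ℝ v * ExteriorAlgebra.ι ℝ w =
      ExteriorAlgebra.ι ℝ u * ExteriorAlgebra.ι ℝ v * ExteriorAlgebra.ι ℝ (prj B u v w) := by
    intro w
    rw [prj_apply, map_add, map_sub, map_smul, map_smul, mul_add, mul_sub, mul_smul_comm,
      mul_smul_comm, mul_assoc _ _ (ExteriorAlgebra.ι ℝ v), iota_sq, mul_zero, smul_zero, sub_zero,
      hc u, ← mul_assoc, iota_sq, zero_mul, smul_zero, add_zero]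
  simp only [wd_cons, ← mul_assoc]
  induction L with
  | nil => rfl
  | cons w L ih =>
      rw [List.map_cons, wd_cons, wd_cons, ← mul_assoc, ← mul_assoc, hp w, hc, mul_assoc, ih,
        ← mul_assoc, ← hc]

theorem B_prj_left (hB : B.IsAlt) {u v : V} (h : B u v ≠ 0) (w : V) : B u (prj B u v w) = 0 := by
  rw [prj_apply, map_add, map_sub, map_smul, map_smul, hB u, smul_eq_mul]
  field_simp
  simp

theorem B_prj_right (hB : B.IsAlt) {u v : V} (h : B u v ≠ 0) (w : V) : B v (prj B u v w) = 0 := by
  have h1 : B v u = - B u v := by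
    have := hB.neg_eq v u
    linarith
  rw [prj_apply, map_add, map_sub, map_smul, map_smul, hB v, h1, smul_eq_mul, smul_eq_mul]
  field_simp
  simp

theorem pf_pair (hB : B.IsAlt) {u v : V} (h : B u v ≠ 0) (L : List V) :
    pf B hB (u :: v :: L) = B u v * pf B hB (L.map (prj B u v)) := by
  have h0 : pf B hB (u :: v :: L) = pf B hB (u :: v :: L.map (prj B u v)) := by
    rw [pf_eq, pf_eq, wd_prj B]
  rw [h0, pf_cons]
  have h2 := Finset.sum_eq_single (ι := Fin (v :: L.map (prj B u v)).length) (s := Finset.univ)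
    (f := fun k => (-1 : ℝ) ^ (k : ℕ) * B u ((v :: L.map (prj B u v)).get k) *
      pf B hB ((v :: L.map (prj B u v)).eraseIdx k)) ⟨0, by simp⟩ ?_ ?_
  · rw [h2]
    simp
  · rintro ⟨k, hk⟩ _ hk0
    obtain ⟨m, rfl⟩ : ∃ m, k = m + 1 := ⟨k - 1, by
      have : k ≠ 0 := fun h => hk0 (Fin.ext h)
      omega⟩
    have hk : B u ((v :: L.map (prj B u v)).get ⟨m + 1, hk⟩) = 0 := by
      rw [List.get_eq_getElem]
      simp only [List.getElem_cons_succ, List.getElem_map]
      exact B_prj_left B hB h _
    simp only [hk]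
    ring
  · intro h
    exact absurd (Finset.mem_univ _) h

theorem B_prj_prj (hB : B.IsAlt) {u v : V} (h : B u v ≠ 0) (a b : V) :
    B (prj B u v a) (prj B u v b) = B a b - (B u v)⁻¹ * B u b * B a v + (B u v)⁻¹ * B v b * B a u := by
  have h1 : B (prj B u v a) (prj B u v b) = B a (prj B u v b) := by
    rw [prj_apply B u v a]
    simp only [map_add, map_sub, map_smul, LinearMap.add_apply, LinearMap.sub_apply,
      LinearMap.smul_apply, B_prj_left B hB h, B_prj_right B hB h]
    simp
  rw [h1, prj_apply, map_add, map_sub, map_smul, map_smul, smul_eq_mul, smul_eq_mul]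

theorem det_pair (hB : B.IsAlt) {n : ℕ} (u v : V) (w : Fin n → V) (h : B u v ≠ 0) :
    (Matrix.of fun i j : Fin 2 ⊕ Fin n => B (Sum.elim ![u, v] w i) (Sum.elim ![u, v] w j)).det =
      B u v ^ 2 * (Matrix.of fun i j : Fin n => B (prj B u v (w i)) (prj B u v (w j))).det := by
  set A : Matrix (Fin 2) (Fin 2) ℝ := !![0, B u v; - B u v, 0] with hA
  set A' : Matrix (Fin 2) (Fin 2) ℝ := !![0, -(B u v)⁻¹; (B u v)⁻¹, 0] with hA'
  have hvu : B v u = - B u v := by
    have := hB.neg_eq v u
    linarith
  letI : Invertible A := ⟨A', by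
    rw [hA, hA']; ext i j; fin_cases i <;> fin_cases j <;> simp [h], by
    rw [hA, hA']; ext i j; fin_cases i <;> fin_cases j <;> simp [h]⟩
  have hM : (Matrix.of fun i j : Fin 2 ⊕ Fin n => B (Sum.elim ![u, v] w i)
      (Sum.elim ![u, v] w j)) = Matrix.fromBlocks A
        (Matrix.of fun (i : Fin 2) (j : Fin n) => B (![u, v] i) (w j))
        (Matrix.of fun (i : Fin n) (j : Fin 2) => B (w i) (![u, v] j))
        (Matrix.of fun (i : Fin n) (j : Fin n) => B (w i) (w j)) := by
    ext i j
    rcases i with i | i <;> rcases j with j | j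
    · fin_cases i <;> fin_cases j <;> simp [hA, hB u, hB v, hvu]
    · rfl
    · rfl
    · rfl
  rw [hM, Matrix.det_fromBlocks₁₁]
  have hdA : A.det = B u v ^ 2 := by
    rw [hA, Matrix.det_fin_two]
    simp
    ring
  rw [hdA]
  congr 2
  ext i j
  have hinv : ⅟A = A' := rfl
  rw [hinv, Matrix.sub_apply, Matrix.mul_apply]
  simp only [Matrix.mul_apply, Fin.sum_univ_two, Matrix.of_apply, hA', B_prj_prj B hB h]
  simp
  ring

theorem det_alt_odd {n : ℕ} (hn : Odd n) (v : Fin n → V) (hB : B.IsAlt) :
    (Matrix.of fun i j => B (v i) (v j)).det = 0 := by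
  have h1 : (Matrix.of fun i j => B (v i) (v j))ᵀ = -(Matrix.of fun i j => B (v i) (v j)) := by
    ext i j
    simp only [Matrix.transpose_apply, Matrix.of_apply, Matrix.neg_apply]
    have := hB.neg_eq (v j) (v i)
    linarith
  have h2 := Matrix.det_transpose (Matrix.of fun i j => B (v i) (v j))
  rw [h1, Matrix.det_neg, Fintype.card_fin, hn.neg_one_pow] at h2
  linarith

theorem pf_sq (hB : B.IsAlt) (n : ℕ) : ∀ v : Fin n → V,
    pf B hB (List.ofFn v) ^ 2 = (Matrix.of fun i j => B (v i) (v j)).det := by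
  induction n using Nat.twoStepInduction with
  | zero =>
      intro v
      simp [pf_nil]
  | one =>
      intro v
      rw [det_alt_odd B (by decide) v hB, List.ofFn_succ, List.ofFn_zero, pf_cons]
      simp
  | more n ih _ =>
      intro v
      by_cases h : ∀ j, B (v 0) (v j) = 0
      · have h1 : pf B hB (List.ofFn v) = 0 := by
          rw [List.ofFn_succ, pf_cons]
          refine Finset.sum_eq_zero fun k _ => ?_
          have : (List.ofFn fun i => v (Fin.succ i)).get k = v (Fin.succ (k.cast (by simp))) := by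
            rw [List.get_eq_getElem, List.getElem_ofFn]
            rfl
          rw [this, h]
          ring
        rw [h1, Matrix.det_eq_zero_of_row_eq_zero 0 (fun j => by
          rw [Matrix.of_apply]; exact h j)]
        simp
      · push Not at h
        obtain ⟨j, hj⟩ := h
        have key : ∀ v : Fin (n + 2) → V, B (v 0) (v 1) ≠ 0 →
            pf B hB (List.ofFn v) ^ 2 = (Matrix.of fun i j => B (v i) (v j)).det := by
          intro v hv
          have h2 : List.ofFn v = v 0 :: v 1 :: List.ofFn (fun i : Fin n => v i.succ.succ) := by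
            rw [List.ofFn_succ, List.ofFn_succ]
            rfl
          rw [h2, pf_pair B hB hv, mul_pow, List.map_ofFn, ih]
          have e : Fin 2 ⊕ Fin n ≃ Fin (n + 2) := finSumFinEquiv.trans (finCongr (Nat.add_comm _ _))
          have h3 := det_pair B hB (v 0) (v 1) (fun i : Fin n => v i.succ.succ) hv
          rw [← Matrix.det_submatrix_equiv_self
            (finSumFinEquiv.trans (finCongr (Nat.add_comm 2 n)))]
          refine h3.symm.trans ?_
          congr 1
          ext i j
          simp only [Matrix.submatrix_apply, Matrix.of_apply]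
          have h4 : ∀ i : Fin 2 ⊕ Fin n, Sum.elim ![v 0, v 1] (fun i : Fin n => v i.succ.succ) i =
              v ((finSumFinEquiv.trans (finCongr (Nat.add_comm 2 n))) i) := by
            intro i
            rcases i with i | i
            · fin_cases i
              · rfl
              · simp
                congr 1
            · simp only [Sum.elim_inr]
              congr 1
              apply Fin.ext
              simp [finSumFinEquiv]
          rw [h4, h4]
        have h0 : B (v ((Equiv.swap 1 j) 0)) (v ((Equiv.swap 1 j) 1)) ≠ 0 := by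
          have hj0 : j ≠ 0 := by
            rintro rfl
            exact hj (hB _)
          rw [Equiv.swap_apply_left, Equiv.swap_apply_of_ne_of_ne (by simp) hj0.symm]
          exact hj
        have h5 := key (v ∘ Equiv.swap 1 j) h0
        rw [pf_perm_sq] at h5
        rw [h5, ← Matrix.det_submatrix_equiv_self (Equiv.swap 1 j)
          (Matrix.of fun i j => B (v i) (v j))]
        rfl

/-- Hadamard's bound of the Pfaffian. -/
theorem pf_bound (hB : B.IsAlt) {n : ℕ} (v : Fin n → V) (g : Fin n → ℝ) (hg : ∀ i, 0 ≤ g i)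
    (M : ℝ) (hM : 0 ≤ M) (h : ∀ i j, |B (v i) (v j)| ≤ M * g i * g j) :
    pf B hB (List.ofFn v) ^ 2 ≤ (∏ i, g i) ^ 2 * (M * √n) ^ n := by
  have h1 : (Matrix.of fun i j => B (v i) (v j)) = Matrix.of fun i j =>
      g i * (g j * (B (v i) (v j) / (g i * g j))) := by
    ext i j
    simp only [Matrix.of_apply]
    by_cases hi : g i * g j = 0
    · have := h i j
      rw [mul_assoc, hi, mul_zero] at this
      have h0 := abs_nonpos_iff.1 this
      rw [h0]; simp
    · field_simp
      have h1 : g i ≠ 0 := left_ne_zero_of_mul hi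
      have h2 : g j ≠ 0 := right_ne_zero_of_mul hi
      field_simp
  have h2 : (Matrix.of fun i j => g i * (g j * (B (v i) (v j) / (g i * g j)))).det =
      (∏ i, g i) * ((∏ i, g i) * (Matrix.of fun i j => B (v i) (v j) / (g i * g j)).det) := by
    rw [← Matrix.det_mul_row, ← Matrix.det_mul_column]
    rfl
  have h3 : |(Matrix.of fun i j => B (v i) (v j) / (g i * g j)).det| ≤ (M * √n) ^ n := by
    refine (hadamard _).trans ?_
    have : ∀ i ∈ Finset.univ, √(∑ j, (Matrix.of fun i j => B (v i) (v j) / (g i * g j)) i j ^ 2) ≤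
        M * √n := by
      intro i _
      have h4 : ∀ j ∈ Finset.univ,
          (Matrix.of fun i j => B (v i) (v j) / (g i * g j)) i j ^ 2 ≤ M ^ 2 := by
        intro j _
        rw [← sq_abs]
        refine pow_le_pow_left₀ (abs_nonneg _) ?_ 2
        rw [Matrix.of_apply, abs_div, abs_of_nonneg (mul_nonneg (hg i) (hg j))]
        refine div_le_of_le_mul₀ (mul_nonneg (hg i) (hg j)) hM ?_
        rw [← mul_assoc]
        exact h i j
      refine (Real.sqrt_le_sqrt (Finset.sum_le_sum h4)).trans (le_of_eq ?_)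
      rw [Finset.sum_const, Finset.card_univ, Fintype.card_fin, nsmul_eq_mul,
        Real.sqrt_mul (Nat.cast_nonneg n), Real.sqrt_sq hM, mul_comm]
    refine (Finset.prod_le_prod (fun i _ => Real.sqrt_nonneg _) this).trans (le_of_eq ?_)
    rw [Finset.prod_const, Finset.card_univ, Fintype.card_fin]
  rw [pf_sq, h1, h2, ← mul_assoc, ← sq]
  exact mul_le_mul_of_nonneg_left ((le_abs_self _).trans h3) (sq_nonneg _)

/-- Hadamard's bound of the Pfaffian, even length. -/
theorem pf_bound_even (hB : B.IsAlt) {k : ℕ} (v : Fin (2 * k) → V) (g : Fin (2 * k) → ℝ)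
    (hg : ∀ i, 0 ≤ g i) (M : ℝ) (hM : 0 ≤ M) (h : ∀ i j, |B (v i) (v j)| ≤ M * g i * g j) :
    |pf B hB (List.ofFn v)| ≤ (∏ i, g i) * (M * √(2 * k)) ^ k := by
  have h1 := pf_bound B hB v g hg M hM h
  have h2 : (∏ i, g i) ^ 2 * (M * √((2 * k : ℕ) : ℝ)) ^ (2 * k) =
      ((∏ i, g i) * (M * √(2 * k)) ^ k) ^ 2 := by
    push_cast
    ring
  rw [h2, ← sq_abs] at h1
  refine abs_le_of_sq_le_sq' ?_ ?_ |>.2
  · simpa using h1
  · exact mul_nonneg (Finset.prod_nonneg fun i _ => hg i) (by positivity)

end Vale.Agent.P184.H38
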