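import Vale.Agent.P184.H38.Clus
import Vale.Agent.P184.H38.SubDef
import Vale.Agent.P184.H174.HolCS

/-!
# Slow fields on the centralizer of cost `exp (o(R ^ 2 / nu))` give slow fields on the core
-/

open scoped Pointwise

namespace Vale.Agent.P184.H38

open Vale.Agent.P184.Un

section norm

variable {ι : Type*} [Fintype ι]

theorem sum_sq_eq (v : ι → ℂ) :
    ∑ j, ‖v j‖ ^ 2 = ‖(WithLp.toLp 2 v : EuclideanSpace ℂ ι)‖ ^ 2 := by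
  rw [EuclideanSpace.norm_eq, Real.sq_sqrt (Finset.sum_nonneg fun _ _ => sq_nonneg _)]

/-- Normalisation is Lipschitz away from the origin. -/
theorem sum_normalize_sub_le (v w : ι → ℂ) {m : ℝ} (hm : 0 < m)
    (hv : m ^ 2 ≤ ∑ j, ‖v j‖ ^ 2) (hw : m ^ 2 ≤ ∑ j, ‖w j‖ ^ 2) :
    ∑ j, ‖((1 / √(∑ i, ‖v i‖ ^ 2) : ℝ) : ℂ) * v j -
      ((1 / √(∑ i, ‖w i‖ ^ 2) : ℝ) : ℂ) * w j‖ ^ 2 ≤
      4 / m ^ 2 * ∑ j, ‖v j - w j‖ ^ 2 := by
  set V : EuclideanSpace ℂ ι := WithLp.toLp 2 v with hV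
  set W : EuclideanSpace ℂ ι := WithLp.toLp 2 w with hW
  have e1 : √(∑ i, ‖v i‖ ^ 2) = ‖V‖ := by
    rw [sum_sq_eq, Real.sqrt_sq (norm_nonneg _)]
  have e2 : √(∑ i, ‖w i‖ ^ 2) = ‖W‖ := by
    rw [sum_sq_eq, Real.sqrt_sq (norm_nonneg _)]
  have e3 : ∑ j, ‖v j - w j‖ ^ 2 = ‖V - W‖ ^ 2 := sum_sq_eq fun j => v j - w j
  have hVm : m ≤ ‖V‖ := by
    rw [← e1]
    exact Real.le_sqrt_of_sq_le hv
  have hWm : m ≤ ‖W‖ := by
    rw [← e2]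
    exact Real.le_sqrt_of_sq_le hw
  have hV0 : 0 < ‖V‖ := hm.trans_le hVm
  have hW0 : 0 < ‖W‖ := hm.trans_le hWm
  rw [e3, e1, e2]
  have e4 : ∑ j, ‖((1 / ‖V‖ : ℝ) : ℂ) * v j - ((1 / ‖W‖ : ℝ) : ℂ) * w j‖ ^ 2 =
      ‖((1 / ‖V‖ : ℝ) : ℂ) • V - ((1 / ‖W‖ : ℝ) : ℂ) • W‖ ^ 2 :=
    sum_sq_eq fun j => ((1 / ‖V‖ : ℝ) : ℂ) * v j - ((1 / ‖W‖ : ℝ) : ℂ) * w j
  rw [e4]
  have e5 : ((1 / ‖V‖ : ℝ) : ℂ) • V - ((1 / ‖W‖ : ℝ) : ℂ) • W =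
      ((1 / ‖V‖ : ℝ) : ℂ) • ((V - W) + (((‖W‖ - ‖V‖) / ‖W‖ : ℝ) : ℂ) • W) := by
    rw [smul_add, smul_sub, smul_smul, sub_add, ← sub_smul]
    congr 2
    push_cast
    have : (‖W‖ : ℂ) ≠ 0 := by exact_mod_cast hW0.ne'
    have : (‖V‖ : ℂ) ≠ 0 := by exact_mod_cast hV0.ne'
    field_simp
    ring
  have e6 : ‖((1 / ‖V‖ : ℝ) : ℂ) • V - ((1 / ‖W‖ : ℝ) : ℂ) • W‖ ≤ 2 / m * ‖V - W‖ := by
    rw [e5, norm_smul, Complex.norm_real, Real.norm_eq_abs, abs_of_pos (by positivity)]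
    have e7 : ‖(V - W) + (((‖W‖ - ‖V‖) / ‖W‖ : ℝ) : ℂ) • W‖ ≤ 2 * ‖V - W‖ := by
      refine (norm_add_le _ _).trans ?_
      rw [norm_smul, Complex.norm_real, Real.norm_eq_abs, abs_div, abs_of_pos hW0,
        div_mul_cancel₀ _ hW0.ne']
      have e8 := abs_norm_sub_norm_le W V
      rw [norm_sub_rev W V] at e8
      linarith
    calc 1 / ‖V‖ * ‖(V - W) + (((‖W‖ - ‖V‖) / ‖W‖ : ℝ) : ℂ) • W‖
        ≤ 1 / m * (2 * ‖V - W‖) := by gcongr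
      _ = _ := by ring
  calc ‖((1 / ‖V‖ : ℝ) : ℂ) • V - ((1 / ‖W‖ : ℝ) : ℂ) • W‖ ^ 2
      ≤ (2 / m * ‖V - W‖) ^ 2 := pow_le_pow_left₀ (norm_nonneg _) e6 2
    _ = _ := by ring

/-- Normalised fields indexed by `Fin n`. -/
theorem exists_field {G : Type*} [Group G] (x : G) (D : Subgroup G) (core : Set G) (S : Finset G)
    (ζ v : G → ι → ℂ) {m δ : ℝ} (hm : 0 < m) (hζ1 : ∀ d ∈ D, ∀ j, ‖ζ d j‖ = 1)
    (hζx : ∀ j, ζ x j ≠ 1) (hvd : ∀ d ∈ D, ∀ p ∈ core, ∀ j, v (d * p) j = ζ d j * v p j)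
    (hvm : ∀ p ∈ core, m ≤ ∑ j, ‖v p j‖ ^ 2)
    (hvs : ∀ p ∈ core, ∀ s ∈ S, p * s ∈ core → ∑ j, ‖v (p * s) j - v p j‖ ^ 2 ≤ m * δ / 4) :
    ∃ (n : ℕ) (ζ' u : G → Fin n → ℂ), (∀ d ∈ D, ∀ j, ‖ζ' d j‖ = 1) ∧ (∀ j, ζ' x j ≠ 1) ∧
      (∀ d ∈ D, ∀ p ∈ core, ∀ j, u (d * p) j = ζ' d j * u p j) ∧
      (∀ p ∈ core, ∑ j, ‖u p j‖ ^ 2 = 1) ∧
      (∀ p ∈ core, ∀ s ∈ S, p * s ∈ core → ∑ j, ‖u (p * s) j - u p j‖ ^ 2 ≤ δ) ∧
      ∏ j, (2 / ‖1 - ζ' x j‖) = ∏ j, (2 / ‖1 - ζ x j‖) := by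
  classical
  have hm2 : 0 < √m := Real.sqrt_pos.2 hm
  have hmm : √m ^ 2 = m := Real.sq_sqrt hm.le
  let e : ι ≃ Fin (Fintype.card ι) := Fintype.equivFin ι
  refine ⟨Fintype.card ι, fun d i => ζ d (e.symm i),
    fun p i => ((1 / √(∑ i, ‖v p i‖ ^ 2) : ℝ) : ℂ) * v p (e.symm i),
    fun d hd i => hζ1 d hd _, fun i => hζx _, fun d hd p hp i => ?_, fun p hp => ?_,
    fun p hp s hs hps => ?_, ?_⟩
  · dsimp only
    have e1 : ∑ i, ‖v (d * p) i‖ ^ 2 = ∑ i, ‖v p i‖ ^ 2 := by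
      refine Finset.sum_congr rfl fun i _ => ?_
      rw [hvd d hd p hp i, norm_mul, hζ1 d hd, one_mul]
    rw [e1, hvd d hd p hp]
    ring
  · dsimp only
    rw [Equiv.sum_comp e.symm (fun i => ‖((1 / √(∑ i, ‖v p i‖ ^ 2) : ℝ) : ℂ) * v p i‖ ^ 2)]
    have hpos : 0 < ∑ i, ‖v p i‖ ^ 2 := hm.trans_le (hvm p hp)
    have e1 : ∀ i, ‖((1 / √(∑ i, ‖v p i‖ ^ 2) : ℝ) : ℂ) * v p i‖ ^ 2 =
        (1 / ∑ i, ‖v p i‖ ^ 2) * ‖v p i‖ ^ 2 := by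
      intro i
      rw [norm_mul, Complex.norm_real, Real.norm_eq_abs, mul_pow, sq_abs, div_pow, one_pow,
        Real.sq_sqrt hpos.le]
    rw [Finset.sum_congr rfl fun i _ => e1 i, ← Finset.mul_sum, one_div,
      inv_mul_cancel₀ hpos.ne']
  · dsimp only
    rw [Equiv.sum_comp e.symm (fun i => ‖((1 / √(∑ i, ‖v (p * s) i‖ ^ 2) : ℝ) : ℂ) * v (p * s) i -
      ((1 / √(∑ i, ‖v p i‖ ^ 2) : ℝ) : ℂ) * v p i‖ ^ 2)]
    refine (sum_normalize_sub_le (v (p * s)) (v p) hm2 (by rw [hmm]; exact hvm _ hps)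
      (by rw [hmm]; exact hvm _ hp)).trans ?_
    rw [hmm]
    calc 4 / m * ∑ i, ‖v (p * s) i - v p i‖ ^ 2 ≤ 4 / m * (m * δ / 4) := by
          gcongr
          exact hvs p hp s hs hps
      _ = δ := by field_simp
  · exact Equiv.prod_comp e.symm (fun i => 2 / ‖1 - ζ x i‖)

/-- A bound for the variation of a product of an amplitude and a unit vector. -/
theorem sum_amp_sub_le {a b η : ℝ} (hb0 : 0 ≤ b) (hb1 : b ≤ 1) {u v : ι → ℂ}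
    (hab : |a - b| ≤ η) (hu : ∑ j, ‖u j‖ ^ 2 = 1)
    (huv : ∑ j, ‖u j - v j‖ ^ 2 ≤ η ^ 2) :
    ∑ j, ‖(a : ℂ) * u j - (b : ℂ) * v j‖ ^ 2 ≤ 4 * η ^ 2 := by
  have h1 : ∀ j, ‖(a : ℂ) * u j - (b : ℂ) * v j‖ ^ 2 ≤
      2 * η ^ 2 * ‖u j‖ ^ 2 + 2 * ‖u j - v j‖ ^ 2 := by
    intro j
    have e1 : (a : ℂ) * u j - (b : ℂ) * v j = ((a - b : ℝ) : ℂ) * u j + (b : ℂ) * (u j - v j) := by
      push_cast
      ring
    have e2 : ‖(a : ℂ) * u j - (b : ℂ) * v j‖ ≤ η * ‖u j‖ + ‖u j - v j‖ := by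
      rw [e1]
      refine (norm_add_le _ _).trans ?_
      rw [norm_mul, norm_mul, Complex.norm_real, Complex.norm_real, Real.norm_eq_abs,
        Real.norm_eq_abs, abs_of_nonneg hb0]
      have := norm_nonneg (u j)
      have := norm_nonneg (u j - v j)
      nlinarith
    calc ‖(a : ℂ) * u j - (b : ℂ) * v j‖ ^ 2 ≤ (η * ‖u j‖ + ‖u j - v j‖) ^ 2 :=
          pow_le_pow_left₀ (norm_nonneg _) e2 2
      _ ≤ _ := by nlinarith [sq_nonneg (η * ‖u j‖ - ‖u j - v j‖)]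
  calc ∑ j, ‖(a : ℂ) * u j - (b : ℂ) * v j‖ ^ 2
      ≤ ∑ j, (2 * η ^ 2 * ‖u j‖ ^ 2 + 2 * ‖u j - v j‖ ^ 2) := Finset.sum_le_sum fun j _ => h1 j
    _ = 2 * η ^ 2 * ∑ j, ‖u j‖ ^ 2 + 2 * ∑ j, ‖u j - v j‖ ^ 2 := by
        rw [Finset.sum_add_distrib, ← Finset.mul_sum, ← Finset.mul_sum]
    _ ≤ _ := by rw [hu]; linarith

end norm

/-- **Slow fields on the centralizer of cost `exp (o(R ^ 2 / nu))` give slow fields on the core.** -/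
theorem coreSlow_of_cenSlow {G : Type*} [Group G] {x : G} (hx : CenSlow x) : CoreSlow x := by
  classical
  intro S h1 hinv δ hδ ε hε R₀
  -- the slowness
  obtain ⟨η, hη⟩ : ∃ η : ℝ, η = √(δ / 32) := ⟨_, rfl⟩
  have hη0 : 0 < η := by
    rw [hη]
    positivity
  have hη2 : η ^ 2 = δ / 32 := by
    rw [hη, Real.sq_sqrt (by positivity)]
  obtain ⟨r, hr⟩ := exists_nat_ge (1 / η)
  have hr0 : (0 : ℝ) < r := lt_of_lt_of_le (by positivity) hr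
  have hr1 : 1 ≤ r := by exact_mod_cast hr0
  have hrη : 1 / (r : ℝ) ≤ η := by
    rw [div_le_iff₀ hr0]
    rw [div_le_iff₀ hη0] at hr
    linarith
  obtain ⟨R, hR0, D, n, ζ, u, hxD, hDC, hco, hζ1, hζx, huD, hu1, husl, hcost⟩ :=
    hx S h1 hinv (η ^ 2) (by positivity) (ε / 4) (by positivity) (84 * r + 1) R₀
  obtain ⟨h, a, hhx, hhd, had, ha0, ha1, hasum, hedge⟩ := exists_clusters x S h1 hinv r hr1 R
  have hnu1 : 1 ≤ nu S R x := by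
    rw [nu]
    omega
  have hnu0 : (0 : ℝ) < nu S R x := by exact_mod_cast hnu1
  set m : ℕ := 4 * nu S R x with hm
  have hm1 : 1 ≤ m := by omega
  have hm0 : (0 : ℝ) < m := by exact_mod_cast hm1
  have hcen : ∀ j < m, ∀ p, p⁻¹ * x * p ∈ (S : Set G) ^ R → h j p ∈ Cen x := fun j hj p hp =>
    Subgroup.mem_centralizer_singleton_iff.2 (hhx j hj p hp).eq
  obtain ⟨n', ζ', u', k1, k2, k3, k4, k5, k6⟩ := exists_field (ι := Fin m × Fin n) x D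
    {p | p⁻¹ * x * p ∈ (S : Set G) ^ R} S (fun d i => ζ d i.2)
    (fun p i => (a i.1 p : ℂ) * u (h i.1 p) i.2) (m := (m : ℝ) / 2) (δ := δ) (by positivity)
    (fun d hd i => hζ1 d hd _) (fun i => hζx _)
    (fun d hd p hp i => by
      have hdx : Commute d x := Subgroup.mem_centralizer_singleton_iff.1 (hDC hd)
      rw [hhd i.1 d p hdx, had i.1 d p hdx, huD d hd _ (hcen i.1 i.1.2 p hp)]
      ring)
    (fun p hp => by
      rw [Fintype.sum_prod_type]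
      refine (hasum p hp).trans_eq ?_
      rw [Finset.sum_range]
      refine Finset.sum_congr rfl fun j _ => ?_
      have e1 : ∀ i : Fin n, ‖(a j p : ℂ) * u (h j p) i‖ ^ 2 = a j p ^ 2 * ‖u (h j p) i‖ ^ 2 := by
        intro i
        rw [norm_mul, Complex.norm_real, Real.norm_eq_abs, mul_pow, sq_abs]
      dsimp only
      rw [Finset.sum_congr rfl fun i _ => e1 i, ← Finset.mul_sum, hu1 _ (hcen j j.2 p hp),
        mul_one])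
    (fun p hp s hs hps => by
      have e1 : ∀ j : Fin m, ∑ i : Fin n, ‖(a j (p * s) : ℂ) * u (h j (p * s)) i -
          (a j p : ℂ) * u (h j p) i‖ ^ 2 ≤ 4 * η ^ 2 := by
        intro j
        obtain ⟨e2, e3⟩ := hedge j j.2 p hp s hs hps
        have hc1 := hcen j j.2 p hp
        have hc2 := hcen j j.2 (p * s) hps
        rcases e3 with ⟨e4, e5⟩ | ⟨q, hqx, hq⟩
        · rw [e4, e5]
          have : (0 : ℝ) ≤ 4 * η ^ 2 := by positivity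
          simpa using this
        · refine sum_amp_sub_le (ha0 j p) (ha1 j p) (e2.trans hrη) (hu1 _ hc2) ?_
          have e6 := husl (h j p) hc1 ((h j p)⁻¹ * h j (p * s))
            (Subgroup.mul_mem _ (Subgroup.inv_mem _ hc1) hc2) q hqx hq
          rwa [mul_inv_cancel_left] at e6
      rw [Fintype.sum_prod_type]
      calc _ ≤ ∑ _j : Fin m, 4 * η ^ 2 := Finset.sum_le_sum fun j _ => e1 j
        _ = m * (4 * η ^ 2) := by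
          rw [Finset.sum_const, Finset.card_univ, Fintype.card_fin, nsmul_eq_mul]
        _ = (m : ℝ) / 2 * δ / 4 := by rw [hη2]; ring)
  refine ⟨R, hR0, D, n', ζ', u', hxD, hDC, hco, k1, k2, k3, k4, k5, ?_⟩
  rw [k6, Fintype.prod_prod_type]
  dsimp only
  rw [Finset.prod_const, Finset.card_univ, Fintype.card_fin]
  have hprod : 0 ≤ ∏ j, (2 / ‖1 - ζ x j‖) := Finset.prod_nonneg fun j _ => by positivity
  calc (∏ j, (2 / ‖1 - ζ x j‖)) ^ m ≤ (Real.exp (ε / 4 * (R ^ 2 / nu S R x))) ^ m :=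
        pow_le_pow_left₀ hprod hcost m
    _ = Real.exp (m * (ε / 4 * (R ^ 2 / nu S R x))) := by
        rw [← Real.exp_nat_mul]
    _ = Real.exp (ε * R ^ 2) := by
        congr 1
        rw [hm]
        push_cast
        field_simp

end Vale.Agent.P184.H38
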