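import Vale.Agent.P184.H38.Sub
import Vale.Agent.P184.H115.Dim5

/-!
# Elements whose centralizer has subexponential distortion are core-slow
-/

open scoped Pointwise

namespace Vale.Agent.P184.H38

open Vale.Agent.P184.Un Vale.Agent.P184.H115

/-- The centralizer of `x` is amenable, it has a length function `N` for which `x` is at most
polynomially distorted and its quotient by `x` has finite dimension with polynomial control, and,
for all finite `S`, `ε > 0`, `k` and arbitrarily large `m`, `N c ≤ exp (ε m ^ 2 / nu S m x)` if a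
simultaneous conjugate of `x` and `c` is in `S ^ m × S ^ (k * nu S m x)`. -/
def DimSub {G : Type*} [Group G] (x : G) : Prop :=
  CoAmenable (Cen x) ⊥ ∧ ∃ (y : Cen x) (N : Cen x → ℝ) (n : ℕ) (C : ℝ) (d : ℕ),
    (y : G) = x ∧ DimData (Cen x) y N n C d ∧
    ∀ (S : Finset G) (ε : ℝ), 0 < ε → ∀ k m₀ : ℕ, ∃ m : ℕ, m₀ ≤ m ∧
      ∀ (c : Cen x) (p : G), p⁻¹ * x * p ∈ (S : Set G) ^ m →
        p⁻¹ * (c : G) * p ∈ (S : Set G) ^ (k * nu S m x) →
          N c ≤ Real.exp (ε * (m ^ 2 / nu S m x))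

theorem mem_cen' {G : Type*} [Group G] {x c : G} : c ∈ Cen x ↔ Commute c x := Dm.mem_cen

/-- `nu S R x` is at most of the order of `R`. -/
theorem exists_nu_le {G : Type*} [Group G] (S : Finset G) (x : G) :
    ∃ C : ℕ, 1 ≤ C ∧ ∀ R : ℕ, 1 ≤ R → nu S R x ≤ C * R := by
  classical
  refine ⟨Nat.log 2 S.card + 2, by omega, fun R hR => ?_⟩
  have e1 : {y : G | y ∈ (S : Set G) ^ R ∧ IsConj x y}.ncard ≤ (S ^ R).card := by
    rw [← Set.ncard_coe_finset, Finset.coe_pow]
    refine Set.ncard_le_ncard (fun y hy => hy.1) ?_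
    rw [← Finset.coe_pow]
    exact Finset.finite_toSet _
  have e2 : (S ^ R).card ≤ 2 ^ ((Nat.log 2 S.card + 1) * R) := by
    rw [pow_mul]
    refine Finset.card_pow_le.trans (Nat.pow_le_pow_left ?_ R)
    exact (Nat.lt_pow_succ_log_self (by norm_num) _).le
  have e3 : Nat.log 2 {y : G | y ∈ (S : Set G) ^ R ∧ IsConj x y}.ncard ≤
      (Nat.log 2 S.card + 1) * R := by
    refine (Nat.log_mono_right (e1.trans e2)).trans ?_
    rw [Nat.log_pow (by norm_num)]
  rw [nu]
  nlinarith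

theorem exists_const_le {G : Type*} [Group G] (S : Finset G) (x : G) {ε : ℝ} (hε : 0 < ε)
    (K : ℝ) : ∃ R₁ : ℕ, ∀ R : ℕ, R₁ ≤ R → K ≤ ε * (R ^ 2 / nu S R x) := by
  obtain ⟨C, hC, hnu⟩ := exists_nu_le S x
  have hC0 : (0 : ℝ) < C := by exact_mod_cast hC
  obtain ⟨R₁, hR₁⟩ := exists_nat_ge (C * K / ε)
  refine ⟨max R₁ 1, fun R hR => ?_⟩
  have hR1 : 1 ≤ R := (le_max_right _ _).trans hR
  have hR0 : (0 : ℝ) < R := by exact_mod_cast hR1
  have h1 : C * K / ε ≤ R := hR₁.trans (by exact_mod_cast (le_max_left _ _).trans hR)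
  rw [div_le_iff₀ hε] at h1
  have h2 : (nu S R x : ℝ) ≤ C * R := by exact_mod_cast hnu R hR1
  have h3 : (0 : ℝ) < nu S R x := by
    have : 1 ≤ nu S R x := by
      rw [nu]
      omega
    exact_mod_cast this
  have h4 : (R : ℝ) / C ≤ R ^ 2 / nu S R x := by
    rw [div_le_div_iff₀ hC0 h3]
    nlinarith
  calc K = C * K / C := by field_simp
    _ ≤ R * ε / C := by gcongr
    _ = ε * (R / C) := by ring
    _ ≤ _ := by gcongr

/-- One mode. -/
theorem cenSlow_of_psiSub {G : Type*} [Group G] {x : G} (hx : PsiSub x) : CenSlow x := by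
  intro S h1 hinv δ hδ ε hε k R₀
  obtain ⟨η, hη⟩ : ∃ η : ℝ, η = min 1 √δ := ⟨_, rfl⟩
  have hη0 : 0 < η := by
    rw [hη]
    exact lt_min zero_lt_one (Real.sqrt_pos.2 hδ)
  have hη1 : η ≤ 1 := by
    rw [hη]
    exact min_le_left _ _
  have hηδ : η ^ 2 ≤ δ := by
    have h2 : η ≤ √δ := by
      rw [hη]
      exact min_le_right _ _
    calc η ^ 2 ≤ √δ ^ 2 := pow_le_pow_left₀ hη0.le h2 2
      _ = δ := Real.sq_sqrt hδ.le
  obtain ⟨R₁, hR₁⟩ := exists_const_le S x (half_pos hε) (Real.pi / η)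
  obtain ⟨R, hR, ψ, hψ, hψx, hbd⟩ := hx S (ε / 2) (half_pos hε) k (max R₀ R₁)
  obtain ⟨Λ, hΛ⟩ : ∃ Λ : ℝ, Λ = Real.exp (ε / 2 * (R ^ 2 / nu S R x)) := ⟨_, rfl⟩
  have hΛ1 : 1 ≤ Λ := by
    rw [hΛ]
    exact Real.one_le_exp (by positivity)
  have hΛ0 : 0 < Λ := by linarith
  obtain ⟨φ, hφ⟩ : ∃ φ : ℝ, φ = η / Λ := ⟨_, rfl⟩
  have hφ0 : 0 < φ := by
    rw [hφ]
    positivity
  have hφ1 : φ ≤ 1 := by
    rw [hφ, div_le_one hΛ0]
    linarith
  have hφΛ : φ * Λ = η := by
    rw [hφ]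
    field_simp
  have hlow := H174.le_norm_one_sub_exp hφ0.le hφ1
  have hpos : 0 < 2 / Real.pi * φ := by positivity
  refine ⟨R, (le_max_left _ _).trans hR, Cen x, 1,
    fun d _ => Complex.exp ((φ * ψ d : ℝ) * Complex.I),
    fun h _ => Complex.exp ((φ * ψ h : ℝ) * Complex.I),
    mem_cen'.2 (Commute.refl x), le_rfl, H174.coAmenable_self _, fun d _ j => ?_,
    fun j => ?_, fun d hd h hh j => ?_, fun h hh => ?_, fun h hh c hc q hqx hq => ?_, ?_⟩
  · exact Complex.norm_exp_ofReal_mul_I _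
  · dsimp only
    rw [hψx, mul_one]
    intro h3
    rw [h3, sub_self, norm_zero] at hlow
    linarith
  · dsimp only
    rw [hψ d hd h hh, mul_add, Complex.ofReal_add, add_mul, Complex.exp_add]
  · rw [Fin.sum_univ_one]
    dsimp only
    rw [Complex.norm_exp_ofReal_mul_I, one_pow]
  · rw [Fin.sum_univ_one]
    have h3 := H174.norm_exp_sub_exp_le (φ * ψ (h * c)) (φ * ψ h)
    have h4 : |φ * ψ (h * c) - φ * ψ h| ≤ η := by
      rw [← mul_sub, abs_mul, abs_of_pos hφ0, ← hφΛ, hψ h hh c hc, add_sub_cancel_left]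
      refine mul_le_mul_of_nonneg_left ?_ hφ0.le
      rw [hΛ]
      exact hbd c hc q hqx hq
    exact (pow_le_pow_left₀ (norm_nonneg _) (h3.trans h4) 2).trans hηδ
  · rw [Fin.prod_univ_one]
    dsimp only
    rw [hψx, mul_one]
    calc 2 / ‖1 - Complex.exp (φ * Complex.I)‖ ≤ 2 / (2 / Real.pi * φ) := by gcongr
      _ = Real.pi / η * Λ := by
        rw [hφ]
        field_simp
      _ ≤ Λ * Λ := by
        refine mul_le_mul_of_nonneg_right ?_ hΛ0.le
        have h5 := hR₁ R ((le_max_right _ _).trans hR)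
        have h6 := Real.add_one_le_exp (ε / 2 * ((R : ℝ) ^ 2 / nu S R x))
        rw [hΛ]
        linarith
      _ = _ := by
        rw [hΛ, ← Real.exp_add]
        ring_nf

/-- **A character of the centralizer with subexponential distortion.** -/
theorem coreSlow_of_psiSub {G : Type*} [Group G] {x : G} (hx : PsiSub x) : CoreSlow x :=
  coreSlow_of_cenSlow (cenSlow_of_psiSub hx)

/-- Several modes. -/
theorem cenSlow_of_dimSub {G : Type*} [Group G] {x : G} (hx : DimSub x) : CenSlow x := by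
  classical
  obtain ⟨hA, y, N, n, C0, d, hy, hD0, hw⟩ := hx
  have hyc : ∀ h : Cen x, y * h = h * y := fun h => by
    apply Subtype.ext
    rw [Subgroup.coe_mul, Subgroup.coe_mul, hy]
    exact (Dm.mem_cen.1 h.2).eq.symm
  -- a larger constant
  have hD : DimData (Cen x) y N n (max C0 1) d := by
    have hm : C0 ≤ max C0 1 := le_max_left _ _
    refine ⟨hD0.len, fun k => (hD0.dist k).trans ?_, fun r hr => ?_⟩
    · have := len_nonneg hD0.len (y ^ k)
      gcongr
    · obtain ⟨z, h1, h2, h3, h4⟩ := hD0.cover r hr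
      refine ⟨z, h1, fun j h a ha => ?_, h3, h4⟩
      obtain ⟨k, hk⟩ := h2 j h a ha
      refine ⟨k, hk.trans ?_⟩
      gcongr
  intro S hS1 hS δ hδ ε hε k₀ R₀
  obtain ⟨K, e, hK, hfield⟩ := H115.exists_field hyc hD (le_max_right _ _) (Real.sqrt_pos.2 hδ)
  -- constants
  set η : ℝ := ε / (2 * (n * e + 1)) with hη
  have hη0 : 0 < η := by positivity
  have hlog : 0 ≤ Real.log (4 * K) := Real.log_nonneg (by linarith)
  obtain ⟨R1, hR1⟩ := exists_const_le S x (half_pos hε) (n * Real.log (4 * K))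
  obtain ⟨R, hR, hwb⟩ := hw S η hη0 k₀ (max R₀ R1)
  obtain ⟨Z, hZ⟩ : ∃ Z : ℝ, Z = (R : ℝ) ^ 2 / nu S R x := ⟨_, rfl⟩
  have hZ0 : 0 ≤ Z := by
    rw [hZ]
    positivity
  rw [← hZ] at hwb
  set Λ : ℝ := Real.exp (η * Z) with hΛ
  have hΛ1 : 1 ≤ Λ := Real.one_le_exp (by positivity)
  obtain ⟨φ, u, hφ0, hφ1, hφK, hu1, hu2, hu3⟩ := hfield Λ hΛ1
  -- powers of `x`
  have hu1' : ∀ h j, u (y⁻¹ * h) j = Complex.exp (((-φ : ℝ) : ℂ) * Complex.I) * u h j := by
    intro h j
    have h1 := hu1 (y⁻¹ * h) j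
    rw [mul_inv_cancel_left] at h1
    rw [h1, ← mul_assoc, ← Complex.exp_add]
    rw [show ((-φ : ℝ) : ℂ) * Complex.I + (φ : ℂ) * Complex.I = 0 by push_cast; ring,
      Complex.exp_zero, one_mul]
  have huk : ∀ (k : ℤ) h j, u (y ^ k * h) j =
      Complex.exp (((φ * k : ℝ) : ℂ) * Complex.I) * u h j := by
    intro k
    induction k with
    | zero => intro h j; simp
    | succ k ih =>
      intro h j
      rw [add_comm, zpow_add, zpow_one, mul_assoc, hu1, ih, ← mul_assoc, ← Complex.exp_add]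
      congr 2
      push_cast
      ring
    | pred k ih =>
      intro h j
      rw [sub_eq_add_neg, add_comm, zpow_add, zpow_neg_one, mul_assoc, hu1', ih, ← mul_assoc,
        ← Complex.exp_add]
      congr 2
      push_cast
      ring
  have hj0 : ∃ j, u 1 j ≠ 0 := by
    by_contra hcon
    push Not at hcon
    have h1 := hu2 1
    simp [hcon] at h1
  obtain ⟨j0, hj0⟩ := hj0
  -- the character
  let κ : G → ℤ := fun g => if h : ∃ k : ℤ, x ^ k = g then h.choose else 0
  have hκ : ∀ g, (∃ k : ℤ, x ^ k = g) → x ^ κ g = g := fun g h => by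
    simp only [κ, dif_pos h]
    exact h.choose_spec
  have hyk : ∀ k : ℤ, ((y ^ k : Cen x) : G) = x ^ k := fun k => by
    rw [Subgroup.coe_zpow, hy]
  have hκx : Complex.exp (((φ * κ x : ℝ) : ℂ) * Complex.I) =
      Complex.exp ((φ : ℂ) * Complex.I) := by
    have h1 : x ^ κ x = x := hκ x ⟨1, zpow_one x⟩
    have h2 : y ^ κ x = y := by
      apply Subtype.ext
      rw [hyk, h1, hy]
    have h3 := huk (κ x) 1 j0
    rw [h2, hu1] at h3
    exact (mul_right_cancel₀ hj0 h3).symm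
  -- elements of the centralizer
  let f : G → Cen x := fun g => if hg : g ∈ Cen x then ⟨g, hg⟩ else 1
  have hf : ∀ g (hg : g ∈ Cen x), f g = ⟨g, hg⟩ := fun g hg => by simp only [f, dif_pos hg]
  refine ⟨R, (le_max_left _ _).trans hR, Subgroup.zpowers x, n,
    fun g _ => Complex.exp (((φ * κ g : ℝ) : ℂ) * Complex.I), fun p j => u (f p) j,
    Subgroup.mem_zpowers x, ?_, coAmenable_mono bot_le hA, ?_, ?_, ?_, ?_, ?_, ?_⟩
  · rw [Subgroup.zpowers_le]
    exact Dm.mem_cen.2 (Commute.refl x)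
  · intro g _ j
    exact Complex.norm_exp_ofReal_mul_I _
  · intro j h1
    dsimp only at h1
    rw [hκx] at h1
    have h2 := gap hφ0 hφ1
    have h3 : ‖1 - Complex.exp ((φ : ℂ) * Complex.I)‖ = 2 * |Real.sin (φ / 2)| := by
      rw [norm_sub_rev, mul_comm, Complex.norm_exp_I_mul_ofReal_sub_one]
      rw [Real.norm_eq_abs, abs_mul, abs_of_pos (by norm_num : (0 : ℝ) < 2)]
    rw [h1, sub_self, norm_zero] at h3
    have h4 : 0 < Real.sin (φ / 2) :=
      Real.sin_pos_of_pos_of_lt_pi (by linarith) (by linarith [Real.pi_gt_three])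
    rw [abs_of_pos h4] at h3
    linarith
  · intro g hg h hh j
    obtain ⟨k, hk⟩ := Subgroup.mem_zpowers_iff.1 hg
    have h1 := hκ g ⟨k, hk⟩
    have h2 : g = ((y ^ κ g : Cen x) : G) := by rw [hyk, h1]
    have hgc : g ∈ Cen x := by
      rw [h2]
      exact (y ^ κ g : Cen x).2
    have h3 : f (g * h) = y ^ κ g * f h := by
      rw [hf _ (Subgroup.mul_mem _ hgc hh), hf h hh]
      apply Subtype.ext
      rw [Subgroup.coe_mul, ← h2]
    dsimp only
    rw [h3, huk]
  · intro h _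
    exact hu2 (f h)
  · intro h hh c hc q hqx hq
    have h1 : N ((f h)⁻¹ * f (h * c)) ≤ Λ := by
      have e1 : (f h)⁻¹ * f (h * c) = ⟨c, hc⟩ := by
        rw [hf _ (Subgroup.mul_mem _ hh hc), hf h hh]
        apply Subtype.ext
        rw [Subgroup.coe_mul, Subgroup.coe_inv]
        exact inv_mul_cancel_left h c
      rw [e1]
      exact hwb ⟨c, hc⟩ q hqx hq
    have h2 := hu3 (f h) (f (h * c)) h1
    dsimp only
    have h3 : ∑ j, ‖u (f (h * c)) j - u (f h) j‖ ^ 2 ≤
        (∑ j, ‖u (f (h * c)) j - u (f h) j‖) ^ 2 :=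
      Finset.sum_sq_le_sq_sum_of_nonneg fun j _ => norm_nonneg _
    have h4 : ∑ j, ‖u (f (h * c)) j - u (f h) j‖ ≤ √δ := by
      refine le_trans (le_of_eq (Finset.sum_congr rfl fun j _ => norm_sub_rev _ _)) h2
    refine h3.trans ?_
    calc (∑ j, ‖u (f (h * c)) j - u (f h) j‖) ^ 2 ≤ √δ ^ 2 :=
          pow_le_pow_left₀ (Finset.sum_nonneg fun j _ => norm_nonneg _) h4 2
      _ = δ := Real.sq_sqrt hδ.le
  · dsimp only
    rw [hκx, Finset.prod_const, Finset.card_univ, Fintype.card_fin]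
    have h1 : 2 / ‖1 - Complex.exp ((φ : ℂ) * Complex.I)‖ ≤ 4 * (K * Λ ^ e) :=
      (gap hφ0 hφ1).trans (by gcongr)
    have h2 : (4 * (K * Λ ^ e)) ^ n = Real.exp (n * Real.log (4 * K) + n * e * (η * Z)) := by
      have e1 : Λ ^ e = Real.exp (e * (η * Z)) := by rw [hΛ, ← Real.exp_nat_mul]
      have e2 : 4 * (K * Λ ^ e) = Real.exp (Real.log (4 * K) + e * (η * Z)) := by
        rw [Real.exp_add, Real.exp_log (by linarith), e1]
        ring
      rw [e2, ← Real.exp_nat_mul]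
      congr 1
      ring
    rw [← hZ]
    calc (2 / ‖1 - Complex.exp ((φ : ℂ) * Complex.I)‖) ^ n ≤ (4 * (K * Λ ^ e)) ^ n := by gcongr
      _ = Real.exp (n * Real.log (4 * K) + n * e * (η * Z)) := h2
      _ ≤ Real.exp (ε * Z) := by
          refine Real.exp_le_exp.2 ?_
          have h3 : n * Real.log (4 * K) ≤ ε / 2 * Z := by
            rw [hZ]
            exact hR1 R ((le_max_right _ _).trans hR)
          have h5 : n * e * (η * Z) ≤ ε / 2 * Z := by
            have h6 : n * e * η ≤ ε / 2 := by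
              rw [hη]
              have h7 : (0 : ℝ) ≤ n * e := by positivity
              rw [mul_div_assoc', div_le_div_iff₀ (by positivity) (by norm_num)]
              nlinarith
            calc (n : ℝ) * e * (η * Z) = n * e * η * Z := by ring
              _ ≤ ε / 2 * Z := by gcongr
          linarith

/-- **Amenable centralizers of finite dimension with subexponential distortion.** -/
theorem coreSlow_of_dimSub {G : Type*} [Group G] {x : G} (hx : DimSub x) : CoreSlow x :=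
  coreSlow_of_cenSlow (cenSlow_of_dimSub hx)

theorem dimSub_of_dblSub {G : Type*} [Group G] {x : G} (hx : DblSub x) : DimSub x := by
  obtain ⟨y, N, K, C, d, hy, hN, hK, hd, hw⟩ := hx
  have hyc : ∀ h : Cen x, y * h = h * y := fun h => by
    apply Subtype.ext
    rw [Subgroup.coe_mul, Subgroup.coe_mul, hy]
    exact (Dm.mem_cen.1 h.2).eq.symm
  obtain ⟨n, C', d', hD⟩ := dimData_of_dbl hyc hN hK hd
  exact ⟨coAmenable_of_dbl hN hK, y, N, n, C', d', hy, hD, hw⟩

/-- **Doubling centralizers with subexponential distortion.** -/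
theorem coreSlow_of_dblSub {G : Type*} [Group G] {x : G} (hx : DblSub x) : CoreSlow x :=
  coreSlow_of_dimSub (dimSub_of_dblSub hx)

end Vale.Agent.P184.H38
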