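import Vale.Agent.P184.H38.PfBound

set_option linter.all false

/-! Wick (quasi-free) functionals of lists of vectors. -/

noncomputable section

namespace Vale.Agent.P184.H38

open Vale.Agent.P184.H460 CliffordAlgebra

/-- The Wick functional of a list. -/
def wk {V : Type*} (S : V → V → ℝ) : List V → ℝ
  | [] => 1
  | a :: L => ∑ k : Fin L.length, (-1 : ℝ) ^ (k : ℕ) * S a (L.get k) * wk S (L.eraseIdx k)
termination_by L => L.length
decreasing_by
  have := k.2
  simp only [List.length_eraseIdx, List.length_cons]
  split_ifs <;> omega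

section basic

variable {V W : Type*} (S : V → V → ℝ)

theorem wk_nil : wk S [] = 1 := by rw [wk]

theorem wk_cons (a : V) (L : List V) : wk S (a :: L) =
    ∑ k : Fin L.length, (-1 : ℝ) ^ (k : ℕ) * S a (L.get k) * wk S (L.eraseIdx k) := by rw [wk]

theorem wk_singleton (a : V) : wk S [a] = 0 := by rw [wk_cons]; simp

theorem wk_pair (a b : V) : wk S [a, b] = S a b := by
  rw [wk_cons]
  simp [wk_nil]

theorem length_erase_lt {L : List V} (k : Fin L.length) :
    (L.eraseIdx k).length = L.length - 1 := by
  rw [List.length_eraseIdx, if_pos k.2]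

/-- Odd length. -/
theorem wk_odd (L : List V) (h : Odd L.length) : wk S L = 0 := by
  induction hn : L.length using Nat.strong_induction_on generalizing L with
  | _ n ih =>
    cases L with
    | nil => simp at h
    | cons v L =>
        rw [wk_cons]
        refine Finset.sum_eq_zero fun k _ => ?_
        have hk := k.2
        have hl := length_erase_lt k
        rw [ih (L.eraseIdx k).length ?_ _ ?_ rfl, mul_zero]
        · rw [← hn, List.length_cons, hl]; omega
        · rw [hl]
          rw [List.length_cons] at h
          obtain ⟨m, hm⟩ := h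
          exact ⟨m - 1, by omega⟩

/-- The Wick functional depends only on the pairings of entries in order. -/
theorem wk_pw (S' : W → W → ℝ) (f : V → W) (L : List V)
    (h : L.Pairwise fun a b => S a b = S' (f a) (f b)) : wk S L = wk S' (L.map f) := by
  induction hn : L.length using Nat.strong_induction_on generalizing L with
  | _ n ih =>
    cases L with
    | nil => rw [List.map_nil, wk_nil, wk_nil]
    | cons v L =>
        rw [List.map_cons, wk_cons, wk_cons]
        refine Fintype.sum_equiv (finCongr (by simp)) _ _ fun k => ?_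
        have hk : (finCongr (by simp : L.length = (L.map f).length) k : ℕ) = k := rfl
        have hg : (L.map f).get (finCongr (by simp) k) = f (L.get k) := by
          simp
        rw [List.pairwise_cons] at h
        rw [hg, hk, eraseIdx_map', h.1 (L.get k) (by simp)]
        congr 1
        refine ih (L.eraseIdx k).length ?_ _ ?_ rfl
        · have := k.2
          rw [← hn, List.length_cons, length_erase_lt]
          omega
        · exact h.2.sublist (List.eraseIdx_sublist _ _)

theorem wk_map (S' : W → W → ℝ) (f : V → W) (L : List V)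
    (h : ∀ a ∈ L, ∀ b ∈ L, S' (f a) (f b) = S a b) : wk S' (L.map f) = wk S L :=
  (wk_pw S S' f L (List.pairwise_of_forall_mem_list fun a ha b hb => (h a ha b hb).symm)).symm

theorem wk_congr {S S' : V → V → ℝ} (L : List V) (h : ∀ a ∈ L, ∀ b ∈ L, S a b = S' a b) :
    wk S L = wk S' L := by
  have := wk_map S S' id L (fun a ha b hb => (h a ha b hb).symm)
  simpa using this.symm

end basic

section alt

variable {V : Type*} [AddCommGroup V] [Module ℝ V]

/-- comparison with the Pfaffian of an alternating form -/
theorem wk_eq_pf (B : LinearMap.BilinForm ℝ V) (hB : B.IsAlt) (L : List V) :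
    wk (fun a b => B a b) L = pf B hB L := by
  induction hn : L.length using Nat.strong_induction_on generalizing L with
  | _ n ih =>
    cases L with
    | nil => rw [wk_nil, pf_nil]
    | cons v L =>
        rw [wk_cons, pf_cons]
        refine Finset.sum_congr rfl fun k _ => ?_
        rw [ih (L.eraseIdx k).length ?_ _ rfl]
        have := k.2
        rw [← hn, List.length_cons, length_erase_lt]
        omega

/-- the alternating matrix of an array -/
def altM {n : ℕ} (A : Fin n → Fin n → ℝ) : Matrix (Fin n) (Fin n) ℝ :=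
  Matrix.of fun i j => if i < j then A i j else if j < i then - A j i else 0

theorem altM_lt {n : ℕ} (A : Fin n → Fin n → ℝ) {i j : Fin n} (h : i < j) : altM A i j = A i j := by
  simp [altM, h]

theorem altM_anti {n : ℕ} (A : Fin n → Fin n → ℝ) (i j : Fin n) : altM A i j = - altM A j i := by
  rcases lt_trichotomy i j with h | h | h
  · simp [altM, h, h.not_gt]
  · simp [altM, h]
  · simp [altM, h, h.not_gt]

/-- the alternating form of an array -/
def altB {n : ℕ} (A : Fin n → Fin n → ℝ) : LinearMap.BilinForm ℝ (Fin n → ℝ) :=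
  Matrix.toBilin' (altM A)

theorem altB_single {n : ℕ} (A : Fin n → Fin n → ℝ) (i j : Fin n) :
    altB A (Pi.single i 1) (Pi.single j 1) = altM A i j := by
  rw [altB, Matrix.toBilin'_single]

theorem altB_alt {n : ℕ} (A : Fin n → Fin n → ℝ) : (altB A).IsAlt := by
  intro v
  rw [altB, Matrix.toBilin'_apply]
  have h : ∑ i, ∑ j, v i * altM A i j * v j = - ∑ i, ∑ j, v i * altM A i j * v j := by
    conv_lhs => rw [Finset.sum_comm]
    rw [← Finset.sum_neg_distrib]
    refine Finset.sum_congr rfl fun i _ => ?_
    rw [← Finset.sum_neg_distrib]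
    refine Finset.sum_congr rfl fun j _ => ?_
    rw [altM_anti A j i]
    ring
  linarith

theorem wk_sorted {n : ℕ} (A : Fin n → Fin n → ℝ) (l : List (Fin n)) (hl : l.Pairwise (· < ·)) :
    wk A l = pf (altB A) (altB_alt A) (l.map fun i => Pi.single i 1) := by
  rw [← wk_eq_pf]
  refine wk_pw A _ _ l (hl.imp fun {i j} h => ?_)
  rw [altB_single, altM_lt A h]

end alt

section gen

variable {V : Type*} (S : V → V → ℝ)

/-- Expansion along the last entry. -/
theorem wk_concat (L : List V) (b : V) : wk S (L ++ [b]) =
    (-1) ^ (L.length + 1) *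
      ∑ k : Fin L.length, (-1 : ℝ) ^ (k : ℕ) * S (L.get k) b * wk S (L.eraseIdx k) := by
  have key : ∀ (n : ℕ) (f : Fin n → V) (l : List (Fin n)) (x : Fin n)
      (hl : (l ++ [x]).Pairwise (· < ·)), wk S ((l ++ [x]).map f) =
      (-1) ^ ((l.map f).length + 1) * ∑ k : Fin (l.map f).length, (-1 : ℝ) ^ (k : ℕ) *
        S ((l.map f).get k) (f x) * wk S ((l.map f).eraseIdx k) := by
    intro n f l x hl
    set A : Fin n → Fin n → ℝ := fun i j => S (f i) (f j) with hA
    have h1 : ∀ l : List (Fin n), wk S (l.map f) = wk A l := fun l =>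
      wk_map A S f l fun _ _ _ _ => rfl
    rw [h1, wk_sorted A _ hl, List.map_append, List.map_singleton]
    have h2 := pf_move_aux (altB A) (altB_alt A) [] (l.map fun i => Pi.single i 1) []
      (Pi.single x 1)
    simp only [List.nil_append, List.append_nil] at h2
    have h3 : (-1 : ℝ) ^ (l.map fun i => (Pi.single i 1 : Fin n → ℝ)).length *
        (-1) ^ (l.map fun i => (Pi.single i 1 : Fin n → ℝ)).length = 1 := by
      rw [← mul_pow]; simp
    have h4 : pf (altB A) (altB_alt A) ((l.map fun i => (Pi.single i 1 : Fin n → ℝ)) ++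
        [Pi.single x 1]) = (-1 : ℝ) ^ (l.map fun i => (Pi.single i 1 : Fin n → ℝ)).length *
        pf (altB A) (altB_alt A) (Pi.single x 1 :: (l.map fun i => (Pi.single i 1 : Fin n → ℝ))) := by
      rw [h2, ← mul_assoc, h3, one_mul]
    have hs : (-1 : ℝ) ^ (l.map fun i => (Pi.single i 1 : Fin n → ℝ)).length =
        (-1) ^ (l.map f).length := by
      rw [List.length_map, List.length_map]
    rw [h4, pf_cons, hs, pow_succ, mul_assoc, neg_one_mul, ← Finset.sum_neg_distrib]
    congr 1
    refine Fintype.sum_equiv (finCongr (by simp)) _ _ fun k => ?_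
    have hk : (finCongr (by simp : (l.map fun i => (Pi.single i 1 : Fin n → ℝ)).length =
      (l.map f).length) k : ℕ) = k := rfl
    have hk' : (k : ℕ) < l.length := by
      have := k.2
      simpa using this
    have hg : (l.map f).get (finCongr (by simp) k) = f (l[(k : ℕ)]'hk') := by
      simp
    have hg2 : (l.map fun i => (Pi.single i 1 : Fin n → ℝ)).get k =
      Pi.single (l[(k : ℕ)]'hk') 1 := by
      simp
    rw [hg, hk, hg2, eraseIdx_map', eraseIdx_map', h1, wk_sorted A _ ?_, altB_single, altM_anti,
      altM_lt]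
    · ring
    · rw [List.pairwise_append] at hl
      exact hl.2.2 _ (List.getElem_mem _) x (by simp)
    · rw [List.pairwise_append] at hl
      exact hl.1.sublist (List.eraseIdx_sublist _ _)
  have h0 : ∀ L : List V, (List.finRange L.length).map L.get = L := by
    intro L
    simp
  obtain ⟨l, l', hll, hl1, hl2⟩ := List.map_eq_append_iff.1 (h0 (L ++ [b]))
  obtain ⟨x, l'', hx, hfx, hl''⟩ := List.map_eq_cons_iff.1 hl2
  have hl3 : l'' = [] := by simpa using hl''
  subst hl3
  subst hx
  have hp : (l ++ [x]).Pairwise (· < ·) := by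
    rw [← hll]
    exact List.pairwise_lt_finRange _
  have h5 := key _ (L ++ [b]).get l x hp
  rw [← hll, h0, hfx] at h5
  rw [h5]
  clear h5 key h0 hll hl2 hp hl''
  revert hl1
  generalize List.map (L ++ [b]).get l = L'
  intro hl1
  subst hl1
  rfl

/-- Twisted cyclicity. -/
theorem wk_cyc (L : List V) (a xa : V) (h : ∀ v ∈ L, S v xa = - S a v) (hL : Odd L.length) :
    wk S (a :: L) = - wk S (L ++ [xa]) := by
  rw [wk_concat, wk_cons, hL.add_one.neg_one_pow, one_mul, ← Finset.sum_neg_distrib]
  refine Finset.sum_congr rfl fun k _ => ?_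
  rw [h _ (List.get_mem _ _)]
  ring

/-- Hadamard's bound. -/
theorem wk_bound {k : ℕ} (v : Fin (2 * k) → V) (g : Fin (2 * k) → ℝ) (hg : ∀ i, 0 ≤ g i)
    (M : ℝ) (hM : 0 ≤ M) (h : ∀ i j, i < j → |S (v i) (v j)| ≤ M * g i * g j) :
    |wk S (List.ofFn v)| ≤ (∏ i, g i) * (M * √(2 * k)) ^ k := by
  set A : Fin (2 * k) → Fin (2 * k) → ℝ := fun i j => S (v i) (v j) with hA
  have h1 : List.ofFn v = (List.finRange (2 * k)).map v := List.ofFn_eq_map
  rw [h1, wk_map A S v _ (fun _ _ _ _ => rfl), wk_sorted A _ (List.pairwise_lt_finRange _),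
    ← List.ofFn_eq_map]
  refine pf_bound_even (altB A) (altB_alt A) (fun i => Pi.single i 1) g hg M hM fun i j => ?_
  rw [altB_single]
  rcases lt_trichotomy i j with hij | hij | hij
  · rw [altM_lt A hij]; exact h i j hij
  · subst hij
    have : altM A i i = 0 := by simp [altM]
    rw [this, abs_zero]
    have := hg i
    positivity
  · rw [altM_anti, altM_lt A hij, abs_neg, mul_assoc, mul_comm (g i), ← mul_assoc]
    exact h j i hij

end gen

section bil

variable {V : Type*} [AddCommGroup V] [Module ℝ V] (S : LinearMap.BilinForm ℝ V)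

theorem toQ_S : (-S).toQuadraticMap = (0 : QuadraticForm ℝ V) - S.toQuadraticMap := by
  ext v
  simp [LinearMap.BilinMap.toQuadraticMap_apply]

/-- The Wick functional on the Clifford algebra. -/
def cl : CliffordAlgebra (S.toQuadraticMap) →ₗ[ℝ] ℝ :=
  (ExteriorAlgebra.algebraMapInv (R := ℝ) (M := V)).toLinearMap ∘ₗ
    (changeForm (Q := S.toQuadraticMap) (Q' := 0) (toQ_S S))

theorem cl_one : cl S 1 = 1 := by
  simp [cl]

theorem cl_iota_mul (v : V) (x : CliffordAlgebra (S.toQuadraticMap)) :
    cl S (ι S.toQuadraticMap v * x) =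
      cl S (contractLeft (Q := S.toQuadraticMap) (S v) x) := by
  have h := changeForm_ι_mul (Q := S.toQuadraticMap) (Q' := 0) (toQ_S S) v x
  have h0 : ExteriorAlgebra.algebraMapInv (R := ℝ) (M := V) (CliffordAlgebra.ι 0 v) = 0 :=
    algebraMapInv_iota v
  rw [cl, LinearMap.comp_apply]
  refine (congrArg ExteriorAlgebra.algebraMapInv h).trans ?_
  rw [map_sub, map_mul, h0, zero_mul, zero_sub, LinearMap.comp_apply, changeForm_contractLeft]
  simp

/-- the product of a list of vectors -/
def cp (L : List V) : CliffordAlgebra (S.toQuadraticMap) :=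
  (L.map (CliffordAlgebra.ι S.toQuadraticMap)).prod

theorem cp_nil : cp S [] = 1 := rfl

theorem cp_cons (v : V) (L : List V) : cp S (v :: L) = ι S.toQuadraticMap v * cp S L := by
  simp [cp]

theorem cp_append (L M : List V) : cp S (L ++ M) = cp S L * cp S M := by
  simp [cp]

theorem contract_cp (d : Module.Dual ℝ V) (L : List V) :
    contractLeft (Q := S.toQuadraticMap) d (cp S L) =
      ∑ k : Fin L.length, ((-1 : ℝ) ^ (k : ℕ) * d (L.get k)) • cp S (L.eraseIdx k) := by
  induction L with
  | nil => simp [cp_nil, contractLeft_one]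
  | cons a L ih =>
      rw [cp_cons, contractLeft_ι_mul, ih]
      simp only [List.length_cons]
      rw [Fin.sum_univ_succ]
      simp only [Fin.val_zero, pow_zero, one_mul, List.get_cons_zero, List.eraseIdx_cons_zero,
        Fin.val_succ, List.eraseIdx_cons_succ, cp_cons, Finset.mul_sum,
        sub_eq_add_neg]
      congr 1
      rw [← Finset.sum_neg_distrib]
      refine Finset.sum_congr rfl fun k _ => ?_
      rw [mul_smul_comm, ← neg_smul]
      congr 1
      have : (a :: L).get k.succ = L.get k := rfl
      rw [this]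
      ring

theorem wk_eq_cl (L : List V) : wk (fun a b => S a b) L = cl S (cp S L) := by
  induction hn : L.length using Nat.strong_induction_on generalizing L with
  | _ n ih =>
    cases L with
    | nil => rw [wk_nil, cp_nil, cl_one]
    | cons v L =>
        rw [wk_cons, cp_cons, cl_iota_mul, contract_cp, map_sum]
        refine Finset.sum_congr rfl fun k _ => ?_
        rw [ih (L.eraseIdx k).length ?_ _ rfl, map_smul, smul_eq_mul]
        have := k.2
        rw [← hn, List.length_cons, length_erase_lt]
        omega

theorem wk_swap_bil (L1 L2 : List V) (a b : V) :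
    wk (fun a b => S a b) (L1 ++ a :: b :: L2) + wk (fun a b => S a b) (L1 ++ b :: a :: L2) =
      (S a b + S b a) * wk (fun a b => S a b) (L1 ++ L2) := by
  simp only [wk_eq_cl, cp_append, cp_cons]
  rw [← map_add, ← mul_add, ← mul_assoc, ← mul_assoc, ← add_mul, ι_mul_ι_add_swap]
  have : QuadraticMap.polar (⇑S.toQuadraticMap) a b = S a b + S b a := by
    simp only [QuadraticMap.polar, LinearMap.BilinMap.toQuadraticMap_apply, map_add,
      LinearMap.add_apply]
    ring
  rw [this, ← Algebra.smul_def, mul_smul_comm, map_smul, smul_eq_mul]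

theorem wk_slot_sum {κ : Type*} (s : Finset κ) (c : κ → ℝ) (f : κ → V) (A D : List V) :
    wk (fun a b => S a b) (A ++ (∑ k ∈ s, c k • f k) :: D) =
      ∑ k ∈ s, c k * wk (fun a b => S a b) (A ++ f k :: D) := by
  simp only [wk_eq_cl, cp_append, cp_cons, map_sum, map_smul, Finset.sum_mul, Finset.mul_sum,
    smul_mul_assoc, mul_smul_comm, smul_eq_mul]

theorem wk_add (v w : V) (A D : List V) :
    wk (fun a b => S a b) (A ++ (v + w) :: D) =
      wk (fun a b => S a b) (A ++ v :: D) + wk (fun a b => S a b) (A ++ w :: D) := by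
  simp only [wk_eq_cl, cp_append, cp_cons, map_add, add_mul, mul_add]

theorem wk_sub (v w : V) (A D : List V) :
    wk (fun a b => S a b) (A ++ (v - w) :: D) =
      wk (fun a b => S a b) (A ++ v :: D) - wk (fun a b => S a b) (A ++ w :: D) := by
  simp only [wk_eq_cl, cp_append, cp_cons, map_sub, sub_mul, mul_sub]

theorem wk_smul (c : ℝ) (v : V) (A D : List V) :
    wk (fun a b => S a b) (A ++ (c • v) :: D) = c * wk (fun a b => S a b) (A ++ v :: D) := by
  simp only [wk_eq_cl, cp_append, cp_cons, map_smul, smul_mul_assoc, mul_smul_comm, smul_eq_mul]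

/-- a square in the middle of a list -/
theorem wk_sq_bil (L1 L2 : List V) (a : V) :
    wk (fun a b => S a b) (L1 ++ a :: a :: L2) = S a a * wk (fun a b => S a b) (L1 ++ L2) := by
  have := wk_swap_bil S L1 L2 a a
  linarith

end bil

section free

variable {V : Type*} (S : V → V → ℝ)

/-- the bilinear extension to the free module -/
def frS : LinearMap.BilinForm ℝ (V →₀ ℝ) :=
  Finsupp.lift _ ℝ V fun a => Finsupp.lift ℝ ℝ V fun b => S a b

theorem frS_single (a b : V) : frS S (Finsupp.single a 1) (Finsupp.single b 1) = S a b := by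
  simp [frS]

theorem wk_free (L : List V) : wk S L =
    wk (fun a b => frS S a b) (L.map fun a => Finsupp.single a 1) :=
  (wk_map S _ _ L fun a _ b _ => frS_single S a b).symm

/-- Exchange of neighbours. -/
theorem wk_swap (L1 L2 : List V) (a b : V) :
    wk S (L1 ++ a :: b :: L2) + wk S (L1 ++ b :: a :: L2) = (S a b + S b a) * wk S (L1 ++ L2) := by
  simp only [wk_free S, List.map_append, List.map_cons]
  rw [wk_swap_bil, frS_single, frS_single]

theorem wk_sq (L1 L2 : List V) (a : V) :
    wk S (L1 ++ a :: a :: L2) = S a a * wk S (L1 ++ L2) := by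
  have := wk_swap S L1 L2 a a
  linarith

end free

end Vale.Agent.P184.H38
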