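import Vale.Agent.P184.H38.Wick

set_option linter.all false

/-! Wick functionals of direct sums (bounds), and the two dimensional twisted functional. -/

noncomputable section

namespace Vale.Agent.P184.H38

open Vale.Agent.P184.H460 CliffordAlgebra
open scoped ComplexConjugate

section move

variable {V : Type*}

/-- moving an entry to the end with the help of an exchange relation -/
theorem move_rel (F : List V → ℝ) (P : V → V → ℝ)
    (h : ∀ A D a b, F (A ++ a :: b :: D) + F (A ++ b :: a :: D) = P a b * F (A ++ D))
    (A L : List V) (a : V) : F (A ++ a :: L) =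
      ∑ k : Fin L.length, (-1 : ℝ) ^ (k : ℕ) * P a (L.get k) * F (A ++ L.eraseIdx k) +
        (-1) ^ L.length * F (A ++ L ++ [a]) := by
  induction L generalizing A with
  | nil => simp
  | cons b L ih =>
      have h1 : F (A ++ a :: b :: L) = P a b * F (A ++ L) - F (A ++ b :: a :: L) := by
        have := h A L a b
        linarith
      have h2 := ih (A ++ [b])
      simp only [List.append_assoc, List.singleton_append, List.cons_append, List.nil_append] at h2
      rw [h1, h2]
      simp only [List.length_cons]
      rw [Fin.sum_univ_succ]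
      simp only [Fin.val_zero, pow_zero, one_mul, List.get_cons_zero, List.eraseIdx_cons_zero,
        Fin.val_succ, List.eraseIdx_cons_succ, List.append_assoc, List.cons_append]
      have h3 : ∀ k : Fin L.length, (b :: L).get k.succ = L.get k := fun k => rfl
      simp only [h3, pow_succ]
      have h4 : ∑ x : Fin L.length, (-1 : ℝ) ^ (x : ℕ) * -1 * P a (L.get x) *
          F (A ++ b :: L.eraseIdx x) = - ∑ x : Fin L.length, (-1 : ℝ) ^ (x : ℕ) * P a (L.get x) *
          F (A ++ b :: L.eraseIdx x) := by
        rw [← Finset.sum_neg_distrib]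
        exact Finset.sum_congr rfl fun k _ => by ring
      rw [h4]
      ring

end move

section dsum

variable {V W : Type*} (S : V → V → ℝ) (S' : W → W → ℝ)

/-- orthogonal sum of two arrays -/
def oS : V ⊕ W → V ⊕ W → ℝ
  | .inl a, .inl b => S a b
  | .inr a, .inr b => S' a b
  | _, _ => 0

theorem wk_block (A : List V) (B : List W) :
    wk (oS S S') (A.map .inl ++ B.map .inr) = wk S A * wk S' B := by
  induction hn : A.length using Nat.strong_induction_on generalizing A with
  | _ n ih =>
    cases A with
    | nil =>
        rw [wk_nil, one_mul, List.map_nil, List.nil_append]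
        exact wk_map S' (oS S S') Sum.inr B fun _ _ _ _ => rfl
    | cons a A =>
        rw [List.map_cons, List.cons_append, wk_cons, wk_cons]
        have hlen : A.length + B.length = (A.map (Sum.inl : V → V ⊕ W) ++
          B.map (Sum.inr : W → V ⊕ W)).length := by simp
        rw [← (finCongr hlen).sum_comp, Fin.sum_univ_add]
        have h2 : ∀ k : Fin B.length, (-1 : ℝ) ^ ((finCongr hlen (Fin.natAdd A.length k) :
            Fin _) : ℕ) * oS S S' (.inl a) ((A.map (Sum.inl : V → V ⊕ W) ++
            B.map (Sum.inr : W → V ⊕ W)).get (finCongr hlen (Fin.natAdd A.length k))) *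
            wk (oS S S') ((A.map (Sum.inl : V → V ⊕ W) ++ B.map (Sum.inr : W → V ⊕ W)).eraseIdx
              ((finCongr hlen (Fin.natAdd A.length k) : Fin _) : ℕ)) = 0 := by
          intro k
          have : (A.map (Sum.inl : V → V ⊕ W) ++ B.map (Sum.inr : W → V ⊕ W)).get
              (finCongr hlen (Fin.natAdd A.length k)) = .inr (B.get k) := by
            rw [List.get_eq_getElem]
            simp only [finCongr_apply, Fin.val_cast, Fin.val_natAdd]
            rw [List.getElem_append_right (by simp)]
            simp
          rw [this]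
          simp [oS]
        rw [Finset.sum_eq_zero (fun k _ => h2 k), add_zero, Finset.sum_mul]
        refine Finset.sum_congr rfl fun k _ => ?_
        have hk := k.2
        have h3 : ((finCongr hlen (Fin.castAdd B.length k) : Fin _) : ℕ) = k := rfl
        have h4 : (A.map (Sum.inl : V → V ⊕ W) ++ B.map (Sum.inr : W → V ⊕ W)).get
              (finCongr hlen (Fin.castAdd B.length k)) = .inl (A.get k) := by
          rw [List.get_eq_getElem]
          simp only [finCongr_apply, Fin.val_cast, Fin.val_castAdd]
          rw [List.getElem_append_left (by simp)]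
          simp
        rw [h3, h4, List.eraseIdx_append_of_lt_length (by simpa using hk), eraseIdx_map',
          ih (A.eraseIdx k).length ?_ _ rfl]
        · simp only [oS]; ring
        · rw [← hn, List.length_cons, length_erase_lt]; omega

theorem abs_wk_move (A : List (V ⊕ W)) (B : List W) (x : V) (D : List (V ⊕ W)) :
    |wk (oS S S') (A ++ (B.map .inr ++ .inl x :: D))| =
      |wk (oS S S') (A ++ .inl x :: (B.map .inr ++ D))| := by
  induction B generalizing A with
  | nil => rfl
  | cons b B ih =>
      have h1 := ih (A ++ [.inr b])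
      simp only [List.append_assoc, List.singleton_append, List.cons_append, List.nil_append] at h1
      rw [List.map_cons, List.cons_append, h1]
      have h2 := wk_swap (oS S S') A (B.map .inr ++ D) (.inr b) (.inl x)
      have h3 : oS S S' (.inr b) (.inl x) + oS S S' (.inl x) (.inr b) = 0 := by simp [oS]
      rw [h3, zero_mul] at h2
      have h4 : wk (oS S S') (A ++ Sum.inr b :: Sum.inl x :: (B.map Sum.inr ++ D)) =
          - wk (oS S S') (A ++ Sum.inl x :: Sum.inr b :: (B.map Sum.inr ++ D)) := by linarith
      rw [h4, abs_neg, List.cons_append]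

theorem fmL {V W : Type*} (z : W) (P : List (V ⊕ W)) :
    (Sum.inr z :: P).filterMap Sum.getLeft? = P.filterMap Sum.getLeft? := rfl

theorem fmR {V W : Type*} (z : V) (P : List (V ⊕ W)) :
    (Sum.inl z :: P).filterMap Sum.getRight? = P.filterMap Sum.getRight? := rfl

theorem abs_wk_sort (A : List V) (B : List W) (L : List (V ⊕ W)) :
    |wk (oS S S') (A.map .inl ++ (B.map .inr ++ L))| =
      |wk S (A ++ L.filterMap Sum.getLeft?)| * |wk S' (B ++ L.filterMap Sum.getRight?)| := by
  induction L generalizing A B with
  | nil => simp [wk_block, abs_mul]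
  | cons z L ih =>
      rcases z with x | y
      · rw [abs_wk_move]
        have := ih (A ++ [x]) B
        simpa [List.append_assoc, fmR] using this
      · have := ih A (B ++ [y])
        simpa [List.append_assoc, fmL] using this

end dsum

section dsumbil

variable {V W : Type*} [AddCommGroup V] [Module ℝ V] [AddCommGroup W] [Module ℝ W]
  (S : LinearMap.BilinForm ℝ V) (S' : LinearMap.BilinForm ℝ W)

/-- the direct sum of two bilinear forms -/
def dS : LinearMap.BilinForm ℝ (V × W) :=
  S.compl₁₂ (LinearMap.fst ℝ V W) (LinearMap.fst ℝ V W) +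
    S'.compl₁₂ (LinearMap.snd ℝ V W) (LinearMap.snd ℝ V W)

theorem dS_apply (a b : V × W) : dS S S' a b = S a.1 b.1 + S' a.2 b.2 := by
  simp [dS]

/-- inclusion of the summands -/
def inc : V ⊕ W → V × W
  | .inl v => (v, 0)
  | .inr w => (0, w)

theorem dS_inc (x y : V ⊕ W) :
    dS S S' (inc x) (inc y) = oS (fun a b => S a b) (fun a b => S' a b) x y := by
  rcases x with x | x <;> rcases y with y | y <;> simp [dS_apply, inc, oS]

/-- Bounds of product type pass to direct sums. -/
theorem wk_dsum_bound_aux {n : ℕ} (u : Fin n → V) (w : Fin n → W) (a b : Fin n → ℝ)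
    (ha : ∀ i, 0 ≤ a i) (hb : ∀ i, 0 ≤ b i) (C C' : ℝ) (hC : 0 ≤ C) (hC' : 0 ≤ C')
    (h1 : ∀ l : List (Fin n), l.Pairwise (· < ·) →
      |wk (fun x y => S x y) (l.map u)| ≤ C * (l.map a).prod)
    (h2 : ∀ l : List (Fin n), l.Pairwise (· < ·) →
      |wk (fun x y => S' x y) (l.map w)| ≤ C' * (l.map b).prod)
    (R : List (Fin n)) : ∀ P : List (Fin n ⊕ Fin n),
    (P.map (Sum.elim id id) ++ R).Pairwise (· < ·) →
    |wk (fun x y => dS S S' x y) (P.map (inc ∘ Sum.map u w) ++ R.map fun i => (u i, w i))| ≤
      C * C' * (P.map (Sum.elim a b)).prod * (R.map fun i => a i + b i).prod := by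
  induction R with
  | nil =>
      intro P hP
      rw [List.map_nil, List.append_nil, List.map_nil, List.prod_nil, mul_one]
      have e1 : P.map (inc ∘ Sum.map u w) = (P.map (Sum.map u w)).map inc := by
        rw [List.map_map]
      rw [e1, wk_map (oS (fun a b => S a b) (fun a b => S' a b)) _ inc _
        (fun x _ y _ => dS_inc S S' x y)]
      have h3 := abs_wk_sort (fun a b => S a b) (fun a b => S' a b) [] [] (P.map (Sum.map u w))
      simp only [List.map_nil, List.nil_append] at h3
      rw [h3]
      have e2 : (P.map (Sum.map u w)).filterMap Sum.getLeft? = (P.filterMap Sum.getLeft?).map u := by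
        rw [List.filterMap_map, List.map_filterMap]
        congr 1
        funext z
        rcases z with z | z <;> rfl
      have e3 : (P.map (Sum.map u w)).filterMap Sum.getRight? =
          (P.filterMap Sum.getRight?).map w := by
        rw [List.filterMap_map, List.map_filterMap]
        congr 1
        funext z
        rcases z with z | z <;> rfl
      have e4 : (P.map (Sum.elim a b)).prod = ((P.filterMap Sum.getLeft?).map a).prod *
          ((P.filterMap Sum.getRight?).map b).prod := by
        clear h3 e1 e2 e3 hP
        induction P with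
        | nil => simp
        | cons z P ih =>
            rcases z with z | z
            · simp [ih, fmR]; ring
            · simp [ih, fmL]; ring
      rw [e2, e3, e4]
      rw [List.append_nil] at hP
      have s1 : (P.filterMap Sum.getLeft?).Sublist (P.map (Sum.elim id id)) := by
        clear h3 e1 e2 e3 e4 hP
        induction P with
        | nil => simp
        | cons z P ih =>
            rcases z with z | z
            · simpa using ih
            · simpa [fmL] using ih.cons z
      have s2 : (P.filterMap Sum.getRight?).Sublist (P.map (Sum.elim id id)) := by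
        clear h3 e1 e2 e3 e4 hP s1
        induction P with
        | nil => simp
        | cons z P ih =>
            rcases z with z | z
            · simpa [fmR] using ih.cons z
            · simpa using ih
      have h4 := h1 _ (hP.sublist s1)
      have h5 := h2 _ (hP.sublist s2)
      refine (mul_le_mul h4 h5 (abs_nonneg _) ?_).trans (le_of_eq (by ring))
      refine mul_nonneg hC (List.prod_nonneg ?_)
      intro x hx
      obtain ⟨i, _, rfl⟩ := List.mem_map.1 hx
      exact ha i
  | cons i R ih =>
      intro P hP
      have hadd : ((u i, w i) : V × W) = inc (Sum.inl (u i)) + inc (Sum.inr (w i)) := by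
        simp [inc]
      rw [List.map_cons, hadd, wk_add]
      have h3 := ih (P ++ [.inl i]) (by simpa using hP)
      have h4 := ih (P ++ [.inr i]) (by simpa using hP)
      simp only [List.map_append, List.map_singleton, List.append_assoc, List.singleton_append,
        Function.comp_apply, Sum.map_inl, Sum.map_inr, List.prod_append, List.prod_singleton,
        Sum.elim_inl, Sum.elim_inr] at h3 h4
      refine (abs_add_le _ _).trans ((add_le_add h3 h4).trans (le_of_eq ?_))
      rw [List.map_cons, List.prod_cons]
      ring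

theorem wk_dsum_bound {n : ℕ} (u : Fin n → V) (w : Fin n → W) (a b : Fin n → ℝ)
    (ha : ∀ i, 0 ≤ a i) (hb : ∀ i, 0 ≤ b i) (C C' : ℝ) (hC : 0 ≤ C) (hC' : 0 ≤ C')
    (h1 : ∀ l : List (Fin n), l.Pairwise (· < ·) →
      |wk (fun x y => S x y) (l.map u)| ≤ C * (l.map a).prod)
    (h2 : ∀ l : List (Fin n), l.Pairwise (· < ·) →
      |wk (fun x y => S' x y) (l.map w)| ≤ C' * (l.map b).prod) :
    |wk (fun x y => dS S S' x y) (List.ofFn fun i => (u i, w i))| ≤
      C * C' * ∏ i, (a i + b i) := by
  have h := wk_dsum_bound_aux S S' u w a b ha hb C C' hC hC' h1 h2 (List.finRange n) []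
    (by simpa using List.pairwise_lt_finRange n)
  rw [List.ofFn_eq_map]
  simpa [← List.ofFn_eq_map, List.prod_ofFn] using h

/-- Hadamard's bound for all sublists, with a uniform constant. -/
theorem wk_bound_sub {V : Type*} (S : V → V → ℝ) {n : ℕ} (v : Fin n → V) (g : Fin n → ℝ)
    (hg : ∀ i, 0 ≤ g i) (M : ℝ) (hM : 0 ≤ M) (h : ∀ i j, i < j → |S (v i) (v j)| ≤ M * g i * g j)
    (l : List (Fin n)) (hl : l.Pairwise (· < ·)) :
    |wk S (l.map v)| ≤ (l.map fun i => √(M * √n) * g i).prod := by
  have hpos : 0 ≤ (l.map fun i => √(M * √n) * g i).prod := by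
    refine List.prod_nonneg ?_
    intro x hx
    obtain ⟨i, _, rfl⟩ := List.mem_map.1 hx
    exact mul_nonneg (Real.sqrt_nonneg _) (hg i)
  have hle : l.length ≤ n := by
    have hnd : l.Nodup := hl.imp (fun {a b} (h : a < b) => h.ne)
    have := hnd.length_le_card
    simpa using this
  rcases Nat.even_or_odd l.length with he | ho
  · obtain ⟨k, hk⟩ := he
    have hk2 : l.length = 2 * k := by omega
    have e1 : l.map v = List.ofFn fun i : Fin (2 * k) => v (l.get (i.cast hk2.symm)) := by
      apply List.ext_getElem
      · simp [hk2]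
      · intro m h1 h2
        simp
    rw [e1]
    have h3 := wk_bound S (fun i : Fin (2 * k) => v (l.get (i.cast hk2.symm)))
      (fun i : Fin (2 * k) => g (l.get (i.cast hk2.symm))) (fun i => hg _) M hM (fun i j hij => by
        apply h
        have := List.pairwise_iff_getElem.1 hl i j (by have := i.2; omega) (by have := j.2; omega) hij
        simpa using this)
    refine h3.trans ?_
    have e2 : (l.map fun i => √(M * √n) * g i).prod =
        ∏ i : Fin (2 * k), (√(M * √n) * g (l.get (i.cast hk2.symm))) := by
      have : (l.map fun i => √(M * √n) * g i) = List.ofFn fun i : Fin (2 * k) =>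
          (√(M * √n) * g (l.get (i.cast hk2.symm))) := by
        apply List.ext_getElem
        · simp [hk2]
        · intro m h1 h2
          simp
      rw [this, List.prod_ofFn]
    rw [e2, Finset.prod_mul_distrib, Finset.prod_const, Finset.card_univ, Fintype.card_fin,
      pow_mul, Real.sq_sqrt (by positivity), mul_comm]
    refine mul_le_mul_of_nonneg_right ?_ (Finset.prod_nonneg fun i _ => hg _)
    refine pow_le_pow_left₀ (by positivity) ?_ k
    refine mul_le_mul_of_nonneg_left (Real.sqrt_le_sqrt ?_) hM
    have : ((2 * k : ℕ) : ℝ) ≤ n := by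
      rw [← hk2]; exact_mod_cast hle
    push_cast at this
    exact this
  · rw [wk_odd S _ (by simpa using ho), abs_zero]
    exact hpos

end dsumbil

section two

/-- alternating product with conjugates -/
def Zc : List ℂ → ℂ
  | [] => 1
  | u :: L => u * conj (Zc L)

theorem Zc_append_swap (A D : List ℂ) (a b : ℂ) :
    Zc (A ++ a :: b :: D) + Zc (A ++ b :: a :: D) = (2 * (a * conj b).re : ℝ) * Zc (A ++ D) := by
  induction A with
  | nil =>
      simp only [List.nil_append, Zc, map_mul, Complex.conj_conj]
      have : (a * conj b + b * conj a) = ((2 * (a * conj b).re : ℝ) : ℂ) := by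
        apply Complex.ext <;> simp <;> ring
      rw [← this]
      ring
  | cons c A ih =>
      simp only [List.cons_append, Zc]
      rw [← mul_add, ← map_add, ih, map_mul, Complex.conj_ofReal]
      ring

theorem Zc_concat (L : List ℂ) (b : ℂ) : Zc (L ++ [b]) =
    Zc L * (if Even L.length then b else conj b) := by
  induction L with
  | nil => simp [Zc]
  | cons a L ih =>
      simp only [List.cons_append, Zc, ih, map_mul, List.length_cons]
      by_cases h : Even L.length
      · have h' : ¬ Even (L.length + 1) := by
          rw [Nat.even_add_one]; exact not_not_intro h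
        rw [if_pos h, if_neg h']
        ring
      · have h' : Even (L.length + 1) := by
          rw [Nat.even_add_one]; exact h
        rw [if_neg h, if_pos h', Complex.conj_conj]
        ring

variable (φ : ℝ)

/-- the twisted functional in dimension two -/
def fth (L : List ℂ) : ℝ := (Complex.exp (φ / 2 * Complex.I) * Zc L).im / Real.sin (φ / 2)

theorem fth_swap (A D : List ℂ) (a b : ℂ) :
    fth φ (A ++ a :: b :: D) + fth φ (A ++ b :: a :: D) = 2 * (a * conj b).re * fth φ (A ++ D) := by
  unfold fth
  rw [← add_div, ← Complex.add_im, ← mul_add, Zc_append_swap, ← mul_div_assoc]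
  congr 1
  rw [mul_left_comm, Complex.im_ofReal_mul]

theorem fth_cyc (hφ : Real.sin (φ / 2) ≠ 0) (L : List ℂ) (a : ℂ) (hL : Odd L.length) :
    fth φ (a :: L) = - fth φ (L ++ [Complex.exp (φ * Complex.I) * a]) := by
  unfold fth
  rw [← neg_div, ← Complex.neg_im]
  congr 1
  rw [Zc_concat, if_neg (Nat.not_even_iff_odd.2 hL), Zc]
  have h : Complex.exp (φ / 2 * Complex.I) * (Zc L * conj (Complex.exp (φ * Complex.I) * a)) =
      conj (Complex.exp (φ / 2 * Complex.I) * (a * conj (Zc L))) := by
    rw [map_mul, map_mul, map_mul, Complex.conj_conj, ← Complex.exp_conj, ← Complex.exp_conj]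
    simp only [map_mul, map_div₀, Complex.conj_ofReal, Complex.conj_I, map_ofNat]
    have : Complex.exp (φ / 2 * Complex.I) * Complex.exp (φ * -Complex.I) =
        Complex.exp (φ / 2 * -Complex.I) := by
      rw [← Complex.exp_add]
      congr 1
      ring
    rw [← this]
    ring
  rw [h, Complex.neg_im, Complex.conj_im, neg_neg]

/-- the twisted bilinear form in dimension two -/
def Sth : LinearMap.BilinForm ℝ ℂ :=
  LinearMap.mk₂ ℝ (fun u v => (u * conj v).re + Real.cos (φ / 2) / Real.sin (φ / 2) *
    (u * conj v).im)
    (fun u v w => by simp only [add_mul, Complex.add_re, Complex.add_im]; ring)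
    (fun c u v => by
      simp only [Complex.real_smul, mul_assoc, Complex.re_ofReal_mul, Complex.im_ofReal_mul,
        smul_eq_mul]; ring)
    (fun u v w => by simp only [map_add, mul_add, Complex.add_re, Complex.add_im]; ring)
    (fun c u v => by
      simp only [Complex.real_smul, map_mul, Complex.conj_ofReal, mul_left_comm u,
        Complex.re_ofReal_mul, Complex.im_ofReal_mul, smul_eq_mul]; ring)

theorem Sth_apply (u v : ℂ) : Sth φ u v = (u * conj v).re + Real.cos (φ / 2) / Real.sin (φ / 2) *
    (u * conj v).im := rfl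

theorem fth_last_sub (L : List ℂ) (b c : ℂ) (hL : Odd L.length) :
    fth φ (L ++ [b]) - fth φ (L ++ [c]) = fth φ (L ++ [b - c]) := by
  unfold fth
  simp only [Zc_concat, if_neg (Nat.not_even_iff_odd.2 hL)]
  rw [← sub_div, ← Complex.sub_im, map_sub]
  congr 2
  ring

theorem fth_cons (hφ : Real.sin (φ / 2) ≠ 0) (L : List ℂ) (a : ℂ) (hL : Odd L.length) :
    fth φ (a :: L) =
      ∑ k : Fin L.length, (-1 : ℝ) ^ (k : ℕ) * Sth φ a (L.get k) * fth φ (L.eraseIdx k) := by
  set c := Real.cos (φ / 2) with hc
  set s := Real.sin (φ / 2) with hs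
  set e := Complex.exp (φ * Complex.I) with he
  set b : ℂ := -(1 / 2) * (1 - Complex.I * (c / s)) * a with hb
  have hcs : (c : ℂ) ^ 2 + (s : ℂ) ^ 2 = 1 := by
    rw [← Complex.ofReal_pow, ← Complex.ofReal_pow, ← Complex.ofReal_add, hc, hs,
      Real.cos_sq_add_sin_sq, Complex.ofReal_one]
  have hs' : (s : ℂ) ≠ 0 := by exact_mod_cast hφ
  have he2 : e = (c + s * Complex.I) ^ 2 := by
    have : (c : ℂ) + s * Complex.I = Complex.exp (φ / 2 * Complex.I) := by
      rw [Complex.exp_mul_I, hc, hs]
      push_cast
      rfl
    rw [this, ← Complex.exp_nat_mul, he]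
    congr 1
    push_cast
    ring
  have hbe : b - e * b = e * a := by
    have h1 : b - e * b = (1 - e) * (-(1 / 2) * (1 - Complex.I * (c / s))) * a := by
      rw [hb]; ring
    rw [h1]
    congr 1
    rw [he2]
    field_simp
    have hI : Complex.I ^ 2 = -1 := Complex.I_sq
    have hI3 : Complex.I ^ 3 = -Complex.I := by rw [pow_succ, hI]; ring
    linear_combination (norm := skip) (0 : ℂ) * hcs
    ring_nf
    simp only [hI, hI3]
    have h4 : (c : ℂ) ^ 2 = 1 - s ^ 2 := by linear_combination hcs
    have h5 : (c : ℂ) ^ 3 = c * (1 - s ^ 2) := by linear_combination (c : ℂ) * hcs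
    simp only [h4, h5]
    ring
  have hrel := move_rel (fth φ) (fun a b => 2 * (a * conj b).re)
    (fun A D a b => fth_swap φ A D a b) [] L b
  simp only [List.nil_append, hL.neg_one_pow] at hrel
  have hcyc := fth_cyc φ hφ L b hL
  have hcyc' := fth_cyc φ hφ L a hL
  have hsub := fth_last_sub φ L b (e * b) hL
  rw [hbe] at hsub
  have h6 : fth φ (a :: L) = - ∑ k : Fin L.length, (-1 : ℝ) ^ (k : ℕ) *
      (2 * (b * conj (L.get k)).re) * fth φ (L.eraseIdx k) := by
    rw [hcyc', ← hsub]
    rw [hcyc] at hrel
    linarith
  rw [h6, ← Finset.sum_neg_distrib]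
  refine Finset.sum_congr rfl fun k _ => ?_
  have h7 : -(2 * (b * conj (L.get k)).re) = Sth φ a (L.get k) := by
    rw [Sth_apply, hb]
    have h8 : -(1 / 2) * (1 - Complex.I * (c / s)) * a * conj (L.get k) =
      ((-(1 / 2) : ℝ) : ℂ) * ((a * conj (L.get k)) - ((c / s : ℝ) : ℂ) *
        (Complex.I * (a * conj (L.get k)))) := by
      push_cast
      ring
    rw [h8, Complex.re_ofReal_mul, Complex.sub_re, Complex.re_ofReal_mul, Complex.I_mul_re]
    ring
  rw [← h7]
  ring

theorem wk_Sth (hφ : Real.sin (φ / 2) ≠ 0) (L : List ℂ) (hL : Even L.length) :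
    wk (fun a b => Sth φ a b) L = fth φ L := by
  induction hn : L.length using Nat.strong_induction_on generalizing L with
  | _ n ih =>
    cases L with
    | nil =>
        rw [wk_nil, fth, Zc, mul_one, Complex.exp_im]
        simp [hφ]
    | cons a L =>
        have hL' : Odd L.length := by
          rw [List.length_cons, Nat.even_add_one] at hL
          exact Nat.not_even_iff_odd.1 hL
        rw [wk_cons, fth_cons φ hφ L a hL']
        refine Finset.sum_congr rfl fun k _ => ?_
        have hk := k.2
        rw [ih (L.eraseIdx k).length ?_ _ ?_ rfl]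
        · rw [← hn, List.length_cons, length_erase_lt]; omega
        · rw [length_erase_lt]
          obtain ⟨m, hm⟩ := hL'
          exact ⟨m, by omega⟩

theorem norm_Zc (L : List ℂ) : ‖Zc L‖ = (L.map fun u => ‖u‖).prod := by
  induction L with
  | nil => simp [Zc]
  | cons a L ih => simp [Zc, ih]

theorem wk_Sth_bound (hφ : 0 < Real.sin (φ / 2)) (L : List ℂ) :
    |wk (fun a b => Sth φ a b) L| ≤ 1 / Real.sin (φ / 2) * (L.map fun u => ‖u‖).prod := by
  have hpos : 0 ≤ (L.map fun u => ‖u‖).prod := by
    rw [← norm_Zc]; exact norm_nonneg _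
  rcases Nat.even_or_odd L.length with he | ho
  · rw [wk_Sth φ hφ.ne' L he, fth, abs_div, abs_of_pos hφ, div_eq_mul_one_div, mul_comm]
    refine mul_le_mul_of_nonneg_left ?_ (by positivity)
    refine (Complex.abs_im_le_norm _).trans (le_of_eq ?_)
    rw [norm_mul, norm_Zc]
    have : ‖Complex.exp (φ / 2 * Complex.I)‖ = 1 := by
      have := Complex.norm_exp_ofReal_mul_I (φ / 2)
      push_cast at this
      exact this
    rw [this, one_mul]
  · rw [wk_odd _ _ ho, abs_zero]
    positivity

/-- twisted cyclicity of the form -/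
theorem Sth_cyc (hφ : Real.sin (φ / 2) ≠ 0) (a b : ℂ) :
    Sth φ b (Complex.exp (φ * Complex.I) * a) = - Sth φ a b := by
  have h := fth_cyc φ hφ [b] a (by simp)
  have h1 := wk_Sth φ hφ [a, b] (by simp)
  have h2 := wk_Sth φ hφ [b, Complex.exp (φ * Complex.I) * a] (by simp)
  rw [wk_pair] at h1 h2
  rw [h1, h2, h]
  simp

theorem Sth_self (a : ℂ) : Sth φ a a = ‖a‖ ^ 2 := by
  rw [Sth_apply, Complex.mul_conj, Complex.ofReal_re, Complex.ofReal_im, mul_zero, add_zero,
    Complex.normSq_eq_norm_sq]

/-- The form on unit vectors. -/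
theorem Sth_exp (hφ : Real.sin (φ / 2) ≠ 0) (r r' x x' : ℝ) :
    Sth φ (r * Complex.exp (x * Complex.I)) (r' * Complex.exp (x' * Complex.I)) =
      r * r' * (Real.sin (φ / 2 + (x - x')) / Real.sin (φ / 2)) := by
  have h : (r * Complex.exp (x * Complex.I)) * conj (r' * Complex.exp (x' * Complex.I)) =
      ((r * r' : ℝ) : ℂ) * Complex.exp (((x - x' : ℝ) : ℂ) * Complex.I) := by
    rw [map_mul, ← Complex.exp_conj, map_mul, Complex.conj_ofReal, Complex.conj_ofReal,
      Complex.conj_I]
    push_cast
    rw [show ((x : ℂ) - x') * Complex.I = x * Complex.I + x' * -Complex.I by ring, Complex.exp_add]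
    ring
  rw [Sth_apply, h, Complex.re_ofReal_mul, Complex.im_ofReal_mul, Complex.exp_ofReal_mul_I_re,
    Complex.exp_ofReal_mul_I_im, Real.sin_add]
  field_simp

/-- The bound for the direct sum of the two dimensional functional and a general one. -/
theorem wk_th_bound {W : Type*} [AddCommGroup W] [Module ℝ W] (SA : LinearMap.BilinForm ℝ W)
    (hφ : 0 < Real.sin (φ / 2)) {n : ℕ} (u : Fin n → ℂ) (w : Fin n → W) (g : Fin n → ℝ)
    (hg : ∀ i, 0 ≤ g i) (a M : ℝ) (ha : 0 ≤ a) (hM : 0 ≤ M) (hu : ∀ i, ‖u i‖ ≤ a * g i)
    (hw : ∀ i j, i < j → |SA (w i) (w j)| ≤ M * g i * g j) :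
    |wk (fun x y => dS (Sth φ) SA x y) (List.ofFn fun i => (u i, w i))| ≤
      1 / Real.sin (φ / 2) * (a + √(M * √n)) ^ n * ∏ i, g i := by
  have h := wk_dsum_bound (Sth φ) SA u w (fun i => a * g i) (fun i => √(M * √n) * g i)
    (fun i => mul_nonneg ha (hg i)) (fun i => mul_nonneg (Real.sqrt_nonneg _) (hg i))
    (1 / Real.sin (φ / 2)) 1 (by positivity) zero_le_one (fun l _ => by
      refine (wk_Sth_bound φ hφ _).trans ?_
      rw [List.map_map]
      refine mul_le_mul_of_nonneg_left ?_ (by positivity)
      have hle : ∀ l : List (Fin n), (l.map ((fun u : ℂ => ‖u‖) ∘ u)).prod ≤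
          (l.map fun i => a * g i).prod ∧ 0 ≤ (l.map ((fun u : ℂ => ‖u‖) ∘ u)).prod := by
        intro l
        induction l with
        | nil => simp
        | cons i l ih =>
            simp only [List.map_cons, List.prod_cons, Function.comp_apply]
            exact ⟨mul_le_mul (hu i) ih.1 ih.2 (mul_nonneg ha (hg i)),
              mul_nonneg (norm_nonneg _) ih.2⟩
      exact (hle l).1)
    (fun l hl => by
      rw [one_mul]
      exact wk_bound_sub (fun x y => SA x y) w g hg M hM hw l hl)
  refine h.trans (le_of_eq ?_)
  have : ∀ i, a * g i + √(M * √n) * g i = (a + √(M * √n)) * g i := fun i => by ring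
  simp only [this, Finset.prod_mul_distrib, Finset.prod_const, Finset.card_univ, Fintype.card_fin]
  ring

end two

end Vale.Agent.P184.H38
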