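import Vale.Agent.P184.H38.PfD

set_option linter.all false

/-! The Wick functional with several twisted modes. -/

noncomputable section

namespace Vale.Agent.P184.H38

/-- the sum of the two dimensional twisted forms -/
def SM {n : ℕ} (φ : Fin n → ℝ) : LinearMap.BilinForm ℝ (Fin n → ℂ) :=
  ∑ j, (Sth (φ j)).compl₁₂ (LinearMap.proj j) (LinearMap.proj j)

theorem SM_apply {n : ℕ} (φ : Fin n → ℝ) (u v : Fin n → ℂ) :
    SM φ u v = ∑ j, Sth (φ j) (u j) (v j) := by
  simp [SM, LinearMap.sum_apply]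

theorem SM_cyc {n : ℕ} (φ : Fin n → ℝ) (hφ : ∀ j, Real.sin (φ j / 2) ≠ 0) (a b : Fin n → ℂ) :
    SM φ b (fun j => Complex.exp (φ j * Complex.I) * a j) = - SM φ a b := by
  rw [SM_apply, SM_apply, ← Finset.sum_neg_distrib]
  exact Finset.sum_congr rfl fun j _ => Sth_cyc (φ j) (hφ j) _ _

theorem SM_self {n : ℕ} (φ : Fin n → ℝ) (a : Fin n → ℂ) : SM φ a a = ∑ j, ‖a j‖ ^ 2 := by
  rw [SM_apply]
  exact Finset.sum_congr rfl fun j _ => Sth_self (φ j) _

/-- invariance under a common rotation of each coordinate -/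
theorem Sth_rotate (φ : ℝ) (z a b : ℂ) (hz : ‖z‖ = 1) : Sth φ (z * a) (z * b) = Sth φ a b := by
  have h : z * a * (starRingEnd ℂ) (z * b) = a * (starRingEnd ℂ) b := by
    rw [map_mul]
    have h1 : z * (starRingEnd ℂ) z = 1 := by
      rw [Complex.mul_conj, Complex.normSq_eq_norm_sq, hz]
      simp
    calc z * a * ((starRingEnd ℂ) z * (starRingEnd ℂ) b)
        = (z * (starRingEnd ℂ) z) * (a * (starRingEnd ℂ) b) := by ring
      _ = _ := by rw [h1, one_mul]
  rw [Sth_apply, Sth_apply, h]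

theorem SM_rotate {n : ℕ} (φ : Fin n → ℝ) (z a b : Fin n → ℂ) (hz : ∀ j, ‖z j‖ = 1) :
    SM φ (fun j => z j * a j) (fun j => z j * b j) = SM φ a b := by
  rw [SM_apply, SM_apply]
  exact Finset.sum_congr rfl fun j _ => Sth_rotate (φ j) _ _ _ (hz j)

theorem abs_Sth_le (φ : ℝ) (hφ : 0 < Real.sin (φ / 2)) (a b : ℂ) :
    |Sth φ a b| ≤ 1 / Real.sin (φ / 2) * (‖a‖ * ‖b‖) := by
  have h := wk_Sth_bound φ hφ [a, b]
  rw [wk_pair] at h
  simpa using h

theorem abs_SM_le {n : ℕ} (φ : Fin n → ℝ) (hφ : ∀ j, 0 < Real.sin (φ j / 2))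
    (a b : Fin n → ℂ) : |SM φ a b| ≤ ∑ j, 1 / Real.sin (φ j / 2) * (‖a j‖ * ‖b j‖) := by
  rw [SM_apply]
  exact (Finset.abs_sum_le_sum_abs _ _).trans
    (Finset.sum_le_sum fun j _ => abs_Sth_le (φ j) (hφ j) _ _)

section

variable {W : Type*} [AddCommGroup W] [Module ℝ W] (SA : LinearMap.BilinForm ℝ W)

/-- the bound for all sublists -/
theorem wk_multi {N : ℕ} (w : Fin N → W) (b : Fin N → ℝ) (hb : ∀ i, 0 ≤ b i) (C : ℝ) (hC : 0 ≤ C)
    (h : ∀ l : List (Fin N), l.Pairwise (· < ·) →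
      |wk (fun x y => SA x y) (l.map w)| ≤ C * (l.map b).prod)
    {n : ℕ} : ∀ (φ : Fin n → ℝ) (hφ : ∀ j, 0 < Real.sin (φ j / 2)) (u : Fin N → Fin n → ℂ)
      (l : List (Fin N)), l.Pairwise (· < ·) →
      |wk (fun x y => dS (SM φ) SA x y) (l.map fun i => (u i, w i))| ≤
        (∏ j, 1 / Real.sin (φ j / 2)) * C * (l.map fun i => ∑ j, ‖u i j‖ + b i).prod := by
  induction n with
  | zero =>
      intro φ hφ u l hl
      have e1 : wk (fun x y => dS (SM φ) SA x y) (l.map fun i => (u i, w i)) =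
          wk (fun x y => SA x y) (l.map w) := by
        have := wk_map (fun x y : (Fin 0 → ℂ) × W => dS (SM φ) SA x y) (fun x y => SA x y) Prod.snd
          (l.map fun i => (u i, w i)) (fun x _ y _ => by
            simp only [dS_apply, SM_apply]
            simp)
        rw [← this, List.map_map]
        rfl
      rw [e1]
      simpa using h l hl
  | succ n ih =>
      intro φ hφ u l hl
      have e1 : wk (fun x y => dS (SM φ) SA x y) (l.map fun i => (u i, w i)) =
          wk (fun x y => dS (Sth (φ 0)) (dS (SM fun j => φ j.succ) SA) x y)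
            (l.map fun i => (u i 0, ((fun j : Fin n => u i j.succ), w i))) := by
        have := wk_map (fun x y : (Fin (n + 1) → ℂ) × W => dS (SM φ) SA x y)
          (fun x y => dS (Sth (φ 0)) (dS (SM fun j => φ j.succ) SA) x y)
          (fun z => (z.1 0, ((fun j : Fin n => z.1 j.succ), z.2)))
          (l.map fun i => (u i, w i)) (fun x _ y _ => by
            simp only [dS_apply, SM_apply]
            rw [Fin.sum_univ_succ]
            ring)
        rw [← this, List.map_map]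
        rfl
      rw [e1]
      have hP0 : 0 ≤ ∏ j : Fin n, 1 / Real.sin (φ j.succ / 2) :=
        Finset.prod_nonneg fun j _ => (div_pos one_pos (hφ _)).le
      have h2 := wk_dsum_bound_aux (Sth (φ 0)) (dS (SM fun j => φ j.succ) SA)
        (fun i => u i 0) (fun i => ((fun j : Fin n => u i j.succ), w i))
        (fun i => ‖u i 0‖) (fun i => ∑ j : Fin n, ‖u i j.succ‖ + b i)
        (fun i => norm_nonneg _)
        (fun i => add_nonneg (Finset.sum_nonneg fun j _ => norm_nonneg _) (hb i))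
        (1 / Real.sin (φ 0 / 2)) ((∏ j : Fin n, 1 / Real.sin (φ j.succ / 2)) * C)
        (div_pos one_pos (hφ 0)).le (mul_nonneg hP0 hC)
        (fun l _ => by
          refine (wk_Sth_bound (φ 0) (hφ 0) _).trans (le_of_eq ?_)
          rw [List.map_map]
          rfl)
        (fun l hl => ih (fun j => φ j.succ) (fun j => hφ _) (fun i j => u i j.succ) l hl)
        l [] (by simpa using hl)
      simp only [List.map_nil, List.nil_append, List.prod_nil, mul_one] at h2
      refine h2.trans (le_of_eq ?_)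
      rw [Fin.prod_univ_succ]
      have e2 : (fun i => ‖u i 0‖ + (∑ j : Fin n, ‖u i j.succ‖ + b i)) =
          fun i => ∑ j, ‖u i j‖ + b i := by
        funext i
        rw [Fin.sum_univ_succ]
        ring
      rw [e2]
      ring

theorem wk_multi_bound {n N : ℕ} (φ : Fin n → ℝ) (hφ : ∀ j, 0 < Real.sin (φ j / 2))
    (u : Fin N → Fin n → ℂ) (w : Fin N → W) (g : Fin N → ℝ)
    (hg : ∀ i, 0 ≤ g i) (a M : ℝ) (ha : 0 ≤ a) (hM : 0 ≤ M) (hu : ∀ i, ∑ j, ‖u i j‖ ≤ a * g i)
    (hw : ∀ i j, i < j → |SA (w i) (w j)| ≤ M * g i * g j) :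
    |wk (fun x y => dS (SM φ) SA x y) (List.ofFn fun i => (u i, w i))| ≤
      (∏ j, 1 / Real.sin (φ j / 2)) * (a + √(M * √N)) ^ N * ∏ i, g i := by
  have h := wk_multi SA w (fun i => √(M * √N) * g i)
    (fun i => mul_nonneg (Real.sqrt_nonneg _) (hg i)) 1 zero_le_one (fun l hl => by
      rw [one_mul]
      exact wk_bound_sub (fun x y => SA x y) w g hg M hM hw l hl) φ hφ u (List.finRange N)
      (List.pairwise_lt_finRange N)
  rw [← List.ofFn_eq_map, ← List.ofFn_eq_map, List.prod_ofFn, mul_one] at h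
  refine h.trans ?_
  rw [mul_assoc]
  refine mul_le_mul_of_nonneg_left ?_ (Finset.prod_nonneg fun j _ => (div_pos one_pos (hφ _)).le)
  have h1 : ∀ i ∈ Finset.univ, ∑ j, ‖u i j‖ + √(M * √N) * g i ≤ (a + √(M * √N)) * g i := by
    intro i _
    rw [add_mul]
    linarith [hu i]
  refine (Finset.prod_le_prod (fun i _ => add_nonneg (Finset.sum_nonneg fun j _ => norm_nonneg _)
    (mul_nonneg (Real.sqrt_nonneg _) (hg i))) h1).trans (le_of_eq ?_)
  rw [Finset.prod_mul_distrib, Finset.prod_const, Finset.card_univ, Fintype.card_fin]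

theorem wk_multi_list {E : Type*} {n : ℕ} (φ : Fin n → ℝ) (hφ : ∀ j, 0 < Real.sin (φ j / 2))
    (u : E → Fin n → ℂ) (w : E → W) (g : E → ℝ)
    (hg : ∀ a, 0 ≤ g a) (a M : ℝ) (ha : 0 ≤ a) (hM : 0 ≤ M) (L : List E)
    (hu : ∀ z ∈ L, ∑ j, ‖u z j‖ ≤ a * g z)
    (hw : ∀ y ∈ L, ∀ z ∈ L, |SA (w y) (w z)| ≤ M * g y * g z)
    (N : ℕ) (hL : L.length = N) :
    |wk (fun x y => dS (SM φ) SA x y) (L.map fun z => (u z, w z))| ≤
      (∏ j, 1 / Real.sin (φ j / 2)) * (a + √(M * √N)) ^ N * (L.map g).prod := by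
  subst hL
  have e1 : (L.map fun z => (u z, w z)) = List.ofFn fun i : Fin L.length =>
      (u (L.get i), w (L.get i)) := by
    apply List.ext_getElem
    · simp
    · intro m h1 h2
      simp
  have e2 : L.map g = List.ofFn fun i : Fin L.length => g (L.get i) := by
    apply List.ext_getElem
    · simp
    · intro m h1 h2
      simp
  rw [e1, e2, List.prod_ofFn]
  exact wk_multi_bound SA φ hφ _ _ (fun i => g (L.get i)) (fun i => hg _) a M ha hM
    (fun i => hu _ (List.get_mem _ _)) fun i j _ => hw _ (List.get_mem _ _) _ (List.get_mem _ _)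

/-- The bound for words of differences, with several modes. -/
theorem flat_thM {G : Type*} {n : ℕ} (φ : Fin n → ℝ) (hφ : ∀ j, 0 < Real.sin (φ j / 2))
    (v : G → (Fin n → ℂ) × W) (g : G → G → ℝ)
    (hg : ∀ p q, 0 ≤ g p q) (a M : ℝ) (ha : 0 ≤ a) (hM : 0 ≤ M)
    (hu : ∀ p q, ∑ j, ‖(v p).1 j - (v q).1 j‖ ≤ a * g p q)
    (hw : ∀ p p' q q', |SA ((v p).2 - (v p').2) ((v q).2 - (v q').2)| ≤ M * g p p' * g q q')
    (k : ℕ) (R : List (G × G × G)) (hR : R.length = k) :
    |wk (fun x y => dS (SM φ) SA x y)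
      (R.flatMap fun t => [v t.1 - v t.2.1, v t.2.1 - v t.2.2])| ≤
      (∏ j, 1 / Real.sin (φ j / 2)) * (a + √(M * √(2 * k))) ^ (2 * k) *
        (R.map fun t => g t.1 t.2.1 * g t.2.1 t.2.2).prod := by
  have e1 : (R.flatMap fun t => [v t.1 - v t.2.1, v t.2.1 - v t.2.2]) =
      (R.flatMap fun t => [(t.1, t.2.1), (t.2.1, t.2.2)]).map
        fun z : G × G => ((v z.1).1 - (v z.2).1, (v z.1).2 - (v z.2).2) := by
    rw [flat_map]
    rfl
  have e2 := flat_prod R (fun t => (t.1, t.2.1)) (fun t => (t.2.1, t.2.2))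
    (fun z : G × G => g z.1 z.2)
  rw [e1, ← e2]
  have h := wk_multi_list SA φ hφ (fun z : G × G => (v z.1).1 - (v z.2).1)
    (fun z : G × G => (v z.1).2 - (v z.2).2) (fun z : G × G => g z.1 z.2) (fun z => hg _ _) a M
    ha hM (R.flatMap fun t => [(t.1, t.2.1), (t.2.1, t.2.2)])
    (fun z _ => by simpa using hu z.1 z.2)
    (fun y _ z _ => hw _ _ _ _) (2 * k) (by rw [flat_length, hR])
  push_cast at h
  exact h

end

end Vale.Agent.P184.H38
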